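import Mathlib
import Crest.Agent.Lead.UFDefs

/-! M4 (`BaseFun`) for row 75: Fejér means of the square wave, primitive part by Möbius. -/

set_option autoImplicit false

namespace Crest.Agent.H3.BaseFun

open Finset Crest.Agent.Lead.UF

/-- Fourier coefficients of the square wave. -/
noncomputable def b (k : ℤ) : ℂ := if Odd k then 2 / (Real.pi * Complex.I * k) else 0

/-- Frequencies. -/
noncomputable def S (M : ℕ) : Finset ℤ := Finset.Ioo (-(M : ℤ)) M

/-- Fejér weights. -/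
noncomputable def w (M : ℕ) (k : ℤ) : ℝ := ((M : ℝ) - |(k : ℝ)|) / M

/-- Coefficients of the Fejér mean. -/
noncomputable def c (M : ℕ) (k : ℤ) : ℂ := (w M k : ℂ) * b k

lemma int_e (k : ℤ) (hk : k ≠ 0) (x y : ℝ) :
    ∫ t in x..y, e (-(k * t)) = (e (-(k * y)) - e (-(k * x))) / (-(2 * Real.pi * Complex.I * k)) := by
  have hpi : (Real.pi : ℂ) ≠ 0 := by exact_mod_cast Real.pi_ne_zero
  have hk' : (k : ℂ) ≠ 0 := by exact_mod_cast hk
  have hd : ∀ t : ℝ, HasDerivAt (fun t : ℝ => e (-(k * t)) / (-(2 * Real.pi * Complex.I * k)))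
      (e (-(k * t))) t := by
    intro t
    have h1 : HasDerivAt (fun t : ℝ => -((k : ℝ) * t)) (-(k : ℝ)) t := by
      exact (((hasDerivAt_id' t).const_mul (k : ℝ)).fun_neg).congr_deriv (by ring)
    have h2 := (hasDerivAt_e (-(k * t))).scomp t h1
    have h3 := h2.div_const (-(2 * Real.pi * Complex.I * k))
    refine h3.congr_deriv ?_
    simp only [Complex.real_smul]
    push_cast
    field_simp
  rw [intervalIntegral.integral_eq_sub_of_hasDerivAt (fun t _ => hd t)]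
  · ring
  · exact (continuous_e.comp (by fun_prop)).intervalIntegrable _ _

lemma e_half (k : ℤ) : e (-(k * (1 / 2))) = if Odd k then -1 else 1 := by
  rcases Int.even_or_odd' k with ⟨j, rfl | rfl⟩
  · rw [if_neg (by simp [Int.not_odd_iff_even])]
    have : -(((2 * j : ℤ) : ℝ) * (1 / 2)) = ((-j : ℤ) : ℝ) := by push_cast; ring
    rw [this, e_int]
  · rw [if_pos (by simp)]
    have : -(((2 * j + 1 : ℤ) : ℝ) * (1 / 2)) = 1 / 2 + ((-j - 1 : ℤ) : ℝ) := by push_cast; ring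
    rw [this, e_add_int]
    unfold e
    have : (2 * Real.pi * ((1 / 2 : ℝ) : ℂ) * Complex.I : ℂ) = Real.pi * Complex.I := by
      push_cast; ring
    rw [this, Complex.exp_pi_mul_I]

lemma b_eq (k : ℤ) :
    b k = (∫ t in (0 : ℝ)..(1 / 2), e (-(k * t))) - ∫ t in (1 / 2 : ℝ)..1, e (-(k * t)) := by
  have hpi : (Real.pi : ℂ) ≠ 0 := by exact_mod_cast Real.pi_ne_zero
  by_cases hk : k = 0
  · subst hk
    simp [b]
    norm_num
  have hk' : (k : ℂ) ≠ 0 := by exact_mod_cast hk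
  rw [int_e k hk, int_e k hk, e_half]
  have h1 : e (-((k : ℝ) * 1)) = 1 := by
    have : -((k : ℝ) * 1) = ((-k : ℤ) : ℝ) := by push_cast; ring
    rw [this, e_int]
  rw [h1]
  simp only [mul_zero, neg_zero, e_zero, b]
  split_ifs
  · field_simp; ring
  · simp

lemma orth (k : ℤ) :
    (∫ t in (0 : ℝ)..(1 / 2), e (-(k * t))) + ∫ t in (1 / 2 : ℝ)..1, e (-(k * t))
      = if k = 0 then 1 else 0 := by
  by_cases hk : k = 0
  · subst hk
    simp
  rw [int_e k hk, int_e k hk, if_neg hk]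
  have h1 : e (-((k : ℝ) * 1)) = 1 := by
    have : -((k : ℝ) * 1) = ((-k : ℤ) : ℝ) := by push_cast; ring
    rw [this, e_int]
  rw [h1]
  simp only [mul_zero, neg_zero, e_zero]
  ring

/-- Convolution of the square wave with a positive kernel of mean one is bounded by one. -/
lemma conv_bound (s : Finset ℤ) (a : ℤ → ℂ) (m : ℤ → ℤ) (κ : ℝ → ℝ) (hκ : ∀ t, 0 ≤ κ t)
    (hK : ∀ t : ℝ, ∑ i ∈ s, a i * e (-(m i * t)) = (κ t : ℂ))
    (h0 : ∑ i ∈ s, a i * (if m i = 0 then 1 else 0) = 1) :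
    ‖∑ i ∈ s, a i * b (m i)‖ ≤ 1 := by
  have hint : ∀ x y : ℝ, ∑ i ∈ s, a i * ∫ t in x..y, e (-(m i * t))
      = ((∫ t in x..y, κ t : ℝ) : ℂ) := by
    intro x y
    rw [← intervalIntegral.integral_ofReal]
    simp_rw [← hK]
    rw [intervalIntegral.integral_finsetSum]
    · simp_rw [intervalIntegral.integral_const_mul]
    · intro i _
      exact (continuous_const.mul (continuous_e.comp (by fun_prop))).intervalIntegrable _ _
  have hA : 0 ≤ ∫ t in (0 : ℝ)..(1 / 2), κ t :=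
    intervalIntegral.integral_nonneg (by norm_num) (fun t _ => hκ t)
  have hB : 0 ≤ ∫ t in (1 / 2 : ℝ)..1, κ t :=
    intervalIntegral.integral_nonneg (by norm_num) (fun t _ => hκ t)
  have hsum : (∫ t in (0 : ℝ)..(1 / 2), κ t) + ∫ t in (1 / 2 : ℝ)..1, κ t = 1 := by
    have : (((∫ t in (0 : ℝ)..(1 / 2), κ t) + ∫ t in (1 / 2 : ℝ)..1, κ t : ℝ) : ℂ) = 1 := by
      push_cast
      rw [← h0]
      simp_rw [← orth, mul_add, Finset.sum_add_distrib, hint]
    exact_mod_cast this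
  have : ∑ i ∈ s, a i * b (m i)
      = (((∫ t in (0 : ℝ)..(1 / 2), κ t) - ∫ t in (1 / 2 : ℝ)..1, κ t : ℝ) : ℂ) := by
    simp_rw [b_eq, mul_sub, Finset.sum_sub_distrib, hint]
    push_cast; rfl
  rw [this, Complex.norm_real, Real.norm_eq_abs, abs_le]
  constructor <;> linarith

lemma pair_sum (M : ℕ) (g : ℤ → ℂ) :
    ∑ p ∈ Finset.Ico (0 : ℤ) M ×ˢ Finset.Ico (0 : ℤ) M, g (p.1 - p.2)
      = ∑ k ∈ S M, (((M : ℝ) - |(k : ℝ)| : ℝ) : ℂ) * g k := by
  rw [← Finset.sum_fiberwise_of_maps_to (t := S M) (g := fun p : ℤ × ℤ => p.1 - p.2)]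
  · refine Finset.sum_congr rfl fun k hk => ?_
    rw [Finset.sum_congr rfl (g := fun _ => g k)
      (fun p hp => by rw [(Finset.mem_filter.1 hp).2])]
    rw [Finset.sum_const, nsmul_eq_mul]
    congr 1
    have : (Finset.Ico (0 : ℤ) M ×ˢ Finset.Ico (0 : ℤ) M).filter (fun p : ℤ × ℤ => p.1 - p.2 = k)
        = (Finset.Ico (max 0 k) (min (M : ℤ) (M + k))).image (fun a => (a, a - k)) := by
      ext ⟨x, y⟩
      simp only [Finset.mem_filter, Finset.mem_product, Finset.mem_Ico, Finset.mem_image,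
        Prod.mk.injEq, max_le_iff, lt_min_iff]
      constructor
      · rintro ⟨⟨⟨h1, h2⟩, h3, h4⟩, h5⟩
        exact ⟨x, ⟨⟨h1, by omega⟩, h2, by omega⟩, rfl, by omega⟩
      · rintro ⟨a, ⟨⟨h1, h2⟩, h3, h4⟩, rfl, rfl⟩
        exact ⟨⟨⟨h1, h3⟩, by omega, by omega⟩, by omega⟩
    rw [this, Finset.card_image_of_injective _ (fun a a' h => (Prod.ext_iff.1 h).1), Int.card_Ico]
    simp only [S, Finset.mem_Ioo] at hk
    have h2 : ((min (M : ℤ) (M + k) - max 0 k).toNat : ℤ) = M - |k| := by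
      rcases abs_cases k with h | h <;> omega
    have h3 : (((min (M : ℤ) (M + k) - max 0 k).toNat : ℤ) : ℂ) = ((M - |k| : ℤ) : ℂ) := by
      rw [h2]
    rw [Int.cast_natCast] at h3
    rw [h3]
    rw [← Int.cast_abs, Complex.ofReal_sub, Complex.ofReal_intCast, Complex.ofReal_natCast,
      Int.cast_sub, Int.cast_natCast]
  · rintro ⟨x, y⟩ hp
    simp only [Finset.mem_product, Finset.mem_Ico] at hp
    simp only [S, Finset.mem_Ioo]
    omega

/-- The projected Fejér kernel is nonnegative. -/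
lemma kernel_pos (M n : ℕ) (hn : 0 < n) (y : ℝ) :
    ∑ k ∈ (S M).filter (fun k => (n : ℤ) ∣ k), (w M k : ℂ) * e (k * y)
      = (((∑ r ∈ Finset.Ico (0 : ℤ) n,
          ‖∑ a ∈ (Finset.Ico (0 : ℤ) M).filter (fun a => a % n = r), e (a * y)‖ ^ 2) / M : ℝ) : ℂ) := by
  have h1 := pair_sum M (fun k => if (n : ℤ) ∣ k then e (k * y) else 0)
  have h2 : ∑ k ∈ (S M).filter (fun k => (n : ℤ) ∣ k), (w M k : ℂ) * e (k * y)
      = (∑ k ∈ S M, (((M : ℝ) - |(k : ℝ)| : ℝ) : ℂ) * if (n : ℤ) ∣ k then e (k * y) else 0) / M := by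
    rw [Finset.sum_filter, Finset.sum_div]
    refine Finset.sum_congr rfl fun k _ => ?_
    split_ifs
    · simp only [w]; push_cast; ring
    · simp
  rw [h2, ← h1]
  push_cast
  congr 1
  have h3 : ∀ r : ℤ,
      ((‖∑ a ∈ (Finset.Ico (0 : ℤ) M).filter (fun a => a % n = r), e (a * y)‖ : ℝ) : ℂ) ^ 2
      = ∑ p ∈ Finset.Ico (0 : ℤ) M ×ˢ Finset.Ico (0 : ℤ) M,
          if p.1 % n = r ∧ p.2 % n = r then e (((p.1 - p.2 : ℤ) : ℝ) * y) else 0 := by
    intro r
    rw [← Complex.mul_conj', map_sum, Finset.sum_mul_sum, Finset.sum_product, Finset.sum_filter]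
    refine Finset.sum_congr rfl fun a _ => ?_
    by_cases ha : a % n = r
    · rw [if_pos ha, Finset.sum_filter]
      refine Finset.sum_congr rfl fun a' _ => ?_
      by_cases ha' : a' % n = r
      · rw [if_pos ha', if_pos ⟨ha, ha'⟩, conj_e, ← e_add]
        congr 1; push_cast; ring
      · rw [if_neg ha', if_neg (fun h => ha' h.2)]
    · rw [if_neg ha]
      exact (Finset.sum_eq_zero fun a' _ => if_neg (fun h => ha h.1)).symm
  simp_rw [h3]
  rw [Finset.sum_comm]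
  refine Finset.sum_congr rfl fun p _ => ?_
  have hn' : (0 : ℤ) < n := by exact_mod_cast hn
  by_cases hd : (n : ℤ) ∣ p.1 - p.2
  · rw [if_pos hd, Finset.sum_eq_single (p.1 % n)]
    · rw [if_pos ⟨rfl, ((Int.emod_emod_of_dvd _ dvd_rfl).symm ▸
        (Int.emod_eq_emod_iff_emod_sub_eq_zero.2 (Int.emod_eq_zero_of_dvd hd)).symm)⟩]
      push_cast; rfl
    · intro r _ hr
      exact if_neg (fun h => hr h.1.symm)
    · intro h
      exact absurd (Finset.mem_Ico.2 ⟨Int.emod_nonneg _ hn'.ne', Int.emod_lt_of_pos _ hn'⟩) h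
  · rw [if_neg hd]
    refine (Finset.sum_eq_zero fun r _ => if_neg fun h => hd ?_).symm
    exact Int.dvd_of_emod_eq_zero (Int.emod_eq_emod_iff_emod_sub_eq_zero.1 (h.1.trans h.2.symm))

lemma b_mul (n j : ℤ) (hn : Odd n) : b (n * j) = b j / n := by
  unfold b
  by_cases hj : Odd j
  · rw [if_pos (hn.mul hj), if_pos hj]
    push_cast
    rw [div_div]; ring_nf
  · rw [if_neg (fun h => hj (Int.odd_mul.1 h).2), if_neg hj]; simp

lemma b_zero : b 0 = 0 := by simp [b]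

lemma c_zero (M : ℕ) : c M 0 = 0 := by simp [c, b_zero]

/-- (P1) the projection on multiples of `n` is bounded by `1/n`. -/
lemma proj_bound (M n : ℕ) (hM : 0 < M) (hn : 0 < n) (x : ℝ) :
    ‖∑ k ∈ (S M).filter (fun k => (n : ℤ) ∣ k), c M k * e (k * x)‖ ≤ 1 / n := by
  have hn' : (0 : ℝ) < n := by exact_mod_cast hn
  rcases Nat.even_or_odd n with he | ho
  · rw [Finset.sum_eq_zero]
    · simp
    · intro k hk
      obtain ⟨j, rfl⟩ := (Finset.mem_filter.1 hk).2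
      have : ¬ Odd ((n : ℤ) * j) := by
        rw [Int.not_odd_iff_even]
        exact Even.mul_right (by exact_mod_cast he) j
      simp [c, b, this]
  have hM' : (0 : ℝ) < M := by exact_mod_cast hM
  have hnz : (n : ℤ) ≠ 0 := by exact_mod_cast hn.ne'
  have key := conv_bound ((S M).filter (fun k => (n : ℤ) ∣ k)) (fun k => w M k * e (k * x))
    (fun k => k / n) (fun t => (∑ r ∈ Finset.Ico (0 : ℤ) n,
          ‖∑ a ∈ (Finset.Ico (0 : ℤ) M).filter (fun a => a % n = r), e (a * (x - t / n))‖ ^ 2) / M)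
    (fun t => by positivity)
    (fun t => by
      rw [← kernel_pos M n hn (x - t / n)]
      refine Finset.sum_congr rfl fun k hk => ?_
      obtain ⟨j, rfl⟩ := (Finset.mem_filter.1 hk).2
      rw [Int.mul_ediv_cancel_left _ hnz, mul_assoc, ← e_add]
      congr 2
      push_cast
      field_simp
      ring)
    (by
      rw [Finset.sum_eq_single 0]
      · simp [w, hM.ne']
      · intro k hk hk0
        obtain ⟨j, rfl⟩ := (Finset.mem_filter.1 hk).2
        rw [Int.mul_ediv_cancel_left _ hnz, if_neg (fun h => hk0 (by simp [h])), mul_zero]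
      · intro h
        exact absurd (Finset.mem_filter.2 ⟨by simp [S, hM], dvd_zero _⟩) h)
  have : ∑ k ∈ (S M).filter (fun k => (n : ℤ) ∣ k), c M k * e (k * x)
      = (∑ k ∈ (S M).filter (fun k => (n : ℤ) ∣ k), (w M k * e (k * x)) * b (k / n)) / n := by
    rw [Finset.sum_div]
    refine Finset.sum_congr rfl fun k hk => ?_
    obtain ⟨j, rfl⟩ := (Finset.mem_filter.1 hk).2
    rw [Int.mul_ediv_cancel_left _ hnz, c, b_mul _ _ (by exact_mod_cast ho)]
    push_cast; ring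
  rw [this, norm_div, Complex.norm_natCast]
  gcongr

lemma w_nonneg (M : ℕ) {k : ℤ} (hk : k ∈ S M) : 0 ≤ w M k := by
  simp only [S, Finset.mem_Ioo] at hk
  have : |k| ≤ M := abs_le.2 ⟨hk.1.le, hk.2.le⟩
  have h2 : |(k : ℝ)| ≤ M := by exact_mod_cast this
  unfold w
  exact div_nonneg (by linarith) (Nat.cast_nonneg _)

lemma w_le (M : ℕ) (k : ℤ) : w M k ≤ 1 := by
  unfold w
  exact div_le_one_of_le₀ (by linarith [abs_nonneg (k : ℝ)]) (Nat.cast_nonneg _)

lemma norm_b_odd {k : ℤ} (hk : Odd k) : ‖b k‖ ^ 2 = 4 / Real.pi ^ 2 * (1 / (k : ℝ) ^ 2) := by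
  unfold b
  rw [if_pos hk, norm_div, norm_mul, norm_mul, Complex.norm_I, Complex.norm_real,
    Complex.norm_intCast, Real.norm_eq_abs, abs_of_pos Real.pi_pos, div_pow, mul_pow, sq_abs]
  simp only [Complex.norm_ofNat, mul_one]
  field_simp
  norm_num

lemma norm_b_le (k : ℤ) : ‖b k‖ ^ 2 ≤ 4 / 9 * (1 / (k : ℝ) ^ 2) := by
  by_cases hk : Odd k
  · rw [norm_b_odd hk]
    gcongr
    nlinarith [Real.pi_gt_three]
  · have : ‖b k‖ ^ 2 = 0 := by simp [b, if_neg hk]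
    rw [this]
    positivity

lemma sum_inv_sq_le (M : ℕ) : ∑ j ∈ S M, 1 / (j : ℝ) ^ 2 ≤ 4 := by
  have h1 : ∑ j ∈ S M, 1 / (j : ℝ) ^ 2 ≤
      ∑ j ∈ ((Finset.range M).image (fun i : ℕ => (i : ℤ))) ∪
        ((Finset.range M).image (fun i : ℕ => -(i : ℤ))), 1 / (j : ℝ) ^ 2 := by
    refine Finset.sum_le_sum_of_subset_of_nonneg ?_ (fun _ _ _ => by positivity)
    intro j hj
    simp only [S, Finset.mem_Ioo] at hj
    simp only [Finset.mem_union, Finset.mem_image, Finset.mem_range]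
    rcases le_total 0 j with h | h
    · exact Or.inl ⟨j.toNat, by omega, by omega⟩
    · exact Or.inr ⟨(-j).toNat, by omega, by omega⟩
  have h2 : ∑ i ∈ Finset.range M, 1 / (i : ℝ) ^ 2 ≤ 2 := by
    have h := sum_Ioo_inv_sq_le (α := ℝ) 0 M
    have : ∑ i ∈ Finset.range M, 1 / (i : ℝ) ^ 2 = ∑ i ∈ Finset.Ioo 0 M, ((i : ℝ) ^ 2)⁻¹ := by
      rw [← Finset.sum_subset (s₁ := Finset.Ioo 0 M)]
      · simp
      · intro i hi
        simp only [Finset.mem_Ioo] at hi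
        simp [hi.2]
      · intro i hi hi'
        simp only [Finset.mem_Ioo, Finset.mem_range] at hi hi'
        have : i = 0 := by omega
        simp [this]
    rw [this]
    simpa using h
  have h3 := Finset.sum_union_inter (s₁ := (Finset.range M).image (fun i : ℕ => (i : ℤ)))
    (s₂ := (Finset.range M).image (fun i : ℕ => -(i : ℤ))) (f := fun j : ℤ => 1 / (j : ℝ) ^ 2)
  have h4 : 0 ≤ ∑ j ∈ ((Finset.range M).image (fun i : ℕ => (i : ℤ))) ∩
        ((Finset.range M).image (fun i : ℕ => -(i : ℤ))), 1 / (j : ℝ) ^ 2 := by positivity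
  refine h1.trans ((le_add_of_nonneg_right h4).trans (h3.le.trans ?_))
  rw [Finset.sum_image (fun a _ b _ h => by simpa using h),
    Finset.sum_image (fun a _ b _ h => by simpa using h)]
  simp only [Int.cast_natCast, Int.cast_neg, neg_sq]
  linarith

/-- (P2) energy of the projection. -/
lemma proj_energy (M n : ℕ) (hn : 0 < n) :
    ∑ k ∈ (S M).filter (fun k => (n : ℤ) ∣ k), ‖c M k‖ ^ 2 ≤ 16 / 9 * (1 / (n : ℝ) ^ 2) := by
  have hn' : (0 : ℝ) < n := by exact_mod_cast hn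
  have hnz : (0 : ℤ) < n := by exact_mod_cast hn
  have h1 : ∑ k ∈ (S M).filter (fun k => (n : ℤ) ∣ k), ‖c M k‖ ^ 2
      ≤ ∑ k ∈ (S M).image (fun j => (n : ℤ) * j), 4 / 9 * (1 / (k : ℝ) ^ 2) := by
    refine le_trans (Finset.sum_le_sum fun k hk => ?_)
      (Finset.sum_le_sum_of_subset_of_nonneg ?_ (fun _ _ _ => by positivity))
    · refine le_trans ?_ (norm_b_le k)
      have hk' := (Finset.mem_filter.1 hk).1
      rw [c, norm_mul, Complex.norm_real, Real.norm_eq_abs, abs_of_nonneg (w_nonneg M hk')]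
      exact pow_le_pow_left₀ (mul_nonneg (w_nonneg M hk') (norm_nonneg _))
        (mul_le_of_le_one_left (norm_nonneg _) (w_le M k)) 2
    · intro k hk
      obtain ⟨hk1, j, rfl⟩ := Finset.mem_filter.1 hk
      refine Finset.mem_image.2 ⟨j, ?_, rfl⟩
      simp only [S, Finset.mem_Ioo] at hk1 ⊢
      constructor
      · by_contra h
        have : (n : ℤ) * j ≤ 1 * j := by
          apply mul_le_mul_of_nonpos_right <;> omega
        omega
      · by_contra h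
        have : 1 * j ≤ (n : ℤ) * j := by
          apply mul_le_mul_of_nonneg_right <;> omega
        omega
  refine h1.trans ?_
  rw [Finset.sum_image (fun a _ b _ h => by simpa [hn.ne'] using h)]
  have : ∀ j : ℤ, 4 / 9 * (1 / (((n : ℤ) * j : ℤ) : ℝ) ^ 2)
      = 4 / 9 * (1 / (n : ℝ) ^ 2) * (1 / (j : ℝ) ^ 2) := by
    intro j; push_cast; rw [mul_pow]; field_simp
  simp_rw [this]
  rw [← Finset.mul_sum]
  have h3 := sum_inv_sq_le M
  have h4 : 0 ≤ 4 / 9 * (1 / (n : ℝ) ^ 2) := by positivity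
  nlinarith

lemma hasSum_odd : HasSum (fun j : ℕ => (1 : ℝ) / (2 * j + 1) ^ 2) (Real.pi ^ 2 / 8) := by
  have h := hasSum_zeta_two
  have he : HasSum (fun j : ℕ => (1 : ℝ) / ((2 * j : ℕ) : ℝ) ^ 2) (Real.pi ^ 2 / 24) := by
    have h1 : (fun j : ℕ => (1 : ℝ) / ((2 * j : ℕ) : ℝ) ^ 2)
        = fun j : ℕ => 1 / 4 * ((1 : ℝ) / (j : ℝ) ^ 2) := by
      ext j; push_cast; ring
    rw [h1, show Real.pi ^ 2 / 24 = 1 / 4 * (Real.pi ^ 2 / 6) by ring]
    exact h.mul_left (1 / 4)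
  have ho : Summable (fun j : ℕ => (1 : ℝ) / ((2 * j + 1 : ℕ) : ℝ) ^ 2) :=
    h.summable.comp_injective (i := fun j : ℕ => 2 * j + 1) (fun a b hab => by simpa using hab)
  have := (HasSum.even_add_odd (f := fun n : ℕ => (1 : ℝ) / (n : ℝ) ^ 2) he ho.hasSum).unique h
  have h3 : ∑' j : ℕ, (1 : ℝ) / ((2 * j + 1 : ℕ) : ℝ) ^ 2 = Real.pi ^ 2 / 8 := by linarith
  have h4 := ho.hasSum
  rw [h3] at h4
  simpa using h4

/-- (P3) almost full energy. -/
lemma energy (η : ℝ) (hη : 0 < η) : ∃ M : ℕ, 0 < M ∧ 1 - η ≤ ∑ k ∈ S M, ‖c M k‖ ^ 2 := by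
  obtain ⟨δ, hδ, hδ1, hδη⟩ : ∃ δ : ℝ, 0 < δ ∧ δ < 1 ∧ 3 * δ ≤ η :=
    ⟨min (1 / 2) (η / 3), by positivity, (min_le_left _ _).trans_lt (by norm_num),
      by linarith [min_le_right (1 / 2 : ℝ) (η / 3)]⟩
  have hpi : 0 < Real.pi ^ 2 := by positivity
  have h1 := (hasSum_odd.mul_left (8 / Real.pi ^ 2)).tendsto_sum_nat
  have h8 : 8 / Real.pi ^ 2 * (Real.pi ^ 2 / 8) = 1 := by field_simp
  rw [h8] at h1
  obtain ⟨L, hL⟩ := (h1.eventually (lt_mem_nhds (show 1 - δ < 1 by linarith))).exists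
  obtain ⟨M, hM⟩ := exists_nat_gt (2 * L / δ + 2 * L + 1)
  have hL0 : (0 : ℝ) ≤ L := Nat.cast_nonneg _
  have hLδ : 0 ≤ 2 * L / δ := by positivity
  have hM0 : (0 : ℝ) < M := by linarith
  have hML : 2 * L < M := by
    have : (2 * L : ℝ) < M := by linarith
    exact_mod_cast this
  refine ⟨M, by omega, ?_⟩
  have hw : ∀ k : ℤ, Odd k → |(k : ℝ)| ≤ 2 * L →
      (1 - δ) ^ 2 * (4 / Real.pi ^ 2 * (1 / (k : ℝ) ^ 2)) ≤ ‖c M k‖ ^ 2 := by
    intro k hk hkL
    have hwk : 1 - δ ≤ w M k := by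
      unfold w
      rw [le_div_iff₀ hM0]
      have : 2 * L / δ ≤ M := by linarith
      rw [div_le_iff₀ hδ] at this
      nlinarith
    rw [c, norm_mul, mul_pow, norm_b_odd hk, Complex.norm_real, Real.norm_eq_abs, sq_abs]
    gcongr
  have h2 : ∑ j ∈ ((Finset.range L).image (fun i : ℕ => (2 * i + 1 : ℤ))) ∪
        ((Finset.range L).image (fun i : ℕ => -(2 * i + 1 : ℤ))), ‖c M j‖ ^ 2
      ≤ ∑ k ∈ S M, ‖c M k‖ ^ 2 := by
    refine Finset.sum_le_sum_of_subset_of_nonneg ?_ (fun _ _ _ => by positivity)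
    intro j hj
    simp only [Finset.mem_union, Finset.mem_image, Finset.mem_range] at hj
    simp only [S, Finset.mem_Ioo]
    rcases hj with ⟨i, hi, rfl⟩ | ⟨i, hi, rfl⟩ <;> omega
  refine le_trans ?_ h2
  rw [Finset.sum_union, Finset.sum_image (fun a _ b _ h => by simpa using h),
    Finset.sum_image (fun a _ b _ h => by simpa using h), ← Finset.sum_add_distrib]
  · have h3 : ∑ i ∈ Finset.range L, (1 - δ) ^ 2 * (8 / Real.pi ^ 2 * (1 / (2 * (i : ℝ) + 1) ^ 2))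
        ≤ ∑ i ∈ Finset.range L, (‖c M (2 * i + 1)‖ ^ 2 + ‖c M (-(2 * i + 1))‖ ^ 2) := by
      refine Finset.sum_le_sum fun i hi => ?_
      have hi' : (i : ℝ) + 1 ≤ L := by exact_mod_cast Finset.mem_range.1 hi
      have hi0 : (0 : ℝ) ≤ i := Nat.cast_nonneg _
      have a1 := hw (2 * i + 1) (by simp) (by push_cast; rw [abs_of_nonneg] <;> linarith)
      have a2 := hw (-(2 * i + 1)) (Odd.neg (by simp))
        (by push_cast; rw [abs_neg, abs_of_nonneg] <;> linarith)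
      push_cast at a1 a2
      rw [neg_sq] at a2
      have : (1 - δ) ^ 2 * (8 / Real.pi ^ 2 * (1 / (2 * (i : ℝ) + 1) ^ 2))
        = 2 * ((1 - δ) ^ 2 * (4 / Real.pi ^ 2 * (1 / (2 * (i : ℝ) + 1) ^ 2))) := by ring
      linarith
    refine le_trans ?_ h3
    rw [← Finset.mul_sum]
    have h4 : (1 - δ) ^ 2 * (1 - δ) ≤ (1 - δ) ^ 2 *
        ∑ i ∈ Finset.range L, (8 / Real.pi ^ 2 * (1 / (2 * (i : ℝ) + 1) ^ 2)) := by
      gcongr
    refine le_trans ?_ h4
    nlinarith [sq_nonneg δ, mul_pos hδ hδ]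
  · rw [Finset.disjoint_left]
    intro j h1 h2
    simp only [Finset.mem_image, Finset.mem_range] at h1 h2
    obtain ⟨i, -, rfl⟩ := h1
    obtain ⟨i', -, h⟩ := h2
    omega

/-- Primitive integer vectors. -/
def Prim {D : ℕ} (ξ : Fin D → ℤ) : Prop := Finset.univ.gcd ξ = 1

instance {D : ℕ} : DecidablePred (Prim (D := D)) := fun _ => by unfold Prim; infer_instance

lemma prim_iff {D : ℕ} (ξ : Fin D → ℤ) : Prim ξ ↔ ∃ v, ξ ⬝ᵥ v = 1 := by
  constructor
  · intro h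
    obtain ⟨g, hg⟩ := Finset.gcd_eq_sum_mul Finset.univ ξ
    exact ⟨g, by rw [dotProduct, ← hg]; exact h⟩
  · rintro ⟨v, hv⟩
    have h1 : Finset.univ.gcd ξ ∣ 1 := by
      rw [← hv, dotProduct]
      exact Finset.dvd_sum fun i _ => (Finset.gcd_dvd (Finset.mem_univ i)).mul_right _
    have := Finset.normalize_gcd (s := Finset.univ) (f := ξ)
    rw [Prim, ← this]
    exact normalize_eq_one.2 (isUnit_of_dvd_one h1)

lemma moebius_sum (M G : ℕ) (hG : 0 < G) (hGM : G ≤ M) :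
    ∑ n ∈ Finset.Icc 1 M, (if n ∣ G then ((ArithmeticFunction.moebius n : ℤ) : ℂ) else 0)
      = if G = 1 then 1 else 0 := by
  rw [← Finset.sum_filter]
  have : (Finset.Icc 1 M).filter (fun n => n ∣ G) = G.divisors := by
    ext n
    simp only [Finset.mem_filter, Finset.mem_Icc, Nat.mem_divisors]
    constructor
    · rintro ⟨-, h⟩; exact ⟨h, hG.ne'⟩
    · rintro ⟨h, -⟩
      exact ⟨⟨Nat.pos_of_dvd_of_pos h hG, (Nat.le_of_dvd hG h).trans hGM⟩, h⟩
  rw [this]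
  have h := congrArg (fun f : ArithmeticFunction ℤ => f G) ArithmeticFunction.moebius_mul_coe_zeta
  simp only [ArithmeticFunction.coe_mul_zeta_apply, ArithmeticFunction.one_apply] at h
  have h2 := congrArg (fun z : ℤ => (z : ℂ)) h
  push_cast at h2
  exact h2

lemma prim_sum (D M : ℕ) (g : Fin (D + 1) → ℤ → ℂ) (hg : ∀ i, g i 0 = 0) :
    ∑ ξ ∈ (Fintype.piFinset fun _ : Fin (D + 1) => S M).filter Prim, ∏ i, g i (ξ i)
      = ∑ n ∈ Finset.Icc 1 M, ((ArithmeticFunction.moebius n : ℤ) : ℂ) *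
          ∏ i, ∑ k ∈ (S M).filter (fun k => (n : ℤ) ∣ k), g i k := by
  simp_rw [Finset.sum_filter, Finset.prod_univ_sum, Finset.mul_sum]
  rw [Finset.sum_comm]
  refine Finset.sum_congr rfl fun ξ hξ => ?_
  by_cases h0 : ξ 0 = 0
  · have h1 : ∏ i, g i (ξ i) = 0 := Finset.prod_eq_zero (Finset.mem_univ 0) (by rw [h0, hg])
    rw [h1, ite_self]
    refine (Finset.sum_eq_zero fun n _ => ?_).symm
    rw [Finset.prod_eq_zero (Finset.mem_univ 0) (by rw [h0, hg, ite_self]), mul_zero]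
  have hG0 : Finset.univ.gcd ξ ≠ 0 := fun h =>
    h0 (Finset.gcd_eq_zero_iff.1 h 0 (Finset.mem_univ _))
  have hGM : (Finset.univ.gcd ξ).natAbs ≤ M := by
    have h1 := Int.natAbs_le_of_dvd_ne_zero (Finset.gcd_dvd (f := ξ) (Finset.mem_univ 0)) h0
    have h2 := Fintype.mem_piFinset.1 hξ 0
    simp only [S, Finset.mem_Ioo] at h2
    omega
  have key := moebius_sum M _ (Int.natAbs_pos.2 hG0) hGM
  have hp : Prim ξ ↔ (Finset.univ.gcd ξ).natAbs = 1 := by
    constructor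
    · intro h; rw [show Finset.univ.gcd ξ = 1 from h]; rfl
    · intro h
      have := Finset.normalize_gcd (s := Finset.univ) (f := ξ)
      rw [Prim, ← this]
      exact normalize_eq_one.2 (Int.isUnit_iff_natAbs_eq.2 h)
  have : (if Prim ξ then ∏ i, g i (ξ i) else 0)
      = (if (Finset.univ.gcd ξ).natAbs = 1 then 1 else 0) * ∏ i, g i (ξ i) := by
    by_cases h : Prim ξ
    · rw [if_pos h, if_pos (hp.1 h), one_mul]
    · rw [if_neg h, if_neg (fun h' => h (hp.2 h')), zero_mul]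
  rw [this, ← key, Finset.sum_mul]
  refine Finset.sum_congr rfl fun n _ => ?_
  have hd : n ∣ (Finset.univ.gcd ξ).natAbs ↔ ∀ i, (n : ℤ) ∣ ξ i := by
    rw [← Int.natCast_dvd, Finset.dvd_gcd_iff]; simp
  by_cases h : ∀ i, (n : ℤ) ∣ ξ i
  · rw [if_pos (hd.2 h)]
    simp [h]
  · rw [if_neg (fun h' => h (hd.1 h'))]
    push Not at h
    obtain ⟨i, hi⟩ := h
    rw [zero_mul, Finset.prod_eq_zero (f := fun i => if (n : ℤ) ∣ ξ i then g i (ξ i) else 0)
      (Finset.mem_univ i) (if_neg hi), mul_zero]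

lemma prim_approx (D M : ℕ) (hM : 0 < M) (g : Fin (D + 1) → ℤ → ℂ) (hg : ∀ i, g i 0 = 0)
    (A : ℝ) (hA : 0 ≤ A)
    (hb : ∀ n : ℕ, 2 ≤ n → ∀ i, ‖∑ k ∈ (S M).filter (fun k => (n : ℤ) ∣ k), g i k‖ ≤ A / n) :
    1 ≤ D → ‖∑ ξ ∈ (Fintype.piFinset fun _ : Fin (D + 1) => S M).filter Prim, ∏ i, g i (ξ i)
      - ∏ i, ∑ k ∈ S M, g i k‖ ≤ A ^ 2 * (A / 2) ^ (D - 1) := by
  intro hD
  rw [prim_sum D M g hg, ← Finset.Ioc_insert_left (show 1 ≤ M from hM),
    Finset.sum_insert (by simp)]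
  simp only [ArithmeticFunction.moebius_apply_one, Int.cast_one, one_mul, Nat.cast_one, one_dvd,
    Finset.filter_true, add_sub_cancel_left]
  refine (norm_sum_le _ _).trans ?_
  have h1 : ∀ n ∈ Finset.Ioc 1 M, ‖((ArithmeticFunction.moebius n : ℤ) : ℂ) *
      ∏ i, ∑ k ∈ (S M).filter (fun k => (n : ℤ) ∣ k), g i k‖
      ≤ A ^ 2 * (A / 2) ^ (D - 1) * ((n : ℝ) ^ 2)⁻¹ := by
    intro n hn
    have hn2 : 2 ≤ n := (Finset.mem_Ioc.1 hn).1
    have hn2' : (2 : ℝ) ≤ n := by exact_mod_cast hn2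
    rw [norm_mul, norm_prod, Complex.norm_intCast]
    have h1 : |((ArithmeticFunction.moebius n : ℤ) : ℝ)| ≤ 1 := by
      exact_mod_cast ArithmeticFunction.abs_moebius_le_one
    have h2 : ∏ i, ‖∑ k ∈ (S M).filter (fun k => (n : ℤ) ∣ k), g i k‖ ≤ (A / n) ^ (D + 1) := by
      refine (Finset.prod_le_prod (fun _ _ => norm_nonneg _) (fun i _ => hb n hn2 i)).trans ?_
      rw [Finset.prod_const, Finset.card_univ, Fintype.card_fin]
    have h3 : (A / n) ^ (D + 1) ≤ A ^ 2 * (A / 2) ^ (D - 1) * ((n : ℝ) ^ 2)⁻¹ := by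
      have : D + 1 = 2 + (D - 1) := by omega
      rw [this, pow_add]
      have h4 : (A / n) ^ (D - 1) ≤ (A / 2) ^ (D - 1) := by gcongr
      calc (A / n) ^ 2 * (A / n) ^ (D - 1) ≤ (A / n) ^ 2 * (A / 2) ^ (D - 1) := by gcongr
        _ = _ := by rw [div_pow]; ring
    calc _ ≤ 1 * (A / n) ^ (D + 1) := by gcongr
      _ ≤ _ := by rw [one_mul]; exact h3
  refine (Finset.sum_le_sum h1).trans ?_
  rw [← Finset.mul_sum]
  have h2 := sum_Ioc_inv_sq_le_sub (α := ℝ) (k := 1) (n := M) one_ne_zero hM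
  have h3 : (0 : ℝ) ≤ (M : ℝ)⁻¹ := by positivity
  have h4 : 0 ≤ A ^ 2 * (A / 2) ^ (D - 1) := by positivity
  simp only [Nat.cast_one, inv_one] at h2
  nlinarith

lemma c_neg (M : ℕ) (k : ℤ) : c M (-k) = (starRingEnd ℂ) (c M k) := by
  unfold c b w
  simp only [odd_neg, Int.cast_neg, abs_neg, map_mul, Complex.conj_ofReal]
  congr 1
  split_ifs
  · simp only [map_div₀, map_mul, Complex.conj_ofReal, Complex.conj_I, map_ofNat, map_intCast]
    ring
  · simp

lemma neg_mem_S {M : ℕ} {k : ℤ} (hk : k ∈ S M) : -k ∈ S M := by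
  simp only [S, Finset.mem_Ioo] at hk ⊢; omega

lemma prim_neg {D : ℕ} {ξ : Fin D → ℤ} (h : Prim ξ) : Prim (-ξ) := by
  obtain ⟨v, hv⟩ := (prim_iff ξ).1 h
  exact (prim_iff _).2 ⟨-v, by simpa using hv⟩

/-- Splitting a conjugate-symmetric sum over primitive vectors. -/
lemma split_sum (D M : ℕ) (F : (Fin (D + 1) → ℤ) → ℂ) (P : (Fin (D + 1) → ℤ) → Prop)
    [DecidablePred P] (hP : ∀ ξ, ¬ P ξ → F ξ = 0) (hP0 : ∀ ξ, P ξ → ξ 0 ≠ 0)
    (hPn : ∀ ξ, P ξ → P (-ξ)) (hF : ∀ ξ, F (-ξ) = (starRingEnd ℂ) (F ξ)) :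
    ∑ ξ ∈ (Fintype.piFinset fun _ : Fin (D + 1) => S M).filter Prim, F ξ
      = ((2 * (∑ ξ ∈ ((Fintype.piFinset fun _ : Fin (D + 1) => S M).filter Prim).filter
          (fun ξ => P ξ ∧ 0 < ξ 0), F ξ).re : ℝ) : ℂ) := by
  rw [← Complex.add_conj, map_sum,
    ← Finset.sum_filter_add_sum_filter_not _ (fun ξ => P ξ ∧ 0 < ξ 0)]
  congr 1
  rw [← Finset.sum_filter_add_sum_filter_not _ P, Finset.sum_eq_zero (s := Finset.filter
    (fun ξ => ¬ P ξ) _) (fun ξ hξ => hP ξ (Finset.mem_filter.1 hξ).2), add_zero]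
  refine Finset.sum_nbij' (fun ξ => -ξ) (fun ξ => -ξ) ?_ ?_ (by simp) (by simp) ?_
  · intro ξ hξ
    simp only [Finset.mem_filter, Fintype.mem_piFinset] at hξ ⊢
    obtain ⟨⟨⟨h1, h2⟩, h3⟩, h4⟩ := hξ
    refine ⟨⟨fun i => neg_mem_S (h1 i), prim_neg h2⟩, hPn ξ h4, ?_⟩
    have := hP0 ξ h4
    have h5 : ¬ 0 < ξ 0 := fun h => h3 ⟨h4, h⟩
    simp only [Pi.neg_apply]; omega
  · intro ξ hξ
    simp only [Finset.mem_filter, Fintype.mem_piFinset] at hξ ⊢
    obtain ⟨⟨h1, h2⟩, h3, h4⟩ := hξ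
    refine ⟨⟨⟨fun i => neg_mem_S (h1 i), prim_neg h2⟩, fun h => ?_⟩, hPn ξ h3⟩
    have := h.2
    simp only [Pi.neg_apply] at this; omega
  · intro ξ _
    rw [← hF, neg_neg]

lemma prod_e {D : ℕ} (s : Finset (Fin D)) (t : Fin D → ℝ) :
    ∏ i ∈ s, e (t i) = e (∑ i ∈ s, t i) := by
  classical
  induction s using Finset.induction_on with
  | empty => simp
  | insert a s ha ih => rw [Finset.prod_insert ha, Finset.sum_insert ha, e_add, ih]

theorem baseFun : Crest.Agent.Lead.UF.BaseFun := by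
  classical
  intro ε hε
  obtain ⟨D₀, hD₀⟩ := exists_pow_lt_of_lt_one (show 0 < ε / 2 by positivity)
    (show (1 / 2 : ℝ) < 1 by norm_num)
  obtain ⟨D, hD⟩ : ∃ D, D = D₀ + 1 := ⟨_, rfl⟩
  have hD1 : 1 ≤ D := by omega
  have hD2 : (1 : ℝ) ^ 2 * ((1 : ℝ) / 2) ^ (D - 1) ≤ ε / 2 := by
    rw [hD]; simpa using hD₀.le
  obtain ⟨η, hη, hη1, hηε⟩ : ∃ η : ℝ, 0 < η ∧ η ≤ 1 ∧ (D + 1 : ℕ) * η ≤ ε / 2 := by
    refine ⟨min 1 (ε / 2 / (D + 1 : ℕ)), by positivity, min_le_left _ _, ?_⟩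
    have := min_le_right 1 (ε / 2 / (D + 1 : ℕ))
    rw [le_div_iff₀ (by positivity)] at this
    linarith
  obtain ⟨M, hM, hE⟩ := energy η hη
  let φ : (Fin (D + 1) → ℤ) → ℂ := fun ξ => ∏ i, c M (ξ i)
  have hφn : ∀ ξ, φ (-ξ) = (starRingEnd ℂ) (φ ξ) := by
    intro ξ; simp only [φ, map_prod, Pi.neg_apply, c_neg]
  have hP0 : ∀ ξ, φ ξ ≠ 0 → ξ 0 ≠ 0 := fun ξ h h0 =>
    h (Finset.prod_eq_zero (Finset.mem_univ 0) (by rw [h0, c_zero]))
  have hPn : ∀ ξ, φ ξ ≠ 0 → φ (-ξ) ≠ 0 := fun ξ h => by rw [hφn]; simpa using h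
  refine ⟨D + 1, ((Fintype.piFinset fun _ : Fin (D + 1) => S M).filter Prim).filter
    (fun ξ => φ ξ ≠ 0 ∧ 0 < ξ 0), Pi.single 0 1, φ, ?_, ?_, ?_, ?_, ?_, ?_⟩
  · intro ξ hξ; exact (Finset.mem_filter.1 hξ).2.1
  · intro ξ hξ; simpa using (Finset.mem_filter.1 hξ).2.2
  · intro ξ hξ; exact (prim_iff ξ).1 (Finset.mem_filter.1 (Finset.mem_filter.1 hξ).1).2
  · intro ξ hξ ζ hζ hne
    obtain ⟨v, hv⟩ := (prim_iff ξ).1 (Finset.mem_filter.1 (Finset.mem_filter.1 hξ).1).2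
    obtain ⟨u, hu⟩ := (prim_iff ζ).1 (Finset.mem_filter.1 (Finset.mem_filter.1 hζ).1).2
    have h1 := (Finset.mem_filter.1 hξ).2.2
    have h2 := (Finset.mem_filter.1 hζ).2.2
    by_contra hcon
    push Not at hcon
    have ha : ∀ q, ζ q = (ζ ⬝ᵥ v) * ξ q := by
      intro q
      calc ζ q = (ξ ⬝ᵥ v) * ζ q := by rw [hv, one_mul]
        _ = _ := by
          simp only [dotProduct, Finset.sum_mul]
          refine Finset.sum_congr rfl fun p _ => ?_
          linear_combination (v p) * hcon p q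
    have hb : (ζ ⬝ᵥ v) * (ξ ⬝ᵥ u) = 1 := by
      rw [← hu]
      simp only [dotProduct, Finset.mul_sum (a := ∑ i, ζ i * v i)]
      refine Finset.sum_congr rfl fun p _ => ?_
      rw [ha p]; simp only [dotProduct]; ring
    have hpos : 0 < ζ ⬝ᵥ v := by
      have := ha 0
      by_contra h
      push Not at h
      nlinarith
    have h3 : ζ ⬝ᵥ v = 1 := Int.eq_one_of_mul_eq_one_right hpos.le hb
    exact hne (funext fun q => by rw [ha q, h3, one_mul])
  · intro x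
    have hs := split_sum D M (fun ξ => φ ξ * e (∑ i, (ξ i : ℝ) * x i)) (fun ξ => φ ξ ≠ 0)
      (fun ξ h => by rw [not_not.1 h, zero_mul]) hP0 hPn (fun ξ => by
        rw [map_mul, hφn, conj_e]
        congr 2
        simp [Finset.sum_neg_distrib])
    have ha := prim_approx D M hM (fun i k => c M k * e (k * x i)) (fun i => by simp [c_zero])
      1 zero_le_one (fun n hn i => proj_bound M n hM (by omega) (x i)) hD1
    have hb : ‖∏ i, ∑ k ∈ S M, c M k * e (k * x i)‖ ≤ 1 := by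
      rw [norm_prod]
      refine Finset.prod_le_one (fun _ _ => norm_nonneg _) fun i _ => ?_
      simpa using proj_bound M 1 hM one_pos (x i)
    simp_rw [Finset.prod_mul_distrib, prod_e] at ha
    rw [← Real.norm_eq_abs, ← Complex.norm_real, ← hs]
    have := norm_le_insert' (∑ ξ ∈ (Fintype.piFinset fun _ : Fin (D + 1) => S M).filter Prim,
      φ ξ * e (∑ i, (ξ i : ℝ) * x i)) (∏ i, ∑ k ∈ S M, c M k * e (k * x i))
    linarith
  · have hs := split_sum D M (fun ξ => ((‖φ ξ‖ ^ 2 : ℝ) : ℂ)) (fun ξ => φ ξ ≠ 0)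
      (fun ξ h => by rw [not_not.1 h]; simp) hP0 hPn (fun ξ => by
        rw [hφn, Complex.conj_ofReal, Complex.norm_conj])
    have ha := prim_approx D M hM (fun i k => ((‖c M k‖ ^ 2 : ℝ) : ℂ)) (fun i => by simp [c_zero])
      1 zero_le_one (fun n hn i => by
        rw [← Complex.ofReal_sum, Complex.norm_real, Real.norm_eq_abs,
          abs_of_nonneg (by positivity)]
        refine (proj_energy M n (by omega)).trans ?_
        have hn' : (2 : ℝ) ≤ n := by exact_mod_cast hn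
        rw [mul_one_div, div_le_div_iff₀ (by positivity) (by positivity)]
        nlinarith) hD1
    have h1 : ∀ ξ : Fin (D + 1) → ℤ, ∏ i, ((‖c M (ξ i)‖ ^ 2 : ℝ) : ℂ) = ((‖φ ξ‖ ^ 2 : ℝ) : ℂ) := by
      intro ξ
      simp only [φ, norm_prod]
      push_cast
      rw [Finset.prod_pow]
    simp_rw [h1] at ha
    rw [hs, ← Complex.ofReal_sum, ← Complex.ofReal_sum, Complex.ofReal_re, Finset.prod_const,
      Finset.card_univ, Fintype.card_fin, ← Complex.ofReal_pow, ← Complex.ofReal_sub,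
      Complex.norm_real, Real.norm_eq_abs] at ha
    have h2 : (1 - η) ^ (D + 1) ≤ (∑ k ∈ S M, ‖c M k‖ ^ 2) ^ (D + 1) :=
      pow_le_pow_left₀ (by linarith) hE _
    have h3 := one_add_mul_le_pow (a := -η) (by linarith) (D + 1)
    have h4 := (abs_le.1 ha).1
    rw [← sub_eq_add_neg] at h3
    linarith

end Crest.Agent.H3.BaseFun
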