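import Mathlib
import Crest.Prelude.Def_WordHyperbolic

/-! Linear homological (mod 2) isoperimetric inequality implies four-point hyperbolicity. -/

namespace Crest.Agent.H3.Hyp

open Crest.GroupTheory

variable {G : Type*} [Group G] {P : Type*}

/-- the product of a word -/
def wp (gen : P → G) (l : List (P × Bool)) : G :=
  (l.map fun x => if x.2 then gen x.1 else (gen x.1)⁻¹).prod

/-- the mod 2 edge chain of a word read from a base point -/
noncomputable def ch (gen : P → G) : G → List (P × Bool) → (G × P →₀ ZMod 2)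
  | _, [] => 0
  | g, (x, true) :: l => Finsupp.single (g, x) 1 + ch gen (g * gen x) l
  | g, (x, false) :: l => Finsupp.single (g * (gen x)⁻¹, x) 1 + ch gen (g * (gen x)⁻¹) l

variable (gen : P → G)

@[simp] theorem wp_nil : wp gen [] = 1 := rfl
@[simp] theorem wp_true (x : P) (l) : wp gen ((x, true) :: l) = gen x * wp gen l := by
  simp [wp]
@[simp] theorem wp_false (x : P) (l) : wp gen ((x, false) :: l) = (gen x)⁻¹ * wp gen l := by
  simp [wp]
theorem wp_append (l₁ l₂) : wp gen (l₁ ++ l₂) = wp gen l₁ * wp gen l₂ := by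
  simp [wp]

theorem ch_append (g : G) (l₁ l₂) :
    ch gen g (l₁ ++ l₂) = ch gen g l₁ + ch gen (g * wp gen l₁) l₂ := by
  induction l₁ generalizing g with
  | nil => simp [ch]
  | cons a l ih =>
    obtain ⟨x, b⟩ := a
    cases b <;> simp [ch, ih, add_assoc, mul_assoc]

/-- reversed word -/
def rev (l : List (P × Bool)) : List (P × Bool) := (l.map fun x => (x.1, !x.2)).reverse

theorem rev_length (l : List (P × Bool)) : (rev l).length = l.length := by simp [rev]

theorem rev_cons (a : P × Bool) (l) : rev (a :: l) = rev l ++ [(a.1, !a.2)] := by simp [rev]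

theorem wp_rev (l) : wp gen (rev l) = (wp gen l)⁻¹ := by
  induction l with
  | nil => simp [rev]
  | cons a l ih =>
    obtain ⟨x, b⟩ := a
    cases b <;> simp [rev_cons, wp_append, ih]

theorem ch_rev (g : G) (l) : ch gen (g * wp gen l) (rev l) = ch gen g l := by
  induction l generalizing g with
  | nil => simp [rev, ch]
  | cons a l ih =>
    obtain ⟨x, b⟩ := a
    cases b
    · rw [rev_cons, ch_append, wp_false, ← mul_assoc, ih, wp_rev]
      simp [ch, add_comm]
    · rw [rev_cons, ch_append, wp_true, ← mul_assoc, ih, wp_rev]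
      simp [ch, add_comm]

/-- pairing of an edge cochain with a word -/
noncomputable def pr (ω : G × P → ZMod 2) (g : G) (l : List (P × Bool)) : ZMod 2 :=
  Finsupp.linearCombination (ZMod 2) ω (ch gen g l)

@[simp] theorem pr_nil (ω g) : pr gen ω g [] = 0 := by simp [pr, ch]
@[simp] theorem pr_true (ω g x l) :
    pr gen ω g ((x, true) :: l) = ω (g, x) + pr gen ω (g * gen x) l := by simp [pr, ch]
@[simp] theorem pr_false (ω g x l) :
    pr gen ω g ((x, false) :: l) = ω (g * (gen x)⁻¹, x) + pr gen ω (g * (gen x)⁻¹) l := by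
  simp [pr, ch]
theorem pr_append (ω g l₁ l₂) :
    pr gen ω g (l₁ ++ l₂) = pr gen ω g l₁ + pr gen ω (g * wp gen l₁) l₂ := by
  simp [pr, ch_append]
theorem pr_rev (ω g l) : pr gen ω (g * wp gen l) (rev l) = pr gen ω g l := by
  simp [pr, ch_rev]

theorem pr_shift (ω : G × P → ZMod 2) (y g : G) (l) :
    pr gen (fun e => ω (y * e.1, e.2)) g l = pr gen ω (y * g) l := by
  induction l generalizing g with
  | nil => simp
  | cons a l ih =>
    obtain ⟨x, b⟩ := a
    cases b <;> simp [ih, mul_assoc]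

theorem pr_cob (φ : G → ZMod 2) (g : G) (l) :
    pr gen (fun e => φ e.1 + φ (e.1 * gen e.2)) g l = φ g + φ (g * wp gen l) := by
  have h2 : ∀ a : ZMod 2, a + a = 0 := by decide
  induction l generalizing g with
  | nil => simp [h2]
  | cons a l ih =>
    obtain ⟨x, b⟩ := a
    cases b
    · simp only [pr_false, ih, wp_false, mul_assoc, inv_mul_cancel, mul_one]
      linear_combination h2 (φ (g * (gen x)⁻¹))
    · simp only [pr_true, ih, wp_true, mul_assoc]
      linear_combination h2 (φ (g * gen x))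

theorem pr_zero (g : G) (l) : pr gen (fun _ => 0) g l = 0 := by
  induction l generalizing g with
  | nil => simp
  | cons a l ih =>
    obtain ⟨x, b⟩ := a
    cases b <;> simp [ih]

/-- word distance -/
noncomputable def d (u v : G) : ℕ := wordLength (Set.range gen) (u⁻¹ * v)

theorem wl_le (l : List (P × Bool)) : wordLength (Set.range gen) (wp gen l) ≤ l.length := by
  apply Nat.sInf_le
  refine ⟨l.map fun x => if x.2 then gen x.1 else (gen x.1)⁻¹, by simp, ?_, rfl⟩
  intro x hx
  obtain ⟨⟨y, b⟩, -, rfl⟩ := List.mem_map.1 hx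
  cases b <;> simp

theorem d_le {u v : G} {l} (h : u * wp gen l = v) : d gen u v ≤ l.length := by
  have := wl_le gen l
  rw [d, ← h]
  simpa using this

variable {gen}

theorem word_of_list (l : List G) (h : ∀ x ∈ l, x ∈ Set.range gen ∨ x⁻¹ ∈ Set.range gen) :
    ∃ w : List (P × Bool), w.length = l.length ∧ wp gen w = l.prod := by
  induction l with
  | nil => exact ⟨[], rfl, rfl⟩
  | cons a l ih =>
    obtain ⟨w, hw, hp⟩ := ih (fun x hx => h x (List.mem_cons_of_mem _ hx))
    rcases h a (List.mem_cons_self) with ⟨x, hx⟩ | ⟨x, hx⟩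
    · exact ⟨(x, true) :: w, by simp [hw], by simp [hp, hx]⟩
    · exact ⟨(x, false) :: w, by simp [hw], by simp [hp, hx]⟩

theorem ex_word (hgen : Subgroup.closure (Set.range gen) = ⊤) (u v : G) :
    ∃ l, u * wp gen l = v ∧ l.length = d gen u v := by
  have hne : {n : ℕ | ∃ l : List G, l.length = n ∧
      (∀ x ∈ l, x ∈ Set.range gen ∨ x⁻¹ ∈ Set.range gen) ∧ l.prod = u⁻¹ * v}.Nonempty := by
    have hm : u⁻¹ * v ∈ Subgroup.closure (Set.range gen) := by rw [hgen]; trivial
    have hm' : u⁻¹ * v ∈ (Subgroup.closure (Set.range gen)).toSubmonoid := hm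
    rw [Subgroup.closure_toSubmonoid] at hm'
    obtain ⟨l, hl, hp⟩ := Submonoid.exists_list_of_mem_closure hm'
    refine ⟨l.length, l, rfl, fun x hx => ?_, hp⟩
    rcases hl x hx with h | h
    · exact Or.inl h
    · exact Or.inr (Set.mem_inv.1 h)
  obtain ⟨l, hl, hx, hp⟩ := Nat.sInf_mem hne
  obtain ⟨w, hw, hwp⟩ := word_of_list l hx
  refine ⟨w, by rw [hwp, hp]; simp, ?_⟩
  rw [hw, hl]; rfl

theorem d_self (u : G) : d gen u u = 0 := by
  have := d_le gen (u := u) (v := u) (l := []) (by simp)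
  simpa using this

theorem d_tri (hgen : Subgroup.closure (Set.range gen) = ⊤) (u v w : G) :
    d gen u w ≤ d gen u v + d gen v w := by
  obtain ⟨l₁, h₁, e₁⟩ := ex_word hgen u v
  obtain ⟨l₂, h₂, e₂⟩ := ex_word hgen v w
  have := d_le gen (u := u) (v := w) (l := l₁ ++ l₂) (by rw [wp_append, ← mul_assoc, h₁, h₂])
  simpa [e₁, e₂] using this

theorem d_comm (hgen : Subgroup.closure (Set.range gen) = ⊤) (u v : G) :
    d gen u v = d gen v u := by
  have key : ∀ u v : G, d gen v u ≤ d gen u v := by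
    intro u v
    obtain ⟨l, h, e⟩ := ex_word hgen u v
    have := d_le gen (u := v) (v := u) (l := rev l) (by rw [wp_rev, ← h]; simp)
    rwa [rev_length, e] at this
  exact le_antisymm (key v u) (key u v)

theorem d_gen (g : G) (x : P) : d gen g (g * gen x) ≤ 1 :=
  d_le gen (l := [(x, true)]) (by simp)

theorem d_gen' (g : G) (x : P) : d gen g (g * (gen x)⁻¹) ≤ 1 :=
  d_le gen (l := [(x, false)]) (by simp)

theorem pr_local (hgen : Subgroup.closure (Set.range gen) = ⊤) (ω ω' : G × P → ZMod 2)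
    (g : G) (l) (h : ∀ g' x, d gen g g' ≤ l.length → ω (g', x) = ω' (g', x)) :
    pr gen ω g l = pr gen ω' g l := by
  induction l generalizing g with
  | nil => simp
  | cons a l ih =>
    obtain ⟨x, b⟩ := a
    cases b
    · rw [pr_false, pr_false, h _ x (by have := d_gen' (gen := gen) g x; simp; omega), ih]
      intro g' y hy
      apply h
      have := d_tri hgen g (g * (gen x)⁻¹) g'
      have := d_gen' (gen := gen) g x
      simp; omega
    · rw [pr_true, pr_true, h _ x (by simp [d_self]), ih]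
      intro g' y hy
      apply h
      have := d_tri hgen g (g * (gen x)) g'
      have := d_gen (gen := gen) g x
      simp; omega

variable (gen) in
/-- a walk of length at most `n` inside `A` -/
def W (A : Set G) (u v : G) (n : ℕ) : Prop :=
  u ∈ A ∧ v ∈ A ∧ ∃ l : List (P × Bool), l.length ≤ n ∧ u * wp gen l = v ∧
    ∀ ω ω' : G × P → ZMod 2, (∀ g x, g ∈ A → ω (g, x) = ω' (g, x)) →
      pr gen ω u l = pr gen ω' u l

theorem W.mono {A B : Set G} {u v n m} (h : W gen A u v n) (hAB : A ⊆ B) (hn : n ≤ m) :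
    W gen B u v m := by
  obtain ⟨hu, hv, l, hl, hp, hω⟩ := h
  exact ⟨hAB hu, hAB hv, l, hl.trans hn, hp, fun ω ω' h => hω ω ω' fun g x hg => h g x (hAB hg)⟩

theorem W.refl {A : Set G} {u} (hu : u ∈ A) (n) : W gen A u u n :=
  ⟨hu, hu, [], by simp, by simp, fun _ _ _ => by simp⟩

theorem W.trans {A : Set G} {u v w n m} (h : W gen A u v n) (h' : W gen A v w m) :
    W gen A u w (n + m) := by
  obtain ⟨hu, -, l, hl, hp, hω⟩ := h
  obtain ⟨-, hw, l', hl', hp', hω'⟩ := h'
  refine ⟨hu, hw, l ++ l', by simp; omega, by rw [wp_append, ← mul_assoc, hp, hp'], ?_⟩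
  intro ω ω' h
  rw [pr_append, pr_append, hp, hω ω ω' h, hω' ω ω' h]

theorem W.symm {A : Set G} {u v n} (h : W gen A u v n) : W gen A v u n := by
  obtain ⟨hu, hv, l, hl, hp, hω⟩ := h
  refine ⟨hv, hu, rev l, by rwa [rev_length], by rw [wp_rev, ← hp]; simp, ?_⟩
  intro ω ω' h
  rw [← hp, pr_rev, pr_rev, hω ω ω' h]

theorem W.d_le {A : Set G} {u v n} (h : W gen A u v n) : d gen u v ≤ n := by
  obtain ⟨-, -, l, hl, hp, -⟩ := h
  exact (Hyp.d_le gen hp).trans hl

theorem W.step (hgen : Subgroup.closure (Set.range gen) = ⊤) {A : Set G} {u v}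
    (hu : u ∈ A) (hv : v ∈ A) (h : d gen u v ≤ 1) : W gen A u v 1 := by
  obtain ⟨l, hp, hl⟩ := ex_word hgen u v
  refine ⟨hu, hv, l, hl ▸ h, hp, ?_⟩
  intro ω ω' hω
  rcases l with _ | ⟨⟨x, b⟩, _ | ⟨c, l⟩⟩
  · simp
  · cases b
    · simp only [wp_false, wp_nil, mul_one] at hp
      simp [hp, hω v x hv]
    · simp [hω u x hu]
  · simp at hl; omega

variable (gen) in
/-- the vertex set of a geodesic from `a` to `b` -/
structure Side (a b : G) (A : Set G) : Prop where
  left : a ∈ A
  right : b ∈ A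
  bet : ∀ u ∈ A, d gen a u + d gen u b = d gen a b
  ord : ∀ u ∈ A, ∀ v ∈ A, d gen a u ≤ d gen a v → d gen a u + d gen u v = d gen a v
  ex : ∀ k ≤ d gen a b, ∃ u ∈ A, d gen a u = k
  walk : ∀ u ∈ A, ∀ v ∈ A, W gen A u v (d gen u v)

theorem Side.symm (hgen : Subgroup.closure (Set.range gen) = ⊤) {a b : G} {A}
    (h : Side gen a b A) : Side gen b a A where
  left := h.right
  right := h.left
  bet u hu := by
    have := h.bet u hu
    rw [d_comm hgen b u, d_comm hgen u a, d_comm hgen b a]; omega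
  ord u hu v hv huv := by
    have h1 := h.bet u hu
    have h2 := h.bet v hv
    rw [d_comm hgen b u, d_comm hgen b v] at *
    have := h.ord v hv u hu (by omega)
    rw [d_comm hgen u v]; omega
  ex k hk := by
    rw [d_comm hgen b a] at hk
    obtain ⟨u, hu, e⟩ := h.ex (d gen a b - k) (by omega)
    refine ⟨u, hu, ?_⟩
    have := h.bet u hu
    rw [d_comm hgen b u]; omega
  walk := h.walk

theorem ex_side (hgen : Subgroup.closure (Set.range gen) = ⊤) (a b : G) :
    ∃ A, Side gen a b A := by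
  obtain ⟨l, hp, hl⟩ := ex_word hgen a b
  set c : ℕ → G := fun i => a * wp gen (l.take i) with hc
  have hle : ∀ i j, i ≤ j → d gen (c i) (c j) ≤ j - i := by
    intro i j hij
    have : c i * wp gen ((l.take j).drop i) = c j := by
      simp only [hc, mul_assoc, ← wp_append]
      congr 2
      conv_rhs => rw [← List.take_append_drop i (l.take j)]
      rw [List.take_take, min_eq_left hij]
    refine (d_le gen this).trans ?_
    simp; omega
  have h0 : c 0 = a := by simp [hc]
  have hn : c l.length = b := by simp [hc, hp]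
  have hd : ∀ i ≤ l.length, d gen a (c i) = i ∧ d gen (c i) b = l.length - i := by
    intro i hi
    have h1 := hle 0 i (by omega)
    have h2 := hle i l.length hi
    rw [h0] at h1; rw [hn] at h2
    have := d_tri hgen a (c i) b
    omega
  have hdd : ∀ i j, i ≤ j → j ≤ l.length → d gen (c i) (c j) = j - i := by
    intro i j hij hj
    have h1 := hle i j hij
    have := d_tri hgen a (c i) (c j)
    rw [(hd i (by omega)).1, (hd j hj).1] at this
    omega
  have hw : ∀ i k, i + k ≤ l.length → W gen (c '' Set.Iic l.length) (c i) (c (i + k)) k := by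
    intro i k
    induction k with
    | zero => intro h; exact W.refl (Set.mem_image_of_mem c (by simpa using h)) _
    | succ k ih =>
      intro h
      refine (ih (by omega)).trans (W.step hgen ⟨i + k, by simp; omega, rfl⟩
        ⟨i + (k + 1), by simpa using h, rfl⟩ ?_)
      have := hle (i + k) (i + (k + 1)) (by omega)
      omega
  refine ⟨c '' Set.Iic l.length, ⟨0, by simp, h0⟩, ⟨l.length, by simp, hn⟩, ?_, ?_, ?_, ?_⟩
  · rintro u ⟨i, hi, rfl⟩
    have := hd i hi
    simp at hi; omega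
  · rintro u ⟨i, hi, rfl⟩ v ⟨j, hj, rfl⟩ h
    rw [(hd i hi).1, (hd j hj).1] at *
    rw [hdd i j h hj]; omega
  · intro k hk
    exact ⟨c k, ⟨k, by simp; omega, rfl⟩, (hd k (by omega)).1⟩
  · rintro u ⟨i, hi, rfl⟩ v ⟨j, hj, rfl⟩
    simp only [Set.mem_Iic] at hi hj
    rcases le_total i j with h | h
    · have := hw i (j - i) (by omega)
      rw [hdd i j h hj]
      rwa [show i + (j - i) = j by omega] at this
    · have := hw j (i - j) (by omega)
      rw [d_comm hgen, hdd j i h hi]
      rw [show j + (i - j) = i by omega] at this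
      exact this.symm

variable (gen) in
/-- the filling hypothesis -/
def Fill (ρ C : ℕ) : Prop :=
  ∀ l, wp gen l = 1 → ∃ L : List (G × List (P × Bool)), L.length ≤ C * l.length ∧
    (∀ q ∈ L, wp gen q.2 = 1 ∧ q.2.length ≤ ρ) ∧ ch gen 1 l = (L.map fun q => ch gen q.1 q.2).sum

theorem detour (hgen : Subgroup.closure (Set.range gen) = ⊤) {ρ C : ℕ} (H : Fill gen ρ C)
    {a b p y z : G} {A : Set G} (hA : Side gen a b A) (hp : p ∈ A) (hy : y ∈ A) (hz : z ∈ A)
    (hyp : d gen a y ≤ d gen a p) (hpz : d gen a p ≤ d gen a z) {δ n m : ℕ}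
    (hW : W gen {u | δ ≤ d gen p u} y z n) (hm : 3 * (m * (2 * ρ + 2)) + 1 < δ) :
    m * m ≤ C * (2 * n) := by
  classical
  have hdn := hW.d_le
  obtain ⟨-, hzO, l₁, hl₁, hp₁, hω₁⟩ := hW
  obtain ⟨-, -, l₂, hl₂, hp₂, hω₂⟩ := hA.walk z hz y hy
  rw [d_comm hgen] at hl₂
  have hloop : wp gen (l₁ ++ l₂) = 1 := by
    have : y * wp gen (l₁ ++ l₂) = y := by rw [wp_append, ← mul_assoc, hp₁, hp₂]
    simpa using this
  obtain ⟨L, hL, hq, hsum⟩ := H _ hloop
  obtain ⟨M, hM⟩ : ∃ M, M = 2 * ρ + 2 := ⟨_, rfl⟩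
  rw [← hM] at hm
  have key : ∀ r t : ℕ, r ≤ m * M → d gen a p ≤ t → t ≤ d gen a p + m * M →
      ∃ k : Fin L.length, (∃ w ∈ A, d gen w (y * L[k].1) ≤ r + ρ) ∧
        (¬ ∃ w ∈ A, d gen w (y * L[k].1) + ρ ≤ r) ∧
        t ≤ d gen a (y * L[k].1) + ρ ∧ d gen a (y * L[k].1) ≤ t + ρ + 1 := by
    intro r t hr ht ht'
    let φ : G → ZMod 2 := fun u => if d gen a u ≤ t then 1 else 0
    let ω₀ : G × P → ZMod 2 := fun e => φ e.1 + φ (e.1 * gen e.2)
    let ω : G × P → ZMod 2 := fun e => if ∃ w ∈ A, d gen w e.1 ≤ r then ω₀ e else 0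
    have hcross : ∀ g x, ω₀ (g, x) ≠ 0 → t ≤ d gen a g ∧ d gen a g ≤ t + 1 := by
      intro g x h
      have h1 := d_tri hgen a g (g * gen x)
      have h2 := d_tri hgen a (g * gen x) g
      have h3 := d_gen (gen := gen) g x
      rw [d_comm hgen (g * gen x) g] at h2
      simp only [ω₀, φ] at h
      split_ifs at h with c1 c2 c2
      · exact absurd (by decide) h
      · omega
      · omega
      · exact absurd (by decide) h
    have e1 : pr gen ω y l₁ = 0 := by
      rw [hω₁ ω (fun _ => 0), pr_zero]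
      intro g x hg
      simp only [ω]
      split_ifs with c
      · by_contra hne
        obtain ⟨w, hw, hwr⟩ := c
        obtain ⟨c1, c2⟩ := hcross g x hne
        simp only [Set.mem_ofPred_eq] at hg
        have h1 := d_tri hgen p w g
        have h2 := d_tri hgen a w g
        have h3 := d_tri hgen a g w
        rw [d_comm hgen g w] at h3
        rcases le_total (d gen a w) (d gen a p) with h | h
        · have := hA.ord w hw p hp h
          rw [d_comm hgen w p] at this
          omega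
        · have := hA.ord p hp w hw h
          omega
      · rfl
    have e2 : pr gen ω z l₂ = 1 := by
      rw [hω₂ ω ω₀, pr_cob, hp₂]
      · have := hA.ord p hp z hz hpz
        simp only [Set.mem_ofPred_eq] at hzO
        simp only [φ]
        rw [if_neg (by omega), if_pos (by omega)]; simp
      · intro g x hg
        simp only [ω]
        rw [if_pos ⟨g, hg, by simp [d_self]⟩]
    have e3 : pr gen (fun e => ω (y * e.1, e.2)) 1 (l₁ ++ l₂) = 1 := by
      rw [pr_shift, mul_one, pr_append, hp₁, e1, e2, zero_add]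
    have e4 : ∃ k : Fin L.length, pr gen ω (y * L[k].1) L[k].2 ≠ 0 := by
      by_contra hcon
      push Not at hcon
      rw [pr, hsum, map_list_sum, List.map_map, List.sum_eq_zero] at e3
      · exact zero_ne_one e3
      · intro v hv
        obtain ⟨q, hqL, rfl⟩ := List.mem_map.1 hv
        obtain ⟨k, rfl⟩ := List.mem_iff_get.1 hqL
        have := hcon k
        rw [← pr_shift] at this
        exact this
    obtain ⟨k, hk⟩ := e4
    obtain ⟨hk1, hk2⟩ := hq L[k] (List.getElem_mem _)
    refine ⟨k, ?_⟩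
    generalize y * L[k].1 = g at hk ⊢
    have f1 : ∃ g' x, d gen g g' ≤ ρ ∧ ω (g', x) ≠ 0 := by
      by_contra hcon
      push Not at hcon
      apply hk
      rw [pr_local hgen ω (fun _ => 0), pr_zero]
      intro g' x hg'
      exact hcon g' x (hg'.trans hk2)
    have f2 : ∃ g' x, d gen g g' ≤ ρ ∧ ω (g', x) ≠ ω₀ (g', x) := by
      by_contra hcon
      push Not at hcon
      apply hk
      rw [pr_local hgen ω ω₀, pr_cob, hk1, mul_one]
      · have h2 : ∀ a : ZMod 2, a + a = 0 := by decide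
        exact h2 _
      intro g' x hg'
      exact hcon g' x (hg'.trans hk2)
    obtain ⟨g₁, x₁, hg₁, hne₁⟩ := f1
    obtain ⟨g₂, x₂, hg₂, hne₂⟩ := f2
    simp only [ω] at hne₁ hne₂
    split_ifs at hne₁ with c1
    swap
    · exact absurd rfl hne₁
    split_ifs at hne₂ with c2
    · exact absurd rfl hne₂
    obtain ⟨w, hw, hwr⟩ := c1
    obtain ⟨c3, c4⟩ := hcross _ _ hne₁
    have h1 := d_tri hgen w g₁ g
    have h2 := d_tri hgen a g₁ g
    have h3 := d_tri hgen a g g₁
    rw [d_comm hgen g₁ g] at h1 h2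
    refine ⟨⟨w, hw, by omega⟩, ?_, by omega, by omega⟩
    rintro ⟨w', hw', hw'r⟩
    apply c2
    have := d_tri hgen w' g g₂
    exact ⟨w', hw', by omega⟩
  have key2 : ∀ ij : Fin m × Fin m, ∃ k : Fin L.length,
      (∃ w ∈ A, d gen w (y * L[k].1) ≤ ij.1 * M + ρ) ∧
        (¬ ∃ w ∈ A, d gen w (y * L[k].1) + ρ ≤ ij.1 * M) ∧
        d gen a p + ij.2 * M ≤ d gen a (y * L[k].1) + ρ ∧
        d gen a (y * L[k].1) ≤ d gen a p + ij.2 * M + ρ + 1 := by
    rintro ⟨i, j⟩
    have hi : i * M ≤ m * M := Nat.mul_le_mul_right _ i.2.le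
    have hj : j * M ≤ m * M := Nat.mul_le_mul_right _ j.2.le
    exact key _ _ hi (by omega) (by simp only; omega)
  choose κ hκ using key2
  have hstep : ∀ i j : ℕ, i < j → i * M + M ≤ j * M := by
    intro i j h
    have := Nat.mul_le_mul_right M (show i + 1 ≤ j from h)
    linarith
  have hinj : Function.Injective κ := by
    rintro ⟨i, j⟩ ⟨i', j'⟩ h
    obtain ⟨⟨w, hw, a1⟩, a2, a3, a4⟩ := hκ (i, j)
    obtain ⟨⟨w', hw', b1⟩, b2, b3, b4⟩ := hκ (i', j')
    rw [h] at a1 a2 a3 a4
    simp only at a1 a2 a3 a4 b1 b2 b3 b4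
    have ei : (i : ℕ) = i' := by
      rcases lt_trichotomy (i : ℕ) i' with c | c | c
      · have := hstep _ _ c
        exact absurd ⟨w, hw, by omega⟩ b2
      · exact c
      · have := hstep _ _ c
        exact absurd ⟨w', hw', by omega⟩ a2
    have ej : (j : ℕ) = j' := by
      rcases lt_trichotomy (j : ℕ) j' with c | c | c
      · have := hstep _ _ c
        omega
      · exact c
      · have := hstep _ _ c
        omega
    rw [Fin.ext ei, Fin.ext ej]
  have := Fintype.card_le_of_injective κ hinj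
  simp only [Fintype.card_prod, Fintype.card_fin] at this
  refine this.trans (hL.trans (Nat.mul_le_mul_left _ ?_))
  simp; omega

variable (gen) in
/-- every point of `A` is within `δ` of `T` -/
def Slim (δ : ℕ) (A T : Set G) : Prop := ∀ u ∈ A, ∃ v ∈ T, d gen u v ≤ δ

theorem hop (hgen : Subgroup.closure (Set.range gen) = ⊤) {p u v : G} {δ : ℕ}
    (h : d gen u v ≤ δ) (h2 : 2 * δ ≤ d gen p u) : W gen {x | δ ≤ d gen p x} u v δ := by
  obtain ⟨A, hA⟩ := ex_side hgen u v
  refine (hA.walk u hA.left v hA.right).mono ?_ h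
  intro x hx
  have := hA.bet x hx
  have h3 := d_tri hgen p x u
  rw [d_comm hgen x u] at h3
  simp only [Set.mem_ofPred_eq]; omega

theorem exit (hgen : Subgroup.closure (Set.range gen) = ⊤) {a b p : G} {A T : Set G} {δ : ℕ}
    (hA : Side gen a b A) (hp : p ∈ A) (ha : a ∈ T) (hs : Slim gen δ A T)
    (hT : T ⊆ {x | δ ≤ d gen p x}) :
    ∃ y ∈ A, d gen a y ≤ d gen a p ∧ ∃ y' ∈ T, W gen {x | δ ≤ d gen p x} y y' δ ∧
      d gen p y' ≤ 3 * δ := by
  have hb := hA.bet p hp
  by_cases c : 2 * δ ≤ d gen a p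
  · obtain ⟨y, hy, e⟩ := hA.ex (d gen a p - 2 * δ) (by omega)
    obtain ⟨y', hy', hd⟩ := hs y hy
    have := hA.ord y hy p hp (by omega)
    rw [d_comm hgen y p] at this
    have h3 := d_tri hgen p y y'
    exact ⟨y, hy, by omega, y', hy', hop hgen hd (by omega), by omega⟩
  · refine ⟨a, hA.left, by simp [d_self], a, ha, W.refl (hT ha) _, ?_⟩
    rw [d_comm hgen]; omega

theorem core (hgen : Subgroup.closure (Set.range gen) = ⊤) {a b c p : G} {A B C : Set G} {δ : ℕ}
    (hA : Side gen a b A) (hB : Side gen b c B) (hC : Side gen a c C) (hp : p ∈ A)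
    (hsA : Slim gen δ A (B ∪ C)) (hsC : Slim gen δ C (A ∪ B))
    (hT : B ∪ C ⊆ {x | δ ≤ d gen p x}) :
    ∃ y ∈ A, ∃ z ∈ A, d gen a y ≤ d gen a p ∧ d gen a p ≤ d gen a z ∧
      W gen {x | δ ≤ d gen p x} y z (24 * δ) := by
  have hBO : B ⊆ {x | δ ≤ d gen p x} := fun x hx => hT (Or.inl hx)
  have hCO : C ⊆ {x | δ ≤ d gen p x} := fun x hx => hT (Or.inr hx)
  have wB : ∀ u ∈ B, ∀ v ∈ B, ∀ n, d gen u v ≤ n → W gen {x | δ ≤ d gen p x} u v n :=
    fun u hu v hv n hn => (hB.walk u hu v hv).mono hBO hn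
  have wC : ∀ u ∈ C, ∀ v ∈ C, ∀ n, d gen u v ≤ n → W gen {x | δ ≤ d gen p x} u v n :=
    fun u hu v hv n hn => (hC.walk u hu v hv).mono hCO hn
  have cross : ∀ k ∈ C, ∀ m ∈ B, d gen p k ≤ 3 * δ → d gen p m ≤ 3 * δ →
      W gen {x | δ ≤ d gen p x} k m (22 * δ) ∨
      ∃ y ∈ A, ∃ z ∈ A, d gen a y ≤ d gen a p ∧ d gen a p ≤ d gen a z ∧
        W gen {x | δ ≤ d gen p x} y z (24 * δ) := by
    intro k hk m hm hpk hpm
    have hkm : d gen k m ≤ 6 * δ := by
      have := d_tri hgen k p m
      rw [d_comm hgen k p] at this; omega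
    have t1 := d_tri hgen a p k
    have t2 := d_tri hgen a k p
    rw [d_comm hgen k p] at t2
    have hbk := hC.bet k hk
    have far : ∀ w ∈ C, d gen k w = 7 * δ →
        W gen {x | δ ≤ d gen p x} k m (22 * δ) ∨
          ∃ x ∈ A, d gen w x ≤ δ ∧ W gen {x | δ ≤ d gen p x} k x (8 * δ) := by
      intro w hw e
      obtain ⟨x, hx, hd⟩ := hsC w hw
      have t3 := d_tri hgen k p w
      rw [d_comm hgen k p] at t3
      have w1 := (wC k hk w hw (7 * δ) e.le).trans (hop hgen (p := p) hd (by omega))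
      rcases hx with hx | hx
      · exact Or.inr ⟨x, hx, hd, w1.mono le_rfl (by omega)⟩
      · left
        have t4 := d_tri hgen x k m
        have t5 := w1.d_le
        rw [d_comm hgen k x] at t5
        exact (w1.trans (wB x hx m hm (14 * δ) (by omega))).mono le_rfl (by omega)
    have Pm : W gen {x | δ ≤ d gen p x} k m (22 * δ) ∨
        ∃ y ∈ A, d gen a y ≤ d gen a p ∧ W gen {x | δ ≤ d gen p x} k y (8 * δ) := by
      by_cases c : 7 * δ ≤ d gen a k
      · obtain ⟨w, hw, e⟩ := hC.ex (d gen a k - 7 * δ) (by omega)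
        have := hC.ord w hw k hk (by omega)
        rw [d_comm hgen w k] at this
        rcases far w hw (by omega) with h | ⟨x, hx, hd, h⟩
        · exact Or.inl h
        · have := d_tri hgen a w x
          exact Or.inr ⟨x, hx, by omega, h⟩
      · refine Or.inr ⟨a, hA.left, by simp [d_self], wC k hk a hC.left _ ?_⟩
        rw [d_comm hgen]; omega
    have Pp : W gen {x | δ ≤ d gen p x} k m (22 * δ) ∨
        ∃ z ∈ A, d gen a p ≤ d gen a z ∧ W gen {x | δ ≤ d gen p x} k z (8 * δ) := by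
      by_cases cc : d gen a k + 7 * δ ≤ d gen a c
      · obtain ⟨w, hw, e⟩ := hC.ex (d gen a k + 7 * δ) cc
        have := hC.ord k hk w hw (by omega)
        rcases far w hw (by omega) with h | ⟨x, hx, hd, h⟩
        · exact Or.inl h
        · have := d_tri hgen a x w
          rw [d_comm hgen x w] at this
          exact Or.inr ⟨x, hx, by omega, h⟩
      · left
        have t4 := d_tri hgen c k m
        rw [d_comm hgen c k] at t4
        exact ((wC k hk c hC.right (7 * δ) (by omega)).trans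
          (wB c hB.right m hm (13 * δ) (by omega))).mono le_rfl (by omega)
    rcases Pm with h | ⟨y, hy, hy', wy⟩
    · exact Or.inl h
    rcases Pp with h | ⟨z, hz, hz', wz⟩
    · exact Or.inl h
    exact Or.inr ⟨y, hy, z, hz, hy', hz', (wy.symm.trans wz).mono le_rfl (by omega)⟩
  obtain ⟨y, hy, hy1, y', hy', wy, dy⟩ := exit hgen hA hp (Or.inr hC.left) hsA hT
  obtain ⟨z, hz, hz1, z', hz', wz, dz⟩ := exit hgen (hA.symm hgen) hp (Or.inl hB.left) hsA hT
  have hz2 : d gen a p ≤ d gen a z := by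
    have h1 := hA.bet p hp
    have h2 := hA.bet z hz
    rw [d_comm hgen b z, d_comm hgen b p] at hz1
    omega
  have hyz : d gen y' z' ≤ 6 * δ := by
    have := d_tri hgen y' p z'
    rw [d_comm hgen y' p] at this; omega
  have fin : W gen {x | δ ≤ d gen p x} y' z' (22 * δ) →
      ∃ y ∈ A, ∃ z ∈ A, d gen a y ≤ d gen a p ∧ d gen a p ≤ d gen a z ∧
        W gen {x | δ ≤ d gen p x} y z (24 * δ) := fun h =>
    ⟨y, hy, z, hz, hy1, hz2, ((wy.trans h).trans wz.symm).mono le_rfl (by omega)⟩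
  rcases hy' with hy' | hy' <;> rcases hz' with hz' | hz'
  · exact fin (wB _ hy' _ hz' _ (by omega))
  · rcases cross z' hz' y' hy' dz dy with h | h
    · exact fin h.symm
    · exact h
  · rcases cross y' hy' z' hz' dy dz with h | h
    · exact fin h
    · exact h
  · exact fin (wC _ hy' _ hz' _ (by omega))

theorem core_bound (hgen : Subgroup.closure (Set.range gen) = ⊤) {ρ K : ℕ} (H : Fill gen ρ K)
    {a b c p : G} {A B C : Set G} {δ : ℕ}
    (hA : Side gen a b A) (hB : Side gen b c B) (hC : Side gen a c C) (hp : p ∈ A)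
    (hsA : Slim gen δ A (B ∪ C)) (hsC : Slim gen δ C (A ∪ B))
    (hT : B ∪ C ⊆ {x | δ ≤ d gen p x}) :
    δ ≤ 4 * (2 * ρ + 2) * (384 * K * (2 * ρ + 2) + 1) := by
  obtain ⟨y, hy, z, hz, h1, h2, hW⟩ := core hgen hA hB hC hp hsA hsC hT
  obtain ⟨M, hM⟩ : ∃ M, M = 2 * ρ + 2 := ⟨_, rfl⟩
  have hM2 : 2 ≤ M := by omega
  obtain ⟨m, hm⟩ : ∃ m, m = δ / (4 * M) := ⟨_, rfl⟩
  have e1 : 4 * M * m ≤ δ := hm ▸ Nat.mul_div_le _ _
  have e2 : δ < 4 * M * (m + 1) := hm ▸ Nat.lt_mul_div_succ _ (by omega)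
  rw [← hM]
  rcases Nat.eq_zero_or_pos m with h0 | h0
  · subst h0; nlinarith [Nat.zero_le (384 * K * M)]
  have e3 := detour hgen H hA hp hy hz h1 h2 hW (m := m) (by rw [← hM]; nlinarith)
  have e4 : m * m ≤ (384 * K * M) * m := by
    calc m * m ≤ K * (2 * (24 * δ)) := e3
      _ ≤ K * (2 * (24 * (4 * M * (2 * m)))) := by
          gcongr
          calc δ ≤ 4 * M * (m + 1) := e2.le
            _ ≤ 4 * M * (2 * m) := by gcongr; omega
      _ = (384 * K * M) * m := by ring
  have e5 : m ≤ 384 * K * M := Nat.le_of_mul_le_mul_right e4 h0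
  calc δ ≤ 4 * M * (m + 1) := e2.le
    _ ≤ _ := by gcongr

theorem slim (hgen : Subgroup.closure (Set.range gen) = ⊤) {ρ K : ℕ} (H : Fill gen ρ K) :
    ∃ δ : ℕ, ∀ (a b c : G) (A B C : Set G), Side gen a b A → Side gen b c B → Side gen a c C →
      Slim gen δ A (B ∪ C) := by
  classical
  refine ⟨4 * (2 * ρ + 2) * (384 * K * (2 * ρ + 2) + 1), ?_⟩
  intro a b c A B C hA hB hC
  have hex : ∃ δ, Slim gen δ A (B ∪ C) ∧ Slim gen δ B (A ∪ C) ∧ Slim gen δ C (A ∪ B) := by
    refine ⟨d gen a b + d gen b c + d gen a c, fun u hu => ⟨b, Or.inl hB.left, ?_⟩,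
      fun u hu => ⟨c, Or.inr hC.right, ?_⟩, fun u hu => ⟨c, Or.inr hB.right, ?_⟩⟩
    · have := hA.bet u hu; omega
    · have := hB.bet u hu; omega
    · have := hC.bet u hu; omega
  obtain ⟨s1, s2, s3⟩ := Nat.find_spec hex
  have hle : Nat.find hex ≤ 4 * (2 * ρ + 2) * (384 * K * (2 * ρ + 2) + 1) := by
    rcases Nat.eq_zero_or_pos (Nat.find hex) with h0 | h0
    · omega
    have hmin := Nat.find_min hex (m := Nat.find hex - 1) (by omega)
    generalize Nat.find hex = δ at *
    have conv : ∀ X T : Set G, ¬ Slim gen (δ - 1) X T → ∃ p ∈ X, T ⊆ {x | δ ≤ d gen p x} := by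
      intro X T h
      simp only [Slim] at h
      push Not at h
      obtain ⟨p, hp, h⟩ := h
      refine ⟨p, hp, fun x hx => ?_⟩
      have := h x hx
      simp only [Set.mem_ofPred_eq]; omega
    by_cases c1 : Slim gen (δ - 1) A (B ∪ C)
    · by_cases c2 : Slim gen (δ - 1) B (A ∪ C)
      · obtain ⟨p, hp, hT⟩ := conv _ _ (fun c3 => hmin ⟨c1, c2, c3⟩)
        exact core_bound hgen H hC (hB.symm hgen) hA hp (Set.union_comm _ _ ▸ s3)
          (Set.union_comm _ _ ▸ s1) (Set.union_comm _ _ ▸ hT)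
      · obtain ⟨p, hp, hT⟩ := conv _ _ c2
        exact core_bound hgen H hB (hC.symm hgen) (hA.symm hgen) hp (Set.union_comm _ _ ▸ s2)
          s1 (Set.union_comm _ _ ▸ hT)
    · obtain ⟨p, hp, hT⟩ := conv _ _ c1
      exact core_bound hgen H hA hB hC hp s1 s3 hT
  intro u hu
  obtain ⟨v, hv, h⟩ := s1 u hu
  exact ⟨v, hv, h.trans hle⟩

theorem four_point (hgen : Subgroup.closure (Set.range gen) = ⊤) {δ : ℕ}
    (hs : ∀ (a b c : G) (A B C : Set G), Side gen a b A → Side gen b c B → Side gen a c C →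
      Slim gen δ A (B ∪ C)) (w x y z : G) :
    d gen x w + d gen y w + d gen x z ≤ d gen x w + d gen z w + d gen x y + (6 * δ + 2) ∨
    d gen y w + d gen z w + d gen x z ≤ d gen x w + d gen z w + d gen y z + (6 * δ + 2) := by
  classical
  obtain ⟨A, hA⟩ := ex_side hgen x z
  obtain ⟨B, hB⟩ := ex_side hgen z w
  obtain ⟨C, hC⟩ := ex_side hgen x w
  have s1 := hs _ _ _ _ _ _ hA hB hC
  have hm : ∃ m ∈ A, 2 * d gen m w + d gen x z ≤ d gen x w + d gen z w + (4 * δ + 2) := by
    have hex : ∃ k, ∃ u ∈ A, d gen x u = k ∧ ∃ v ∈ B, d gen u v ≤ δ :=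
      ⟨_, z, hA.right, rfl, z, hB.left, by simp [d_self]⟩
    obtain ⟨u, hu, e, v, hv, hd⟩ := Nat.find_spec hex
    have b1 := hA.bet u hu
    have b2 := hB.bet v hv
    have t1 := d_tri hgen u v w
    have t2 := d_tri hgen u v z
    rw [d_comm hgen v z] at t2
    refine ⟨u, hu, ?_⟩
    rcases Nat.eq_zero_or_pos (Nat.find hex) with h0 | h0
    · have t3 := d_tri hgen u x w
      rw [d_comm hgen u x] at t3
      omega
    have hmin := Nat.find_min hex (m := Nat.find hex - 1) (by omega)
    obtain ⟨u', hu', e'⟩ := hA.ex (Nat.find hex - 1) (by omega)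
    obtain ⟨v', hv', hd'⟩ := s1 u' hu'
    rcases hv' with hv' | hv'
    · exact absurd ⟨u', hu', e', v', hv', hd'⟩ hmin
    have b3 := hC.bet v' hv'
    have o1 := hA.ord u' hu' u hu (by omega)
    have t3 := d_tri hgen u u' v'
    rw [d_comm hgen u u'] at t3
    have t4 := d_tri hgen u v' w
    have t5 := d_tri hgen x v' u'
    rw [d_comm hgen v' u'] at t5
    omega
  obtain ⟨m, hmA, hm⟩ := hm
  obtain ⟨B', hB'⟩ := ex_side hgen z y
  obtain ⟨C', hC'⟩ := ex_side hgen x y
  obtain ⟨v, hv, hd⟩ := hs _ _ _ _ _ _ hA hB' hC' m hmA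
  have t0 := d_tri hgen v m w
  rw [d_comm hgen v m] at t0
  have t1 := d_tri hgen y v w
  rw [d_comm hgen y v] at t1
  rcases hv with hv | hv
  · right
    have b := hB'.bet v hv
    have t2 := d_tri hgen z v w
    rw [d_comm hgen y z]
    omega
  · left
    have b := hC'.bet v hv
    have t2 := d_tri hgen x v w
    omega

/-- T2: a linear mod 2 isoperimetric inequality gives four-point hyperbolicity. -/
theorem hyperbolic_of_linear_area [Fintype P] (gen : P → G)
    (hgen : Subgroup.closure (Set.range gen) = ⊤)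
    (H : ∃ ρ C : ℕ, ∀ l, wp gen l = 1 → ∃ L : List (G × List (P × Bool)),
      L.length ≤ C * l.length ∧ (∀ q ∈ L, wp gen q.2 = 1 ∧ q.2.length ≤ ρ) ∧
        ch gen 1 l = (L.map fun q => ch gen q.1 q.2).sum) :
    IsHyperbolicGroup G := by
  obtain ⟨ρ, C, H⟩ := H
  obtain ⟨δ, hs⟩ := slim hgen (ρ := ρ) (K := C) H
  refine ⟨(Set.finite_range gen).toFinset, by simpa using hgen, 3 * δ + 1, by positivity, ?_⟩
  intro w x y z
  simp only [Set.Finite.coe_toFinset, gromovProduct, wordDist]
  have := four_point hgen hs w x y z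
  simp only [d] at this
  rcases this with h | h
  · have h' := (Nat.cast_le (α := ℝ)).2 h
    push_cast at h'
    have := min_le_left
      (((wordLength (Set.range gen) (x⁻¹ * w) : ℝ) + wordLength (Set.range gen) (y⁻¹ * w) -
        wordLength (Set.range gen) (x⁻¹ * y)) / 2)
      (((wordLength (Set.range gen) (y⁻¹ * w) : ℝ) + wordLength (Set.range gen) (z⁻¹ * w) -
        wordLength (Set.range gen) (y⁻¹ * z)) / 2)
    linarith
  · have h' := (Nat.cast_le (α := ℝ)).2 h
    push_cast at h'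
    have := min_le_right
      (((wordLength (Set.range gen) (x⁻¹ * w) : ℝ) + wordLength (Set.range gen) (y⁻¹ * w) -
        wordLength (Set.range gen) (x⁻¹ * y)) / 2)
      (((wordLength (Set.range gen) (y⁻¹ * w) : ℝ) + wordLength (Set.range gen) (z⁻¹ * w) -
        wordLength (Set.range gen) (y⁻¹ * z)) / 2)
    linarith

end Crest.Agent.H3.Hyp
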