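import Crest.Agent.H3.PTCore
import Crest.Prelude.Def_TimeBound
import Crest.Prelude.Def_IntMul

set_option autoImplicit false
set_option linter.unusedSimpArgs false

/-! From timed stack programs to machines reading a tagged pair of bit strings. -/

namespace Crest.Agent.H3.Ptime
open Function Turing Crest.LogicCS.IntMul Crest.DTime

/-- stack alphabets: one extra input stack -/
def G (n : ℕ) : Option (Fin (n + 1)) → Type
  | none => Bool ⊕ Bool
  | some _ => Bool

abbrev Stm' (n : ℕ) (A : Type) := TM2.Stmt (G n) A (Option Bool)

def liftS {n : ℕ} {A A' : Type} (e : A → A') : Stm n A → Stm' n A'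
  | .push k f q => .push (some k) f (liftS e q)
  | .peek k f q => .peek (some k) f (liftS e q)
  | .pop k f q => .pop (some k) f (liftS e q)
  | .load f q => .load f (liftS e q)
  | .branch f q q' => .branch f (liftS e q) (liftS e q')
  | .goto f => .goto fun v => e (f v)
  | .halt => .halt

def liftK {n : ℕ} (w : List (Bool ⊕ Bool)) (S : Fin (n + 1) → List Bool) :
    ∀ k : Option (Fin (n + 1)), List (G n k)
  | none => w
  | some k => S k

def liftC {n : ℕ} {A A' : Type} (e : A → A') (w : List (Bool ⊕ Bool))
    (c : TM2.Cfg (fun _ : Fin (n + 1) => Bool) A (Option Bool)) : TM2.Cfg (G n) A' (Option Bool) :=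
  ⟨c.l.map e, c.var, liftK w c.stk⟩

theorem liftK_some {n : ℕ} (w : List (Bool ⊕ Bool)) (S : Fin (n + 1) → List Bool) (k : Fin (n + 1))
    (l : List Bool) : update (liftK w S) (some k) l = liftK w (update S k l) := by
  funext j
  cases j with
  | none => rw [update_of_ne (by simp)]; rfl
  | some j =>
    by_cases h : j = k
    · subst h; simp [liftK]
    · rw [update_of_ne (by simpa using h)]; simp [liftK, h]

theorem liftK_none {n : ℕ} (w w' : List (Bool ⊕ Bool)) (S : Fin (n + 1) → List Bool) :
    update (liftK w S) none w' = liftK w' S := by
  funext j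
  cases j with
  | none => simp [liftK]
  | some j => rw [update_of_ne (by simp)]; rfl

theorem stepAux_lift {n : ℕ} {A A' : Type} (e : A → A') (w : List (Bool ⊕ Bool)) (q : Stm n A) :
    ∀ (v : Option Bool) (S : Fin (n + 1) → List Bool),
      TM2.stepAux (liftS e q) v (liftK w S) = liftC e w (TM2.stepAux q v S) := by
  induction q with
  | push k f q ih =>
    intro v S
    exact (congrArg (TM2.stepAux (liftS e q) v) (liftK_some w S k _)).trans (ih _ _)
  | peek k f q ih => intro v S; exact ih _ _
  | pop k f q ih =>
    intro v S
    exact (congrArg (TM2.stepAux (liftS e q) _) (liftK_some w S k _)).trans (ih _ _)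
  | load f q ih => intro v S; exact ih _ _
  | branch f q q' ih ih' =>
    intro v S
    simp only [liftS, TM2.stepAux]
    cases f v
    · exact ih' _ _
    · exact ih _ _
  | goto f => intro v S; rfl
  | halt => intro v S; rfl

theorem iterate_lift {n : ℕ} {A A' : Type} (e : A → A') (w : List (Bool ⊕ Bool))
    (M : A → Stm n A) (M' : A' → Stm' n A') (h : ∀ l, M' (e l) = liftS e (M l)) (t : ℕ) :
    ∀ c, (flip bind (TM2.step M'))^[t] (Option.map (liftC e w) c) =
      Option.map (liftC e w) ((flip bind (TM2.step M))^[t] c) := by
  induction t with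
  | zero => intro c; rfl
  | succ t ih =>
    intro c
    rw [iterate_succ_apply, iterate_succ_apply, ← ih]
    congr 1
    rcases c with _ | ⟨_ | l, v, S⟩
    · rfl
    · rfl
    · simp [flip, liftC, h, stepAux_lift]

/-- the reading loop: first factor to register `1`, second factor to register `2` -/
def rdS (n : ℕ) {A : Type} (a : A) : Stm' n (Option A) :=
  .peek none (fun _ (x : Option (Bool ⊕ Bool)) => x.map Sum.isRight)
    (.branch (fun v => v.isNone) (.goto fun _ => some a)
      (.branch (fun v => v == some true)
        (.pop none (fun _ (x : Option (Bool ⊕ Bool)) => x.map (Sum.elim id id))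
          (.push (some (fv n 2)) (fun v => v.getD false) (.load (fun _ => none) (.goto fun _ => none))))
        (.pop none (fun _ (x : Option (Bool ⊕ Bool)) => x.map (Sum.elim id id))
          (.push (some (fv n 1)) (fun v => v.getD false) (.load (fun _ => none) (.goto fun _ => none))))))

theorem rd_run {n : ℕ} (hn : 2 ≤ n) {A : Type} (a : A) (M' : Option A → Stm' n (Option A))
    (h : M' none = rdS n a) (x y : List Bool) : ∀ u v : List Bool,
    (flip bind (TM2.step M'))^[x.length + y.length + 1]
      (some ⟨some none, none, liftK (x.map .inl ++ y.map .inr) (res n (st3 [] u v))⟩) =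
      some ⟨some (some a), none, liftK [] (res n (st3 [] (x.reverse ++ u) (y.reverse ++ v)))⟩ := by
  have h1 : 1 < n + 1 := by omega
  have h2 : 2 < n + 1 := by omega
  induction x with
  | nil =>
    induction y with
    | nil => intro u v; simp [flip, h, rdS, liftK]; rfl
    | cons b y ih =>
      intro u v
      rw [show ([] : List Bool).length + (b :: y).length + 1 = (([] : List Bool).length + y.length + 1) + 1
        by simp, iterate_succ_apply]
      refine Eq.trans (congrArg _ ?_) ((ih u (b :: v)).trans (by simp))
      simp only [flip, List.map_nil, List.nil_append, List.map_cons, Option.bind_eq_bind,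
        Option.bind_some, TM2.step, h, rdS, TM2.stepAux, liftK, List.head?_cons, Option.map_some,
        Sum.isRight_inr, Option.isNone_some, cond_false, BEq.rfl, cond_true, List.tail_cons,
        liftK_none, liftK_some, Sum.elim_inr, id, Option.getD_some, res_fv h2, res_update h2,
        st3_at2, st3_up2]
      rfl
  | cons b x ih =>
    intro u v
    rw [show (b :: x).length + y.length + 1 = (x.length + y.length + 1) + 1 by simp; omega,
      iterate_succ_apply]
    refine Eq.trans (congrArg _ ?_) ((ih (b :: u) v).trans (by simp))
    have : (some false == some true) = false := rfl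
    simp only [flip, List.map_cons, List.cons_append, Option.bind_eq_bind,
      Option.bind_some, TM2.step, h, rdS, TM2.stepAux, liftK, List.head?_cons, Option.map_some,
      Sum.isRight_inl, Option.isNone_some, cond_false, this, List.tail_cons,
      liftK_none, liftK_some, Sum.elim_inl, id, Option.getD_some, res_fv h1, res_update h1,
      st3_at1, st3_up1]
    rfl

/-- the machine with a reading loop in front -/
def Prog.tm2 (p : Prog) : FinTM2 where
  K := Option (Fin (p.nv + 2 + 1))
  k₀ := none
  k₁ := some 0
  Γ := G (p.nv + 2)
  Λ := Option p.L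
  main := none
  ΛFin := @instFintypeOption _ p.finL
  σ := Option Bool
  initialState := none
  Γk₀Fin := inferInstanceAs (Fintype (Bool ⊕ Bool))
  m := fun l => match l with
    | none => rdS (p.nv + 2) p.start
    | some l => liftS some (p.code id .halt l)

theorem tm2_of_prog (p : Prog) (T : ℕ → ℕ) (h : ∀ x : EqLenPair,
    R p (st3 [] x.1.1.reverse x.1.2.reverse) (T (2 * x.1.1.length)) (sg (mulOutput x))) :
    TimeBoundComputable EqLenPair.enc (Computability.encodingList Bool).encode mulOutput
      (fun N => T N + N + 1) := by
  have hlen : ∀ x : EqLenPair, (EqLenPair.enc x).length = 2 * x.1.1.length := by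
    intro x
    have := x.2
    simp [EqLenPair.enc, Crest.Complexity.pairEnc, Computability.encodingProd,
      Computability.encodingList]
    omega
  refine ⟨{ tm := p.tm2
            inputAlphabet := Equiv.refl _
            outputAlphabet := Equiv.refl _
            time := fun N => T N + N + 1
            outputsFun := fun x =>
              { steps := (h x).choose + (x.1.1.length + x.1.2.length + 1)
                evals_in_steps := ?_
                steps_le_m := ?_ } }, fun _ => le_rfl⟩
  · have a1 := rd_run (n := p.nv + 2) (by omega) p.start p.tm2.m rfl x.1.1 x.1.2 [] []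
    have a2 := Run.compile (n := p.nv + 2) (p.code id .halt) (h x).choose_spec.2 (by omega) id .halt
      (fun _ => rfl)
    have a3 := iterate_lift some [] (p.code (n := p.nv + 2) id .halt) p.tm2.m (fun _ => rfl)
      (h x).choose (some ⟨some p.start, none, res (p.nv + 2) (st3 [] x.1.1.reverse x.1.2.reverse)⟩)
    simp only [id] at a2
    rw [a2] at a3
    simp only [List.append_nil] at a1
    have e1 : initList p.tm2 (List.map (Equiv.refl (Bool ⊕ Bool)).invFun (EqLenPair.enc x)) =
        ⟨some none, none, liftK (x.1.1.map .inl ++ x.1.2.map .inr) (res (p.nv + 2) (st3 [] [] []))⟩ := by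
      simp only [initList]
      congr 1
      funext k
      cases k with
      | none =>
        simp [Prog.tm2, liftK, EqLenPair.enc, Crest.Complexity.pairEnc, Computability.encodingProd,
          Computability.encodingList]
        rfl
      | some k =>
        simp only [Prog.tm2, liftK, res, st3_0, sg]
        rw [dif_neg (by simp)]
        simp
        rfl
    have e2 : haltList p.tm2 (List.map (Equiv.refl Bool).invFun
        ((Computability.encodingList Bool).encode (mulOutput x))) =
        ⟨none, none, liftK [] (res (p.nv + 2) (sg (mulOutput x)))⟩ := by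
      simp only [haltList]
      congr 1
      funext k
      cases k with
      | none => simp [Prog.tm2, liftK]; rfl
      | some k =>
        by_cases hk : k = 0
        · subst hk; simp [Prog.tm2, liftK, res, Computability.encodingList]; exact List.map_id _
        · have : (k : ℕ) ≠ 0 := fun h => hk (Fin.ext h)
          simp only [Prog.tm2, liftK, res, sg]
          rw [dif_neg (by simpa using hk)]
          simp [this]
          rfl
    refine (congrArg (fun c => (flip bind p.tm2.step)^[_] (some c)) e1).trans ?_
    rw [iterate_add_apply]
    exact (congrArg _ a1).trans (a3.trans (congrArg some e2.symm))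
  · have := (h x).choose_spec.1
    have := x.2
    rw [hlen]
    omega

/-- prepend the reversed register `r` as coded list entries -/
def consP (r : ℕ) : Prog := .whl r (.ite r (.seq (.pop r) (pushL 0 [true, true, false, false]))
  (.seq (.pop r) (pushL 0 [true, false])))

theorem run_consP {r : ℕ} (hr : r ≠ 0) : ∀ (l m rest : List Bool) (s : St), s r = l →
    s 0 = cd m ++ rest → R (consP r) s (8 * l.length + 1)
      (update (update s r []) 0 (cd (l.reverse ++ m) ++ rest)) := by
  intro l
  induction l with
  | nil =>
    intro m rest s h h0
    refine (R.whl0 h).cast ?_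
    rw [List.reverse_nil, List.nil_append, ← h0, ← h, update_eq_self, update_eq_self]
  | cons b l ih =>
    intro m rest s h h0
    have hb : R (.ite r (.seq (.pop r) (pushL 0 [true, true, false, false]))
        (.seq (.pop r) (pushL 0 [true, false]))) s 7
        (update (update s r l) 0 (cd (b :: m) ++ rest)) := by
      cases b
      · exact ((R.iteF (by simp [h]) ((R.pop r s).seq (run_pushL 0 _ _))).mono (by simp)).cast
          (by simp [h, hr.symm, h0, cd_cons, cd_false])
      · exact ((R.iteT (by simp [h]) ((R.pop r s).seq (run_pushL 0 _ _))).mono (by simp)).cast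
          (by simp [h, hr.symm, h0, cd_cons, cd_true])
    have h1 := R.whlS (by simp [h]) hb (ih (b :: m) rest _ (by simp [hr]) (by simp))
    refine (h1.mono (by simp; omega)).cast ?_
    funext k
    by_cases hk : k = 0
    · subst hk; simp
    · by_cases hk' : k = r
      · subst hk'; simp [hk]
      · simp [hk, hk']

def in2P : Prog := .seq (.push 0 false) (.seq (consP 2) (.seq (.push 0 false)
  (.seq (consP 1) (.push 0 true))))

theorem run_in2 (x y : List Bool) : R in2P (st3 [] x.reverse y.reverse)
    (8 * (x.length + y.length) + 5) (sg (cd (x, y))) := by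
  have a1 := R.push 0 false (st3 [] x.reverse y.reverse)
  simp only [st3_at0, st3_up0] at a1
  have a2 := run_consP (r := 2) (by omega) y.reverse [] [] (st3 [false] x.reverse y.reverse)
    (by simp) (by simp [cd_nil])
  simp only [st3_up2, st3_up0, List.reverse_reverse, List.append_nil] at a2
  have a3 := R.push 0 false (st3 (cd y) x.reverse [])
  simp only [st3_at0, st3_up0] at a3
  have a4 := run_consP (r := 1) (by omega) x.reverse [] (cd y) (st3 (false :: cd y) x.reverse [])
    (by simp) (by simp [cd_nil])
  simp only [st3_up1, st3_up0, List.reverse_reverse, List.append_nil] at a4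
  have a5 := R.push 0 true (st3 (cd x ++ cd y) [] [])
  simp only [st3_0, sg_0, sg_up] at a5
  rw [st3_0] at a4
  have a6 := a1.seq (a2.seq (a3.seq (a4.seq a5)))
  exact a6.mono (by simp; omega)

theorem timeBound_of_run (p : Prog) (T : ℕ → ℕ) (h : ∀ x : EqLenPair,
    R p (sg (cd (x.1.1, x.1.2))) (T (2 * x.1.1.length)) (sg (cd (mulOutput x)))) :
    TimeBoundComputable EqLenPair.enc (Computability.encodingList Bool).encode mulOutput
      (fun N => T N + 21 * N + 11) := by
  obtain ⟨M, hM⟩ := tm2_of_prog (.seq in2P (.seq p outP)) (fun N => T N + 20 * N + 10) (fun x => by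
    refine ((run_in2 _ _).seq ((h x).seq (run_out _))).mono ?_
    have := x.2
    simp [mulOutput, toBits]
    omega)
  exact ⟨M, fun n => (hM n).trans (by simp only; omega)⟩

/-- the target rate -/
noncomputable def rate (N : ℕ) : ℕ := ⌈(N : ℝ) * (Real.logb 2 N) ^ (1 - 1 / (2 : ℝ) ^ 182)⌉₊

theorem le_rate (N : ℕ) : N ≤ rate N + 1 := by
  rcases Nat.lt_or_ge N 2 with h | h
  · omega
  · have h1 : (1 : ℝ) ≤ Real.logb 2 N := by
      rw [Real.le_logb_iff_rpow_le (by norm_num) (by positivity)]
      simpa using (by exact_mod_cast h : (2 : ℝ) ≤ N)
    have h2 : (1 : ℝ) ≤ (Real.logb 2 N) ^ (1 - 1 / (2 : ℝ) ^ 182) :=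
      Real.one_le_rpow h1 (by
        have : 1 / (2 : ℝ) ^ 182 ≤ 1 := by
          rw [div_le_one (by positivity)]; exact one_le_pow₀ (by norm_num)
        linarith)
    have h3 : (N : ℝ) ≤ rate N := le_trans (by nlinarith) (Nat.le_ceil _)
    have : N ≤ rate N := by exact_mod_cast h3
    omega

/-- the final statement from a program with the right running time -/
theorem result_of (p : Prog) (c : ℕ) (h : ∀ x : EqLenPair,
    R p (sg (cd (x.1.1, x.1.2))) (c * (rate (2 * x.1.1.length) + 2 * x.1.1.length + 1))
      (sg (cd (mulOutput x)))) :
    ∃ c : ℕ, TimeBoundComputable EqLenPair.enc (Computability.encodingList Bool).encode mulOutput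
      (fun N => c * ⌈(N : ℝ) * (Real.logb 2 N) ^ (1 - 1 / (2 : ℝ) ^ 182)⌉₊ + c) := by
  obtain ⟨M, hM⟩ := timeBound_of_run p (fun N => c * (rate N + N + 1)) h
  refine ⟨2 * c + 32, M, fun n => (hM n).trans ?_⟩
  have := le_rate n
  change _ ≤ (2 * c + 32) * rate n + (2 * c + 32)
  nlinarith

end Crest.Agent.H3.Ptime
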