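import Crest.Agent.H6.CCCore
import Crest.Agent.H3.IMBridge

set_option autoImplicit false
set_option linter.unusedSectionVars false
set_option linter.unusedVariables false
set_option linter.unusedSimpArgs false

/-! Linear-time arithmetic on binary naturals and integers. -/

namespace Crest.Agent.H3.Ptime
open Function

variable {α β γ : Type} [Enc α] [Enc β] [Enc γ]

/-- decode a coded bit list from `a` onto `b` (reversed); `f` holds a flag -/
def decL (a b f : ℕ) : Prog := .whl f (.ite a (.seq (.pop a) (.ite a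
  (.seq (.pop a) (.seq (.pop a) (.seq (.pop a) (.push b true)))) (.seq (.pop a) (.push b false))))
  (.seq (.pop a) (.pop f)))

theorem run_decL {a b f : ℕ} (hab : a ≠ b) (haf : a ≠ f) (hbf : b ≠ f) :
    ∀ (l rest : List Bool) (s : St), s a = cd l ++ rest → s f = [true] →
      R (decL a b f) s (8 * l.length + 5)
        (update (update (update s a rest) b (l.reverse ++ s b)) f []) := by
  intro l
  induction l with
  | nil =>
    intro rest s ha hf
    have hb := R.iteF (r := a) (p := .seq (.pop a) (.ite a
      (.seq (.pop a) (.seq (.pop a) (.seq (.pop a) (.push b true)))) (.seq (.pop a) (.push b false))))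
      (s := s) (by simp [ha, cd_nil]) ((R.pop a _).seq (R.pop f _))
    have h1 := R.whlS (r := f) (by simp [hf]) hb (R.whl0 (by simp [haf.symm, hf]))
    refine (h1.mono (by simp)).cast ?_
    funext k
    simp only [update_apply]
    split_ifs <;> simp_all [cd_nil]
  | cons x l ih =>
    intro rest s ha hf
    have hb : R (.ite a (.seq (.pop a) (.ite a
        (.seq (.pop a) (.seq (.pop a) (.seq (.pop a) (.push b true)))) (.seq (.pop a) (.push b false))))
        (.seq (.pop a) (.pop f))) s 7 (update (update s a (cd l ++ rest)) b (x :: s b)) := by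
      cases x
      · exact ((R.iteT (by simp [ha, cd_cons]) ((R.pop a _).seq (R.iteF
          (by simp [ha, cd_cons, cd_false]) ((R.pop a _).seq (R.push b false _))))).mono
          (by omega)).cast (by simp [ha, cd_cons, cd_false, hab.symm])
      · exact (R.iteT (by simp [ha, cd_cons]) ((R.pop a _).seq (R.iteT
          (by simp [ha, cd_cons, cd_true]) ((R.pop a _).seq ((R.pop a _).seq ((R.pop a _).seq
            (R.push b true _))))))).cast (by simp [ha, cd_cons, cd_true, hab.symm])
    have h1 := R.whlS (r := f) (by simp [hf]) hb (ih rest _ (by simp [hab])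
      (by simp [hbf.symm, haf.symm, hf]))
    refine (h1.mono (by simp; omega)).cast ?_
    funext k
    simp only [update_apply]
    split_ifs <;> simp_all

def decP (a b f : ℕ) : Prog := .seq (.push f true) (decL a b f)

theorem run_decP {a b f : ℕ} (hab : a ≠ b) (haf : a ≠ f) (hbf : b ≠ f) (l rest : List Bool)
    (s : St) (ha : s a = cd l ++ rest) (hf : s f = []) :
    R (decP a b f) s (8 * l.length + 6) (update (update s a rest) b (l.reverse ++ s b)) := by
  have h := (R.push f true s).seq (run_decL hab haf hbf l rest _ (by simp [haf, ha]) (by simp [hf]))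
  refine (h.mono (by omega)).cast ?_
  funext k
  simp only [update_apply]
  split_ifs <;> simp_all

/-- a two-input transducer with one bit of state -/
def tr (δ o : Bool → Bool → Bool → Bool) : ℕ → List Bool → List Bool → Bool → List Bool →
    Bool × List Bool
  | 0, _, _, c, l => (c, l)
  | k + 1, x, y, c, l => tr δ o k x.tail y.tail (δ (x.headD false) (y.headD false) c)
      (o (x.headD false) (y.headD false) c :: l)

def trA (δ o : Bool → Bool → Bool → Bool) (x y : Bool) : Prog :=
  .ite 3 (.seq (.pop 3) (.seq (.push 3 (δ x y true)) (.push 4 (o x y true))))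
    (.seq (.pop 3) (.seq (.push 3 (δ x y false)) (.push 4 (o x y false))))

def trB (δ o : Bool → Bool → Bool → Bool) (x : Bool) : Prog :=
  .ite 2 (.seq (.pop 2) (trA δ o x true)) (.seq (.pop 2) (trA δ o x false))

def trC (δ o : Bool → Bool → Bool → Bool) : Prog :=
  .seq (.pop 5) (.ite 1 (.seq (.pop 1) (trB δ o true)) (.seq (.pop 1) (trB δ o false)))

theorem run_trA (δ o : Bool → Bool → Bool → Bool) (x y c : Bool) (X Y l N : List Bool) :
    R (trA δ o x y) (sL [[], X, Y, [c], l, N, [], []]) 4
      (sL [[], X, Y, [δ x y c], o x y c :: l, N, [], []]) := by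
  cases c
  · exact (R.iteF (by simp) ((R.pop 3 _).seq ((R.push 3 _ _).seq (R.push 4 _ _)))).cast
      (by simp [sL_up])
  · exact (R.iteT (by simp) ((R.pop 3 _).seq ((R.push 3 _ _).seq (R.push 4 _ _)))).cast
      (by simp [sL_up])

theorem run_trB (δ o : Bool → Bool → Bool → Bool) (x c : Bool) (X Y l N : List Bool) :
    R (trB δ o x) (sL [[], X, Y, [c], l, N, [], []]) 6
      (sL [[], X, Y.tail, [δ x (Y.headD false) c], o x (Y.headD false) c :: l, N, [], []]) := by
  have hp : R (.pop 2) (sL [[], X, Y, [c], l, N, [], []]) 1 (sL [[], X, Y.tail, [c], l, N, [], []]) :=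
    (R.pop 2 _).cast (by simp [sL_up])
  rcases Y with _ | ⟨_ | _, Y⟩
  · exact R.iteF (by simp) (hp.seq (run_trA δ o x false c _ _ _ _))
  · exact R.iteF (by simp) (hp.seq (run_trA δ o x false c _ _ _ _))
  · exact R.iteT (by simp) (hp.seq (run_trA δ o x true c _ _ _ _))

theorem run_trC (δ o : Bool → Bool → Bool → Bool) (c : Bool) (X Y l N : List Bool) :
    R (trC δ o) (sL [[], X, Y, [c], l, N, [], []]) 9
      (sL [[], X.tail, Y.tail, [δ (X.headD false) (Y.headD false) c],
        o (X.headD false) (Y.headD false) c :: l, N.tail, [], []]) := by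
  have h5 : R (.pop 5) (sL [[], X, Y, [c], l, N, [], []]) 1 (sL [[], X, Y, [c], l, N.tail, [], []]) :=
    (R.pop 5 _).cast (by simp [sL_up])
  have hp : R (.pop 1) (sL [[], X, Y, [c], l, N.tail, [], []]) 1
      (sL [[], X.tail, Y, [c], l, N.tail, [], []]) := (R.pop 1 _).cast (by simp [sL_up])
  rcases X with _ | ⟨_ | _, X⟩
  · exact h5.seq (R.iteF (by simp) (hp.seq (run_trB δ o false c _ _ _ _)))
  · exact h5.seq (R.iteF (by simp) (hp.seq (run_trB δ o false c _ _ _ _)))
  · exact h5.seq (R.iteT (by simp) (hp.seq (run_trB δ o true c _ _ _ _)))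

theorem run_trL (δ o : Bool → Bool → Bool → Bool) : ∀ (N X Y : List Bool) (c : Bool) (l : List Bool),
    R (.whl 5 (trC δ o)) (sL [[], X, Y, [c], l, N, [], []]) (10 * N.length + 1)
      (sL [[], X.drop N.length, Y.drop N.length, [(tr δ o N.length X Y c l).1],
        (tr δ o N.length X Y c l).2, [], [], []]) := by
  intro N
  induction N with
  | nil => intro X Y c l; exact R.whl0 (by simp)
  | cons b N ih =>
    intro X Y c l
    have h := R.whlS (r := 5) (by simp) (run_trC δ o c X Y l (b :: N)) (ih _ _ _ _)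
    exact (h.mono (by simp; omega)).cast (by simp [tr])

theorem tr_length (δ o : Bool → Bool → Bool → Bool) (k : ℕ) : ∀ (x y : List Bool) (c : Bool)
    (l : List Bool), (tr δ o k x y c l).2.length = k + l.length := by
  induction k with
  | zero => intro x y c l; simp [tr]
  | succ k ih => intro x y c l; simp [tr, ih]; omega

theorem Lin.tr (δ o : Bool → Bool → Bool → Bool) : Lin (fun p : List Bool × List Bool =>
    tr δ o (p.1.length + p.2.length + 1) p.1 p.2 false []) := by
  refine CC.ofR (.seq (.pop 0) (.seq (decP 0 6 7) (.seq (mv2 6 1 5) (.seq (decP 0 6 7)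
    (.seq (mv2 6 2 5) (.seq (.push 5 true) (.seq (.push 3 false) (.seq (.whl 5 (trC δ o))
    (.seq (mv 4 6) (.seq (.push 0 false) (.seq (consP 6) (.seq
      (.ite 3 (pushL 0 [true, true, false, false]) (pushL 0 [true, false])) (.pop 3))))))))))))) 70 ?_
  rintro ⟨x, y⟩ T -
  set k := x.length + y.length + 1 with hk
  set c := (Ptime.tr δ o k x y false []).1 with hc
  set l := (Ptime.tr δ o k x y false []).2 with hl
  have hll : l.length = k := by simp [hl, tr_length]
  rw [sg_eq_sL _ 7, sg_eq_sL _ 7]
  have s1 : R (.pop 0) (sL [cd (x, y), [], [], [], [], [], [], []]) 1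
      (sL [cd x ++ cd y, [], [], [], [], [], [], []]) := (R.pop 0 _).cast (by simp [sL_up, cd_pair])
  have s2 : R (decP 0 6 7) (sL [cd x ++ cd y, [], [], [], [], [], [], []]) _
      (sL [cd y, [], [], [], [], [], x.reverse, []]) :=
    (run_decP (by omega) (by omega) (by omega) x (cd y) _ rfl rfl).cast (by simp [sL_up])
  have s3 : R (mv2 6 1 5) (sL [cd y, [], [], [], [], [], x.reverse, []]) _
      (sL [cd y, x, [], [], [], x, [], []]) :=
    (run_mv2 (by omega) (by omega) (by omega) x.reverse _ rfl).cast (by simp [sL_up])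
  have s4 : R (decP 0 6 7) (sL [cd y, x, [], [], [], x, [], []]) _
      (sL [[], x, [], [], [], x, y.reverse, []]) :=
    (run_decP (by omega) (by omega) (by omega) y [] _ (by simp) rfl).cast (by simp [sL_up])
  have s5 : R (mv2 6 2 5) (sL [[], x, [], [], [], x, y.reverse, []]) _
      (sL [[], x, y, [], [], y ++ x, [], []]) :=
    (run_mv2 (by omega) (by omega) (by omega) y.reverse _ rfl).cast (by simp [sL_up])
  have s6 : R (.push 5 true) (sL [[], x, y, [], [], y ++ x, [], []]) 1
      (sL [[], x, y, [], [], true :: (y ++ x), [], []]) := (R.push 5 _ _).cast (by simp [sL_up])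
  have s7 : R (.push 3 false) (sL [[], x, y, [], [], true :: (y ++ x), [], []]) 1
      (sL [[], x, y, [false], [], true :: (y ++ x), [], []]) := (R.push 3 _ _).cast (by simp [sL_up])
  have s8 := run_trL δ o (true :: (y ++ x)) x y false []
  have hN : (true :: (y ++ x)).length = k := by simp [hk]; omega
  rw [hN, List.drop_of_length_le (by omega), List.drop_of_length_le (by omega), ← hc, ← hl] at s8
  have s9 : R (mv 4 6) (sL [[], [], [], [c], l, [], [], []]) _
      (sL [[], [], [], [c], [], [], l.reverse, []]) :=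
    (run_mv (by omega) l _ rfl).cast (by simp [sL_up])
  have s10 : R (.push 0 false) (sL [[], [], [], [c], [], [], l.reverse, []]) 1
      (sL [[false], [], [], [c], [], [], l.reverse, []]) := (R.push 0 _ _).cast (by simp [sL_up])
  have s11 : R (consP 6) (sL [[false], [], [], [c], [], [], l.reverse, []]) _
      (sL [cd l, [], [], [c], [], [], [], []]) :=
    (run_consP (by omega) l.reverse [] [] _ rfl (by simp [cd_nil])).cast (by simp [sL_up])
  have s12 : R (.ite 3 (pushL 0 [true, true, false, false]) (pushL 0 [true, false]))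
      (sL [cd l, [], [], [c], [], [], [], []]) 6 (sL [cd (c, l), [], [], [c], [], [], [], []]) := by
    generalize c = c
    cases c
    · exact ((R.iteF (by simp) (run_pushL 0 _ _)).mono (by simp)).cast
        (by simp [sL_up, cd_pair, cd_false])
    · exact ((R.iteT (by simp) (run_pushL 0 _ _)).mono (by simp)).cast
        (by simp [sL_up, cd_pair, cd_true])
  have s13 : R (.pop 3) (sL [cd (c, l), [], [], [c], [], [], [], []]) 1
      (sL [cd (c, l), [], [], [], [], [], [], []]) := (R.pop 3 _).cast (by simp [sL_up])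
  have h := s1.seq (s2.seq (s3.seq (s4.seq (s5.seq (s6.seq (s7.seq (s8.seq (s9.seq (s10.seq
    (s11.seq (s12.seq s13)))))))))))
  refine h.mono ?_
  have h1 := length_le_sz x
  have h2 := length_le_sz y
  rw [sz_pair]
  simp only [List.length_reverse, hll]
  omega

theorem tr_tstep (δ o : Bool → Bool → Bool → Bool) (k : ℕ) : ∀ (a b : ℕ) (c : Bool) (l : List Bool),
    tr δ o k a.bits b.bits c l = ((tstep δ o)^[k] (a, b, c, l)).2.2 := by
  induction k with
  | zero => intro a b c l; rfl
  | succ k ih =>
    intro a b c l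
    have e : ∀ n : ℕ, n.bits.headD false = n.bodd := fun n => by
      rw [Nat.bodd_eq_bits_head]; cases n.bits <;> rfl
    rw [iterate_succ_apply, tr, ← Nat.div2_bits_eq_tail, ← Nat.div2_bits_eq_tail, ih, e, e]
    rfl

/-- strip leading zeros -/
def stripP : Prog := .whl 2 (.ite 2 (mv 2 1) (.pop 2))

theorem ofB_false (l : List Bool) : ofB (false :: l) = ofB l := by simp [ofB_cons]

theorem bits_ofB_true (l : List Bool) : (ofB (true :: l)).bits = (true :: l).reverse := by
  induction l using List.reverseRecOn with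
  | nil => rfl
  | append_singleton l b ih =>
    have e : ofB (true :: (l ++ [b])) = Nat.bit b (ofB (true :: l)) := by
      rw [← List.cons_append, ofB, List.foldl_append]; rfl
    have hpos : ofB (true :: l) ≠ 0 := by rw [ofB_cons]; simp
    rw [e, Nat.bits_append_bit _ _ (fun h => absurd h hpos), ih]
    simp

theorem run_strip : ∀ l : List Bool, R stripP (st3 [] [] l) (4 * l.length + 4)
    (st3 [] (ofB l).bits []) := by
  intro l
  induction l with
  | nil => exact (R.whl0 (by simp)).mono (by omega)
  | cons b l ih =>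
    cases b
    · have h := R.whlS (r := 2) (by simp) ((R.iteF (r := 2) (p := mv 2 1) (s := st3 [] [] (false :: l))
        (by simp) (R.pop 2 _)).cast (s'' := st3 [] [] l) (by simp)) ih
      exact (h.mono (by simp; omega)).cast (by rw [ofB_false])
    · have h := R.whlS (r := 2) (by simp) ((R.iteT (r := 2) (q := .pop 2) (s := st3 [] [] (true :: l))
        (by simp) (run_mv (a := 2) (b := 1) (by omega) (true :: l) _ (by simp))).cast
        (s'' := st3 [] (true :: l).reverse []) (by simp)) (R.whl0 (by simp))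
      exact (h.mono (by simp)).cast (by rw [bits_ofB_true])

theorem Lin.ofB : Lin ofB := by
  refine CC.ofR (.seq (decP 0 1 2) (.seq (mv 1 2) (.seq stripP (.seq (mv 1 2)
    (.seq (.push 0 false) (consP 2)))))) 30 (fun l T _ => ?_)
  rw [← st3_0, ← st3_0]
  have s1 : R (decP 0 1 2) (st3 (cd l) [] []) _ (st3 [] l.reverse []) :=
    (run_decP (by omega) (by omega) (by omega) l [] _ (by simp) (by simp)).cast (by simp)
  have s2 : R (mv 1 2) (st3 [] l.reverse []) _ (st3 [] [] l) :=
    (run_mv (by omega) l.reverse _ (by simp)).cast (by simp)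
  have s4 : R (mv 1 2) (st3 [] (Ptime.ofB l).bits []) _ (st3 [] [] (Ptime.ofB l).bits.reverse) :=
    (run_mv (by omega) (Ptime.ofB l).bits _ (by simp)).cast (by simp)
  have s5 : R (.push 0 false) (st3 [] [] (Ptime.ofB l).bits.reverse) 1
      (st3 [false] [] (Ptime.ofB l).bits.reverse) := (R.push 0 _ _).cast (by simp)
  have s6 : R (consP 2) (st3 [false] [] (Ptime.ofB l).bits.reverse) _
      (st3 (cd (Ptime.ofB l)) [] []) :=
    (run_consP (by omega) (Ptime.ofB l).bits.reverse [] [] _ (st3_at2 _ _ _) (by simp [cd_nil])).cast (by simp; rfl)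
  refine (s1.seq (s2.seq ((run_strip l).seq (s4.seq (s5.seq s6))))).mono ?_
  have h1 := length_le_sz l
  have h2 := size_ofB l
  simp only [List.length_reverse, Nat.size_eq_bits_len]
  omega

variable {S : α → ℕ → Prop}

@[fun_prop] theorem CC.ofB {l : α → List Bool} (hl : CC l S) : CC (fun a => ofB (l a)) S :=
  CC.comp Lin.ofB hl

@[fun_prop] theorem CC.bits {f : α → ℕ} (hf : CC f S) : CC (fun a => (f a).bits) S :=
  hf.ofEncOut (fun _ => rfl)

@[fun_prop] theorem CC.bodd {f : α → ℕ} (hf : CC f S) : CC (fun a => (f a).bodd) S :=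
  (hf.bits.headD (CC.const false)).of_eq (fun a => by
    rw [Nat.bodd_eq_bits_head]; cases (f a).bits <;> rfl)

@[fun_prop] theorem CC.div2 {f : α → ℕ} (hf : CC f S) : CC (fun a => (f a).div2) S :=
  hf.bits.tail.ofEncOut (fun a => by
    show enc (f a).bits.tail = enc (f a).div2.bits
    rw [Nat.div2_bits_eq_tail])

@[fun_prop] theorem CC.isz {f : α → ℕ} (hf : CC f S) : CC (fun a => isz (f a)) S :=
  hf.bits.isEmpty.of_eq (fun a => by
    unfold Ptime.isz
    rcases Nat.eq_zero_or_pos (f a) with h | h
    · simp [h]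
    · have : (f a).bits.length ≠ 0 := by
        rw [Nat.size_eq_bits_len]; simp [Nat.size_eq_zero]; omega
      cases hb : (f a).bits with
      | nil => simp [hb] at this
      | cons x l => simp; omega)

@[fun_prop] theorem CC.bit {b : α → Bool} {f : α → ℕ} (hb : CC b S) (hf : CC f S) :
    CC (fun a => Nat.bit (b a) (f a)) S := by
  refine (show CC (fun a => _root_.cond (Ptime.isz (f a) && !b a) [] (b a :: (f a).bits)) S by
    fun_prop).ofEncOut (fun a => ?_)
  show enc _ = enc (Nat.bit (b a) (f a)).bits
  congr 1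
  by_cases h : f a = 0 ∧ b a = false
  · simp [Ptime.isz, h.1, h.2]
  · rw [Nat.bits_append_bit _ _ (by intro h0; simpa [h0] using h)]
    by_cases h0 : f a = 0
    · have : b a = true := by simpa [h0] using h
      simp [this]
    · simp [Ptime.isz, h0]

@[fun_prop] theorem CC.add {f g : α → ℕ} (hf : CC f S) (hg : CC g S) :
    CC (fun a => f a + g a) S := by
  refine (CC.comp (Lin.tr addδ xor3) (hf.bits.pair hg.bits)).snd.ofB.of_eq (fun a => ?_)
  simp only [tr_tstep]
  obtain ⟨-, h2⟩ := add_iter (f a) (g a) ((f a).bits.length + (g a).bits.length + 1)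
  have h3 : f a + g a < 2 ^ ((f a).bits.length + (g a).bits.length + 1) := by
    rw [← Nat.size_le]
    simpa [Nat.size_eq_bits_len] using size_add_le (f a) (g a)
  generalize (tstep addδ xor3)^[(f a).bits.length + (g a).bits.length + 1]
    (f a, g a, false, []) = s at h2
  generalize 2 ^ ((f a).bits.length + (g a).bits.length + 1) = M at h2 h3
  rcases Nat.eq_zero_or_pos (s.1 + s.2.1 + s.2.2.1.toNat) with h0 | h0
  · simpa [h0] using h2
  · have := Nat.mul_le_mul_left M h0
    omega

theorem CC.subAux {f g : α → ℕ} (hf : CC f S) (hg : CC g S) :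
    CC (fun a => (decide (f a < g a), f a - g a)) S := by
  have h := CC.comp (Lin.tr subδ xor3) (hf.bits.pair hg.bits)
  refine (h.fst.pair (h.fst.cond (CC.const 0) h.snd.ofB)).of_eq (fun a => ?_)
  simp only [tr_tstep]
  obtain ⟨h1, h2, h3, h4⟩ := sub_iter (f a) (g a) ((f a).bits.length + (g a).bits.length + 1)
  have h5 : f a < 2 ^ ((f a).bits.length + (g a).bits.length + 1) := by
    rw [← Nat.size_le, Nat.size_eq_bits_len]; omega
  have h6 : g a < 2 ^ ((f a).bits.length + (g a).bits.length + 1) := by
    rw [← Nat.size_le, Nat.size_eq_bits_len, Nat.size_eq_bits_len]; omega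
  generalize (tstep subδ xor3)^[(f a).bits.length + (g a).bits.length + 1]
    (f a, g a, false, []) = s at h1 h2 h3 h4
  have h7 := ofB_lt s.2.2.2
  rw [h1] at h7
  rw [Nat.div_eq_of_lt h5] at h2
  rw [Nat.div_eq_of_lt h6] at h3
  rw [h2, h3] at h4
  generalize 2 ^ ((f a).bits.length + (g a).bits.length + 1) = M at *
  cases hc : s.2.2.1 <;> simp [hc] at h4 ⊢ <;> omega

@[fun_prop] theorem CC.sub {f g : α → ℕ} (hf : CC f S) (hg : CC g S) :
    CC (fun a => f a - g a) S := (hf.subAux hg).snd

@[fun_prop] theorem CC.lt {f g : α → ℕ} [∀ a, Decidable (f a < g a)] (hf : CC f S) (hg : CC g S) :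
    CC (fun a => decide (f a < g a)) S := (hf.subAux hg).fst.of_eq (fun a => by simp)

@[fun_prop] theorem CC.le {f g : α → ℕ} [∀ a, Decidable (f a ≤ g a)] (hf : CC f S) (hg : CC g S) :
    CC (fun a => decide (f a ≤ g a)) S :=
  (hg.lt hf).not.of_eq (fun a => by by_cases h : f a ≤ g a <;> simp [h]; omega)

@[fun_prop] theorem CC.eq {f g : α → ℕ} [∀ a, Decidable (f a = g a)] (hf : CC f S) (hg : CC g S) :
    CC (fun a => decide (f a = g a)) S :=
  ((hf.le hg).and (hg.le hf)).of_eq (fun a => by
    by_cases h : f a = g a <;> simp [h]; omega)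

@[fun_prop] theorem CC.decide_and {p q : α → Prop} [∀ a, Decidable (p a)] [∀ a, Decidable (q a)]
    (hp : CC (fun a => decide (p a)) S) (hq : CC (fun a => decide (q a)) S) :
    CC (fun a => decide (p a ∧ q a)) S := (hp.and hq).of_eq (fun a => by simp)

@[fun_prop] theorem CC.decide_not {p : α → Prop} [∀ a, Decidable (p a)]
    (hp : CC (fun a => decide (p a)) S) : CC (fun a => decide (¬ p a)) S :=
  hp.not.of_eq (fun a => by simp)

@[fun_prop] theorem CC.ite {p : α → Prop} [∀ a, Decidable (p a)] {f g : α → β}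
    (hp : CC (fun a => decide (p a)) S) (hf : CC f S) (hg : CC g S) :
    CC (fun a => if p a then f a else g a) S :=
  (hp.cond hf hg).of_eq (fun a => by by_cases h : p a <;> simp [h])

@[fun_prop] theorem CC.min {f g : α → ℕ} (hf : CC f S) (hg : CC g S) :
    CC (fun a => min (f a) (g a)) S :=
  (show CC (fun a => if f a ≤ g a then f a else g a) S by fun_prop).of_eq (fun a => by
    rw [min_def])

@[fun_prop] theorem CC.max {f g : α → ℕ} (hf : CC f S) (hg : CC g S) :
    CC (fun a => max (f a) (g a)) S :=
  (show CC (fun a => if f a ≤ g a then g a else f a) S by fun_prop).of_eq (fun a => by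
    rw [max_def])

/-! ### integers -/

@[fun_prop] theorem CC.toNat {f : α → ℤ} (hf : CC f S) : CC (fun a => (f a).toNat) S :=
  CC.fst (f := fun a => ((f a).toNat, (-f a).toNat)) (hf.ofEncOut (fun _ => rfl))

@[fun_prop] theorem CC.neg {f : α → ℤ} (hf : CC f S) : CC (fun a => -f a) S := by
  have h : CC (fun a => ((f a).toNat, (-f a).toNat)) S := hf.ofEncOut (fun _ => rfl)
  refine (h.snd.pair h.fst).ofEncOut (fun a => ?_)
  show _ = enc ((-f a).toNat, (- -f a).toNat)
  rw [neg_neg]

theorem CC.ofSub {f g : α → ℕ} (hf : CC f S) (hg : CC g S) : CC (fun a => (f a : ℤ) - g a) S := by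
  refine ((hf.sub hg).pair (hg.sub hf)).ofEncOut (fun a => ?_)
  show _ = enc (((f a : ℤ) - g a).toNat, (-((f a : ℤ) - g a)).toNat)
  congr 2 <;> omega

@[fun_prop] theorem CC.natCast {f : α → ℕ} (hf : CC f S) : CC (fun a => (f a : ℤ)) S :=
  (hf.ofSub (CC.const 0)).of_eq (fun a => by simp)

@[fun_prop] theorem CC.iadd {f g : α → ℤ} (hf : CC f S) (hg : CC g S) :
    CC (fun a => f a + g a) S :=
  ((hf.toNat.add hg.toNat).ofSub (hf.neg.toNat.add hg.neg.toNat)).of_eq (fun a => by omega)

@[fun_prop] theorem CC.isub {f g : α → ℤ} (hf : CC f S) (hg : CC g S) :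
    CC (fun a => f a - g a) S := (hf.iadd hg.neg).of_eq (fun a => by ring)

@[fun_prop] theorem CC.natAbs {f : α → ℤ} (hf : CC f S) : CC (fun a => (f a).natAbs) S :=
  (hf.toNat.add hf.neg.toNat).of_eq (fun a => by omega)

@[fun_prop] theorem CC.ilt {f g : α → ℤ} [∀ a, Decidable (f a < g a)] (hf : CC f S) (hg : CC g S) :
    CC (fun a => decide (f a < g a)) S :=
  ((CC.const 0).lt (hg.isub hf).toNat).of_eq (fun a => by simp)

@[fun_prop] theorem CC.ile {f g : α → ℤ} [∀ a, Decidable (f a ≤ g a)] (hf : CC f S) (hg : CC g S) :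
    CC (fun a => decide (f a ≤ g a)) S :=
  (hg.ilt hf).not.of_eq (fun a => by by_cases h : f a ≤ g a <;> simp [h]; omega)

@[fun_prop] theorem CC.ieq {f g : α → ℤ} [∀ a, Decidable (f a = g a)] (hf : CC f S) (hg : CC g S) :
    CC (fun a => decide (f a = g a)) S :=
  ((hf.ile hg).and (hg.ile hf)).of_eq (fun a => by
    by_cases h : f a = g a <;> simp [h]; omega)

example : Lin (fun p : (ℤ × ℤ) × ℤ × ℤ => (p.1.1 + p.2.1, if p.1.2 < p.2.2 then p.1.2 - p.2.2 else 0)) := by
  fun_prop

end Crest.Agent.H3.Ptime
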