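import Crest.Agent.H9.IMI
import Crest.Agent.H6.CCList
import Crest.Agent.H3.IMArith

set_option autoImplicit false
set_option linter.unusedSectionVars false
set_option linter.unusedVariables false
set_option linter.unusedSimpArgs false

/-! Array operations: structural rules. -/

namespace Crest.Agent.H9.IM
open Crest.Agent.H3.Ptime

noncomputable def cst (N V w : ℕ) (X : ℝ) (Λ k : ℕ) : ℝ :=
  (N + 1 : ℝ) * (V * (w + 1 : ℝ) ^ (1 + gam) * (X + 1) + (Λ : ℝ) ^ k)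

def ACS {Q : Type} [Enc Q] (P : Q → ℕ → Arr → Prop) (X : Q → ℝ) (k : ℕ) (x : Q × Arr) (T : ℕ) :
    Prop :=
  ∃ V w Λ : ℕ, P x.1 w x.2 ∧ Bd V w x.2 ∧ sz x.1 ≤ Λ ∧ w ≤ Λ ∧ x.2.length ≤ 2 ^ Λ ∧ 2 ≤ Λ ∧
    0 ≤ X x.1 ∧ cst x.2.length V w (X x.1) Λ k ≤ T

theorem AC_iff {Q : Type} [Enc Q] {f : Q → Arr → Arr} {P : Q → ℕ → Arr → Prop} {X : Q → ℝ} :
    AC f P X ↔ ∃ k : ℕ, CC (fun x : Q × Arr => f x.1 x.2) (ACS P X k) ∧
      ∀ q V w A, P q w A → Bd V w A → Bd V w (f q A) ∧ (f q A).length ≤ k * A.length := Iff.rfl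

theorem gam_pos : 0 < gam := by unfold gam; positivity

theorem le_rpow_gam (w : ℕ) : (w + 1 : ℝ) ≤ (w + 1 : ℝ) ^ (1 + gam) := by
  have := gam_pos
  conv_lhs => rw [← Real.rpow_one (w + 1 : ℝ)]
  exact Real.rpow_le_rpow_of_exponent_le (by simp) (by linarith)

theorem cst_le {N N' V w Λ Λ' k k' : ℕ} {X X' : ℝ} (a b : ℕ) (hN : N' + 1 ≤ a * (N + 1))
    (hX : X' + 1 ≤ b * (X + 1)) (hX0 : 0 ≤ X') (hΛ : Λ' ^ k' ≤ b * Λ ^ k) :
    cst N' V w X' Λ' k' ≤ (a * b : ℕ) * cst N V w X Λ k := by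
  unfold cst
  have h1 : (N' + 1 : ℝ) ≤ a * (N + 1) := by exact_mod_cast hN
  have h2 : (Λ' : ℝ) ^ k' ≤ b * (Λ : ℝ) ^ k := by exact_mod_cast hΛ
  have h3 : (0 : ℝ) ≤ V * (w + 1 : ℝ) ^ (1 + gam) := by positivity
  generalize (V * (w + 1 : ℝ) ^ (1 + gam)) = W at *
  have h4 : W * (X' + 1) + (Λ' : ℝ) ^ k' ≤ b * (W * (X + 1) + (Λ : ℝ) ^ k) := by
    have := mul_le_mul_of_nonneg_left hX h3
    nlinarith
  calc _ ≤ (a * (N + 1 : ℝ)) * (b * (W * (X + 1) + (Λ : ℝ) ^ k)) :=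
        mul_le_mul h1 h4 (by positivity) (by positivity)
    _ = _ := by push_cast; ring

theorem cst_nat {N V w Λ k T : ℕ} {X : ℝ} (hX : 0 ≤ X) (h : cst N V w X Λ k ≤ T) :
    (N + 1) * (V * (w + 1) + Λ ^ k) ≤ T := by
  have : (((N + 1) * (V * (w + 1) + Λ ^ k) : ℕ) : ℝ) ≤ T := by
    refine le_trans ?_ h
    unfold cst
    push_cast
    refine mul_le_mul_of_nonneg_left (add_le_add_left ?_ _) (by positivity)
    have h1 := le_rpow_gam w
    have h2 : (0 : ℝ) ≤ (w + 1 : ℝ) ^ (1 + gam) := by positivity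
    have h3 : (0 : ℝ) ≤ V := by positivity
    nlinarith [mul_nonneg (mul_nonneg h3 h2) hX, mul_le_mul_of_nonneg_left h1 h3]
  exact_mod_cast this

theorem cst_pow {N V w Λ k T : ℕ} {X : ℝ} (hX : 0 ≤ X) (h : cst N V w X Λ k ≤ T) : Λ ^ k ≤ T := by
  have := cst_nat hX h
  nlinarith [Nat.zero_le (N * (V * (w + 1) + Λ ^ k)), Nat.zero_le (V * (w + 1))]

theorem ACS.mono_k {Q : Type} [Enc Q] {P : Q → ℕ → Arr → Prop} {X : Q → ℝ} {k k' : ℕ}
    {x : Q × Arr} {T : ℕ} (h : ACS P X k' x T) (hk : k ≤ k') : ACS P X k x T := by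
  obtain ⟨V, w, Λ, h1, h2, h3, h4, h5, h6, h7, h8⟩ := h
  refine ⟨V, w, Λ, h1, h2, h3, h4, h5, h6, h7, le_trans ?_ h8⟩
  simpa using cst_le (N := x.2.length) (N' := x.2.length) (V := V) (w := w) (X := X x.1) 1 1
    (by simp) (by simp) h7 (by simpa using Nat.pow_le_pow_right (by omega : 0 < Λ) hk)

theorem poly_le (P : Polynomial ℕ) : ∃ k, ∀ Λ, 2 ≤ Λ → P.eval Λ ≤ Λ ^ k := by
  refine ⟨P.eval 1 + P.natDegree, fun Λ h => ?_⟩
  calc P.eval Λ = ∑ i ∈ Finset.range (P.natDegree + 1), P.coeff i * Λ ^ i :=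
        Polynomial.eval_eq_sum_range _
    _ ≤ ∑ i ∈ Finset.range (P.natDegree + 1), P.coeff i * Λ ^ P.natDegree :=
        Finset.sum_le_sum (fun i hi => Nat.mul_le_mul_left _
          (Nat.pow_le_pow_right (by omega) (by simpa [Nat.lt_succ_iff] using hi)))
    _ = P.eval 1 * Λ ^ P.natDegree := by
        rw [← Finset.sum_mul, Polynomial.eval_eq_sum_range]; simp
    _ ≤ _ := by
        rw [pow_add]
        exact Nat.mul_le_mul_right _ ((Nat.lt_two_pow_self).le.trans (Nat.pow_le_pow_left h _))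

theorem pb_le {α : Type} [Enc α] {m : α → ℕ} (h : PB m) :
    ∃ k, ∀ a Λ, sz a ≤ Λ → 2 ≤ Λ → m a ≤ Λ ^ k := by
  obtain ⟨P, hP⟩ := h
  obtain ⟨k, hk⟩ := poly_le P
  exact ⟨k, fun a Λ h1 h2 => (hP a).trans ((eval_mono P h1).trans (hk Λ h2))⟩

theorem CC_pt {Q β : Type} [Enc Q] [Enc β] {h : Q → β} (hh : PT h) :
    ∃ k0, ∀ (P : Q → ℕ → Arr → Prop) (X : Q → ℝ) (k : ℕ), k0 ≤ k →
      CC (fun x : Q × Arr => h x.1) (ACS P X k) := by
  obtain ⟨k0, h0⟩ := CC.ofPT hh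
  refine ⟨k0, fun P X k hk => h0.comp2 (by fun_prop) ?_⟩
  rintro x T ⟨V, w, Λ, h1, h2, h3, h4, h5, h6, h7, h8⟩
  exact (Nat.pow_le_pow_left h3 _).trans ((Nat.pow_le_pow_right (by omega) hk).trans
    (cst_pow h7 h8))

theorem sz_le_pow {s Λ : ℕ} (h : s ≤ 2 ^ Λ) : sz s ≤ 4 * Λ + 8 := by
  have h1 := sz_nat_le s
  have h2 : s.size ≤ Λ + 1 := Nat.size_le.2 (by rw [pow_succ]; have := Nat.two_pow_pos Λ; omega)
  omega

theorem sz_cell {V w : ℕ} {c : List ℕ} (h : c.length = V ∧ ∀ x ∈ c, x < 2 ^ w) :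
    sz c ≤ 5 * (V * (w + 1)) + 1 := by
  have := sz_le_mul c (4 * w + 4) (fun x hx => (sz_nat_le x).trans (by
    have := Nat.size_le.2 (h.2 x hx); omega))
  rw [h.1] at this
  nlinarith

theorem sz_arr {V w : ℕ} {A : Arr} (h : Bd V w A) :
    sz A ≤ A.length * (5 * (V * (w + 1)) + 2) + 1 :=
  sz_le_mul A _ (fun c hc => sz_cell (h c hc))

variable {Q Q' : Type} [Enc Q] [Enc Q']

theorem AC.mono {f : Q → Arr → Arr} {P : Q → ℕ → Arr → Prop} {X : Q → ℝ} (hf : AC f P X)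
    (h : Q' → Q) (g : Q' → Arr → Arr) (P' : Q' → ℕ → Arr → Prop) (X' : Q' → ℝ) (c : ℝ) (hh : PT h)
    (H : ∀ q w A, P' q w A → P (h q) w A ∧ f (h q) A = g q A ∧ 0 ≤ X (h q) ∧
      X (h q) ≤ c * (X' q + 1)) : AC g P' X' := by
  obtain ⟨k, hc, hb⟩ := AC_iff.1 hf
  obtain ⟨k1, h1⟩ := CC_pt hh
  obtain ⟨k2, h2⟩ := pb_le hh.szb
  refine AC_iff.2 ⟨k1 + (k2 + 1) * k, ?_, ?_⟩
  · have h3 : CC (fun x : Q' × Arr => (h x.1, x.2)) (ACS P' X' (k1 + (k2 + 1) * k)) :=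
      (h1 _ _ _ (by omega)).pair (by fun_prop)
    refine (hc.comp3 h3 (⌈c⌉₊ + 1) ?_).congr ?_
    · rintro ⟨q, A⟩ T ⟨V, w, Λ, hP, hB, hq, hw, hN, hΛ, hX, hT⟩
      obtain ⟨a1, a2, a3, a4⟩ := H q w A hP
      have e1 : Λ ≤ Λ ^ (k2 + 1) := Nat.le_self_pow (by omega) _
      refine ⟨(⌈c⌉₊ + 1) * T, ⟨V, w, Λ ^ (k2 + 1), a1, hB,
        (h2 q Λ hq hΛ).trans (Nat.pow_le_pow_right (by omega) (by omega)), hw.trans e1,
        hN.trans (Nat.pow_le_pow_right (by omega) e1), hΛ.trans e1, a3, ?_⟩,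
        Nat.mul_le_mul_left _ (by omega)⟩
      refine (cst_le (N := A.length) (X := X' q) (Λ := Λ) (k := k1 + (k2 + 1) * k) 1 (⌈c⌉₊ + 1)
        (by simp) ?_ a3 ?_).trans ?_
      · have := Nat.le_ceil c
        simp only at hX
        push_cast
        nlinarith
      · rw [← pow_mul]
        exact (Nat.pow_le_pow_right (by omega) (by omega)).trans (Nat.le_mul_of_pos_left _ (by omega))
      · push_cast
        rw [one_mul]
        exact mul_le_mul_of_nonneg_left hT (by positivity)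
    · rintro ⟨q, A⟩ T ⟨V, w, Λ, hP, -⟩
      exact (H q w A hP).2.1
  · intro q V w A hP hB
    obtain ⟨a1, a2, -⟩ := H q w A hP
    rw [← a2]
    exact ⟨(hb _ V w A a1 hB).1, (hb _ V w A a1 hB).2.trans (Nat.mul_le_mul_right _ (by nlinarith))⟩

theorem AC.comp {f g : Q → Arr → Arr} {P P' : Q → ℕ → Arr → Prop} {X : Q → ℝ}
    (hg : AC g P' X) (hf : AC f P X) :
    AC (fun q A => g q (f q A)) (fun q w A => P q w A ∧ P' q w (f q A)) X := by
  obtain ⟨k, hc, hb⟩ := AC_iff.1 hf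
  obtain ⟨k', hc', hb'⟩ := AC_iff.1 hg
  refine AC_iff.2 ⟨(k + 1) * (k' + 1), ?_, ?_⟩
  · have h3 : CC (fun x : Q × Arr => (x.1, f x.1 x.2))
        (ACS (fun q w A => P q w A ∧ P' q w (f q A)) X ((k + 1) * (k' + 1))) := by
      refine CC.pair (by fun_prop) (hc.mono ?_)
      rintro x T h
      obtain ⟨V, w, Λ, hP, h⟩ := h.mono_k (show k ≤ _ by nlinarith)
      exact ⟨V, w, Λ, hP.1, h⟩
    refine hc'.comp3 h3 ((k + 1) * (k + 1) ^ k') ?_
    rintro ⟨q, A⟩ T h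
    obtain ⟨V, w, Λ, hP, hB, hq, hw, hN, hΛ, hX, hT⟩ := h.mono_k (show k' ≤ _ by nlinarith)
    obtain ⟨a1, a2⟩ := hb q V w A hP.1 hB
    refine ⟨(k + 1) * (k + 1) ^ k' * T, ⟨V, w, Λ + k, hP.2, a1, by simp only at hq ⊢; omega,
      by omega, ?_, by omega, hX, ?_⟩, Nat.mul_le_mul_left _ (by omega)⟩
    · refine a2.trans ?_
      rw [pow_add, mul_comm]
      exact Nat.mul_le_mul hN (Nat.lt_two_pow_self).le
    · refine (cst_le (N := A.length) (X := X q) (Λ := Λ) (k := k') (k + 1) ((k + 1) ^ k')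
        (by simp only; nlinarith) ?_ hX ?_).trans ?_
      · have : (1 : ℝ) ≤ ((k + 1) ^ k' : ℕ) := by exact_mod_cast Nat.one_le_pow _ _ (by omega)
        simp only at hX ⊢
        nlinarith
      · rw [← mul_pow]
        exact Nat.pow_le_pow_left (by nlinarith) _
      · push_cast
        exact mul_le_mul_of_nonneg_left hT (by positivity)
  · intro q V w A hP hB
    obtain ⟨a1, a2⟩ := hb q V w A hP.1 hB
    obtain ⟨b1, b2⟩ := hb' q V w _ hP.2 a1
    refine ⟨b1, b2.trans ((Nat.mul_le_mul_left _ a2).trans ?_)⟩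
    rw [← mul_assoc]
    exact Nat.mul_le_mul_right _ (by nlinarith)

theorem AC.cond {c : Q → Bool} {f g : Q → Arr → Arr} {P P' : Q → ℕ → Arr → Prop} {X : Q → ℝ}
    (hc : PT c) (hf : AC f P X) (hg : AC g P' X) : AC (fun q A => bif c q then f q A else g q A)
      (fun q w A => (c q = true → P q w A) ∧ (c q = false → P' q w A)) X := by
  obtain ⟨k, h1, hb⟩ := AC_iff.1 hf
  obtain ⟨k', h2, hb'⟩ := AC_iff.1 hg
  obtain ⟨k1, h3⟩ := CC_pt hc
  refine AC_iff.2 ⟨k + k' + k1, ?_, ?_⟩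
  · refine CC.branch (h3 _ _ _ (by omega)) h1 h2 ?_ ?_
    · intro x T h e
      obtain ⟨V, w, Λ, hP, h⟩ := h.mono_k (show k ≤ _ by omega)
      exact ⟨V, w, Λ, hP.1 e, h⟩
    · intro x T h e
      obtain ⟨V, w, Λ, hP, h⟩ := h.mono_k (show k' ≤ _ by omega)
      exact ⟨V, w, Λ, hP.2 e, h⟩
  · intro q V w A hP hB
    cases e : c q
    · exact ⟨(hb' q V w A (hP.2 e) hB).1, (hb' q V w A (hP.2 e) hB).2.trans
        (Nat.mul_le_mul_right _ (by omega))⟩
    · exact ⟨(hb q V w A (hP.1 e) hB).1, (hb q V w A (hP.1 e) hB).2.trans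
        (Nat.mul_le_mul_right _ (by omega))⟩

theorem sum_range_list (n : ℕ) (g : ℕ → ℕ) :
    ((List.range n).map g).sum = ∑ j ∈ Finset.range n, g j := by
  induction n with
  | zero => rfl
  | succ n ih => rw [List.range_succ, Finset.sum_range_succ, ← ih]; simp

theorem ceil_cst {N V w Λ k : ℕ} {X : ℝ} (hX : 0 ≤ X) (hΛ : 1 ≤ Λ) :
    (⌈cst N V w X Λ k⌉₊ : ℝ) ≤ 2 * cst N V w X Λ k := by
  have h1 : 1 ≤ cst N V w X Λ k := by
    unfold cst
    have h2 : (1 : ℝ) ≤ (Λ : ℝ) ^ k := one_le_pow₀ (by exact_mod_cast hΛ)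
    have h3 : (0 : ℝ) ≤ V * (w + 1 : ℝ) ^ (1 + gam) * (X + 1) := by positivity
    have h4 : (0 : ℝ) ≤ N := by positivity
    nlinarith
  have := Nat.ceil_lt_add_one (le_trans zero_le_one h1)
  linarith

theorem foldl_ctx {σ α : Type} (f : Q × α → σ → σ) (q : Q) (l : List α) (A : σ) :
    l.foldl (fun (s : Q × σ) j => (s.1, f (s.1, j) s.2)) (q, A) =
      (q, l.foldl (fun A j => f (q, j) A) A) := by
  induction l generalizing A with
  | nil => rfl
  | cons j l ih => simp [ih]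

theorem AC.loop {f : Q × ℕ → Arr → Arr} {P : Q × ℕ → ℕ → Arr → Prop} {X : Q × ℕ → ℝ}
    (hf : AC f P X) (m : Q → ℕ) (X' : Q → ℝ) (hm : PT m) (hm' : PB m) :
    AC (fun q A => (List.range (m q)).foldl (fun A j => f (q, j) A) A)
      (fun q w A => (∀ j < m q, 0 ≤ X (q, j) ∧
          P (q, j) w ((List.range j).foldl (fun A j => f (q, j) A) A) ∧
          ((List.range (j + 1)).foldl (fun A j => f (q, j) A) A).length = A.length) ∧
        ∑ j ∈ Finset.range (m q), (X (q, j) + 1) ≤ X' q + 1) X' := by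
  obtain ⟨k, hc, hb⟩ := AC_iff.1 hf
  have hr : PT (fun q => List.range (m q)) := PT.range hm hm'
  obtain ⟨k1, h1⟩ := CC_pt hr
  obtain ⟨k2, h2⟩ := pb_le hr.szb
  have inv : ∀ q V w A, (∀ j < m q, 0 ≤ X (q, j) ∧
      P (q, j) w ((List.range j).foldl (fun A j => f (q, j) A) A) ∧
      ((List.range (j + 1)).foldl (fun A j => f (q, j) A) A).length = A.length) → Bd V w A →
      ∀ j ≤ m q, Bd V w ((List.range j).foldl (fun A j => f (q, j) A) A) ∧
        ((List.range j).foldl (fun A j => f (q, j) A) A).length = A.length := by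
    intro q V w A hP hB j
    induction j with
    | zero => intro _; exact ⟨hB, rfl⟩
    | succ j ih =>
      intro hj
      refine ⟨?_, (hP j hj).2.2⟩
      rw [List.range_succ, List.foldl_append]
      exact (hb _ V w _ (hP j hj).2.1 (ih (by omega)).1).1
  refine AC_iff.2 ⟨k1 + (k2 + (k2 + 2) * (k + 1)), ?_, ?_⟩
  · have hs : CC (fun p : (Q × Arr) × ℕ => (p.1.1, f (p.1.1, p.2) p.1.2))
        (fun p T => ACS P X (k + 1) ((p.1.1, p.2), p.1.2) T) :=
      CC.pair (by fun_prop) (hc.comp2 (f := fun p : (Q × Arr) × ℕ => ((p.1.1, p.2), p.1.2))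
        (by fun_prop) (fun _ _ h => h.mono_k (by omega)))
    have hl := CC.foldl (f := fun (s : Q × Arr) j => (s.1, f (s.1, j) s.2)) hs
    refine ((hl.comp3 (f := fun x : Q × Arr => (x, List.range (m x.1)))
      (CC.pair CC.id' (h1 _ _ _ (by omega))) 12 ?_).snd).of_eq (fun x => by
        obtain ⟨q, A⟩ := x; simp only; rw [foldl_ctx])
    rintro ⟨q, A⟩ T ⟨V, w, Λ, ⟨hP, hS⟩, hB, hq, hw, hN, hΛ, hX, hT⟩
    simp only at hP hS hB hq hN hX hT
    have e1 : Λ ≤ Λ ^ (k2 + 2) := Nat.le_self_pow (by omega) _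
    have e2 := h2 q Λ hq hΛ
    have e3 : m q ≤ Λ ^ k2 := le_trans (by simpa using length_le_sz (List.range (m q))) e2
    have e4 : Λ + Λ ^ k2 + 1 ≤ Λ ^ (k2 + 2) := by
      have : 1 ≤ Λ ^ k2 := Nat.one_le_pow _ _ (by omega)
      rw [pow_add]; nlinarith [Nat.mul_le_mul hΛ (le_refl (Λ * Λ ^ k2)), Nat.mul_le_mul hΛ (le_refl (Λ ^ k2))]
    refine ⟨12 * T, ⟨fun s l => ∃ j ≤ m q, l = (List.range (m q)).drop j ∧
      s = (q, (List.range j).foldl (fun A j => f (q, j) A) A),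
      fun j => 6 * ⌈cst A.length V w (X (q, j)) (Λ ^ (k2 + 2)) (k + 1)⌉₊, ⟨0, by omega, rfl, rfl⟩,
      ?_, ?_⟩, by omega⟩
    · rintro s x l ⟨j, hj, e, rfl⟩
      have hj' : j < m q := by
        by_contra hcon
        rw [List.drop_eq_nil_of_le (by simp; omega)] at e
        simp at e
      rw [List.drop_eq_getElem_cons (by simpa using hj')] at e
      simp only [List.getElem_range, List.cons.injEq] at e
      obtain ⟨rfl, rfl⟩ := e
      obtain ⟨b1, b2⟩ := inv q V w A hP hB x hj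
      refine ⟨⟨x + 1, hj', rfl, by rw [List.range_succ, List.foldl_append]; rfl⟩,
        ⌈cst A.length V w (X (q, x)) (Λ ^ (k2 + 2)) (k + 1)⌉₊, ⟨V, w, Λ ^ (k2 + 2), (hP x hj').2.1,
          b1, ?_, hw.trans e1, by rw [b2]; exact hN.trans (Nat.pow_le_pow_right (by omega) e1),
          hΛ.trans e1, (hP x hj').1, by simp only; rw [b2]; exact Nat.le_ceil _⟩, ?_⟩
      · have := sz_le_of_mem (List.mem_range.2 hj')
        simp only [sz_pair]; omega
      · have c1 := cst_nat (hP x hj').1 (Nat.le_ceil (cst A.length V w (X (q, x)) (Λ ^ (k2 + 2)) (k + 1)))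
        have c2 := sz_arr b1
        have c3 : Λ ^ (k2 + 2) ≤ (Λ ^ (k2 + 2)) ^ (k + 1) := Nat.le_self_pow (by omega) _
        rw [b2] at c2
        simp only [sz_pair]
        nlinarith [Nat.zero_le (V * (w + 1)), Nat.mul_le_mul (le_refl A.length) (hΛ.trans (e1.trans c3))]
    · simp only
      have : ((((List.range (m q)).map (fun j =>
          6 * ⌈cst A.length V w (X (q, j)) (Λ ^ (k2 + 2)) (k + 1)⌉₊)).sum : ℕ) : ℝ) ≤ (12 * T : ℕ) := by
        rw [sum_range_list]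
        push_cast
        have d1 : ∀ j ∈ Finset.range (m q),
            6 * (⌈cst A.length V w (X (q, j)) (Λ ^ (k2 + 2)) (k + 1)⌉₊ : ℝ) ≤
            12 * cst A.length V w (X (q, j)) (Λ ^ (k2 + 2)) (k + 1) := by
          intro j hj
          have := ceil_cst (N := A.length) (V := V) (w := w) (Λ := Λ ^ (k2 + 2)) (k := k + 1)
            (hP j (Finset.mem_range.1 hj)).1 (by omega)
          linarith
        refine (Finset.sum_le_sum d1).trans ?_
        rw [← Finset.mul_sum]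
        refine mul_le_mul_of_nonneg_left (le_trans ?_ hT) (by norm_num)
        unfold cst
        rw [← Finset.mul_sum, Finset.sum_add_distrib, ← Finset.mul_sum]
        refine mul_le_mul_of_nonneg_left (add_le_add (mul_le_mul_of_nonneg_left hS (by positivity))
          ?_) (by positivity)
        rw [Finset.sum_const, Finset.card_range, nsmul_eq_mul]
        have : m q * (Λ ^ (k2 + 2)) ^ (k + 1) ≤ Λ ^ (k1 + (k2 + (k2 + 2) * (k + 1))) := by
          rw [← pow_mul, pow_add, pow_add]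
          exact (Nat.mul_le_mul_right _ e3).trans (Nat.le_mul_of_pos_left _ (by positivity))
        exact_mod_cast this
      exact_mod_cast this
  · intro q V w A hP hB
    obtain ⟨b1, b2⟩ := inv q V w A hP.1 hB (m q) le_rfl
    exact ⟨b1, by rw [b2]; exact Nat.le_mul_of_pos_left _ (by nlinarith)⟩

end Crest.Agent.H9.IM
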