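import Crest.Agent.H3.IMArr1

set_option autoImplicit false
set_option linter.unusedSectionVars false
set_option linter.unusedVariables false
set_option linter.unusedSimpArgs false

/-! Array operations: pulling along piecewise monotone index maps. -/

namespace Crest.Agent.H9.IM
open Crest.Agent.H3.Ptime

section
variable {α β γ σ δ : Type} [Enc α] [Enc β] [Enc γ] [Enc σ] [Enc δ]

theorem mrun_det {cont : σ → Bool} {ctl : σ → Bool × Bool × Bool}
    {f : σ × List α × List β × List γ → σ × List α × List β × List γ}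
    {S : σ × List α × List β × List γ → ℕ → Prop} {x y : σ × List α × List β × List γ} {T : ℕ}
    (h : MRun cont ctl f S x T y) : ∀ {T' y'}, MRun cont ctl f S x T' y' → y = y' := by
  induction h with
  | stop x T h =>
    intro T' y' h'
    cases h' with
    | stop => rfl
    | step _ _ _ _ _ h1 => rw [h] at h1; cases h1
  | step x y T1 T2 T h1 h2 h3 h4 ih =>
    intro T' y' h'
    cases h' with
    | stop _ _ h => rw [h] at h1; cases h1
    | step _ _ _ _ _ _ _ h => exact ih h

/-- the loop principle, where only the third stack is of interest -/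
theorem CC_mloop3 {cont : σ → Bool} {ctl : σ → Bool × Bool × Bool}
    {f : σ × List α × List β × List γ → σ × List α × List β × List γ}
    {S : σ × List α × List β × List γ → ℕ → Prop} (hc : Lin cont) (hctl : Lin ctl) (hf : CC f S)
    (G : σ × List α × List β × List γ → List γ) :
    CC G (fun x T => ∃ y, MRun cont ctl f S x T y ∧ y.2.2.2 = G x) := by
  classical
  have h := CC.mloop hc hctl hf
    (fun x => if h : ∃ y, ∃ T, MRun cont ctl f S x T y then h.choose else x)
  have key : ∀ x T y, MRun cont ctl f S x T y →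
      (if h : ∃ y, ∃ T, MRun cont ctl f S x T y then h.choose else x) = y := by
    intro x T y hy
    have hex : ∃ y, ∃ T, MRun cont ctl f S x T y := ⟨y, T, hy⟩
    rw [dif_pos hex]
    exact (mrun_det hy hex.choose_spec.choose_spec).symm
  refine (h.snd.snd.snd.mono ?_).congr ?_
  · rintro x T ⟨y, hy, -⟩
    rw [key x T y hy]; exact hy
  · rintro x T ⟨y, hy, e⟩
    rw [key x T y hy, e]

theorem CC_length : CC (fun l : List α => l.length)
    (fun l T => ∃ Λ, l.length ≤ 2 ^ Λ ∧ l.length * (4 * Λ + 8) ≤ T) := by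
  have h := CC.foldl (f := fun (s : ℕ) (_ : α) => s + 1) (S := fun _ _ => True) (by fun_prop)
  have e : ∀ (l : List α) (s : ℕ), l.foldl (fun (s : ℕ) (_ : α) => s + 1) s = s + l.length := by
    intro l
    induction l with
    | nil => simp
    | cons a l ih => intro s; simp [ih]; omega
  refine (h.comp2 (f := fun l : List α => (0, l)) (by fun_prop) ?_).of_eq (fun l => by simp [e])
  rintro l T ⟨Λ, h1, h2⟩
  refine ⟨fun s m => s + m.length = l.length, fun _ => 4 * Λ + 8, by simp, ?_, by simpa using h2⟩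
  intro s x m h
  simp only [List.length_cons] at h
  exact ⟨by omega, 0, trivial, by simpa using sz_le_pow (s := s) (Λ := Λ) (by omega)⟩

variable {Q : Type} [Enc Q]

def passF (π κ : Q → ℕ → ℕ) (t : ℕ) (x : (Bool × Q × ℕ × ℕ) × List β × List β × List β) :
    (Bool × Q × ℕ × ℕ) × List β × List β × List β :=
  bif x.2.2.1.isEmpty then ((false, x.1.2), [], [], []) else
  bif decide (κ x.1.2.1 x.1.2.2.1 = t) then
    bif decide (x.1.2.2.2 < π x.1.2.1 x.1.2.2.1) && !x.2.1.isEmpty then
      ((true, x.1.2.1, x.1.2.2.1, x.1.2.2.2 + 1), [], x.2.2.1, [])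
    else ((true, x.1.2.1, x.1.2.2.1 + 1, x.1.2.2.2), x.2.1, [],
      bif x.2.1.isEmpty then x.2.2.1 else x.2.1)
  else ((true, x.1.2.1, x.1.2.2.1 + 1, x.1.2.2.2), x.2.1, [], x.2.2.1)

def passO (π κ : ℕ → ℕ) (t : ℕ) (A : List β) : ℕ → List β → List β
  | _, [] => []
  | i, o :: O => (if κ i = t then A.getD (π i) o else o) :: passO π κ t A (i + 1) O

theorem sz_take1 {W : ℕ} (l : List β) (h : ∀ c ∈ l, sz c ≤ W) : sz (l.take 1) ≤ W + 2 := by
  cases l with
  | nil => simp [sz_nil]
  | cons a l => have := h a (by simp); simp [sz_cons, sz_nil]; omega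

theorem pass_run (π κ : Q → ℕ → ℕ) (t k : ℕ) (q : Q) (A : List β) (n W τ s : ℕ)
    (hA : ∀ c ∈ A, sz c ≤ W) (hτ : ∀ i ≤ n, sz (q, i) ^ k ≤ τ)
    (hs : ∀ i ≤ n, ∀ j ≤ A.length, sz (true, q, i, j) ≤ s)
    (hm : ∀ i j, i ≤ j → j < n → κ q i = κ q j → π q i ≤ π q j) (M : ℕ) :
    ∀ (O : List β) (i j : ℕ) (acc : List β), O.length + (A.length - j) ≤ M → j ≤ A.length →
      i + O.length = n → (∀ i', i ≤ i' → i' < n → κ q i' = t → j ≤ π q i') → (∀ c ∈ O, sz c ≤ W) →
      ∃ y, MRun (fun x : Bool × Q × ℕ × ℕ => x.1) (fun _ => (true, true, false)) (passF π κ t)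
        (fun x T => sz (x.1.2.1, x.1.2.2.1) ^ k ≤ T) ((true, q, i, j), A.drop j, O, acc)
        ((M + 1) * (τ + s + 2 * W + 8)) y ∧
        y.2.2.2 = (passO (π q) (κ q) t A i O).reverse ++ acc := by
  have step : ∀ (O : List β) (i j : ℕ) (acc : List β) (T2 : ℕ) y, j ≤ A.length →
      i + O.length = n → (∀ c ∈ O, sz c ≤ W) →
      MRun (fun x : Bool × Q × ℕ × ℕ => x.1) (fun _ => (true, true, false)) (passF π κ t)
        (fun x T => sz (x.1.2.1, x.1.2.2.1) ^ k ≤ T)
        (mstep (fun _ => (true, true, false)) (passF π κ t) ((true, q, i, j), A.drop j, O, acc)) T2 y →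
      MRun (fun x : Bool × Q × ℕ × ℕ => x.1) (fun _ => (true, true, false)) (passF π κ t)
        (fun x T => sz (x.1.2.1, x.1.2.2.1) ^ k ≤ T) ((true, q, i, j), A.drop j, O, acc)
        (T2 + (τ + s + 2 * W + 8)) y := by
    intro O i j acc T2 y hj hi hO h
    refine .step _ _ τ T2 _ rfl (hτ i (by omega)) h ?_
    have h1 := hs i (by omega) j hj
    have h2 := sz_take1 O hO
    have h3 := sz_take1 (A.drop j) (fun c hc => hA c (List.mem_of_mem_drop hc))
    simp only [minp, popI_true, popI_false]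
    rw [sz_pair (true, q, i, j), sz_pair (List.take 1 (A.drop j)), sz_pair (List.take 1 O), sz_nil]
    omega
  have tk : ∀ l : List β, l.take 1 ++ l.tail = l := fun l => by cases l <;> simp
  induction M with
  | zero =>
    intro O i j acc hM hj hi hinv hO
    obtain rfl : O = [] := List.length_eq_zero_iff.1 (by omega)
    refine ⟨_, (step [] i j acc 0 _ hj hi hO (.stop _ _ (by simp [mstep, minp, passF]))).mono
      (by omega), by simp [mstep, minp, passF, passO]⟩
  | succ M ih =>
    intro O i j acc hM hj hi hinv hO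
    cases O with
    | nil =>
      refine ⟨_, (step [] i j acc 0 _ hj hi hO (.stop _ _ (by simp [mstep, minp, passF]))).mono
        (by nlinarith), by simp [mstep, minp, passF, passO]⟩
    | cons o O =>
      simp only [List.length_cons] at hM hi
      by_cases hk : κ q i = t
      · by_cases hj' : j < π q i ∧ j < A.length
        · obtain ⟨y, h1, h2⟩ := ih (o :: O) i (j + 1) acc (by simp; omega) (by omega) (by simpa using hi)
            (fun i' a b c => lt_of_lt_of_le hj'.1 (hm i i' a b (hk.trans c.symm))) hO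
          refine ⟨y, (step (o :: O) i j acc ((M + 1) * (τ + s + 2 * W + 8)) y hj (by simpa using hi)
            hO ?_).mono (by nlinarith), h2⟩
          rw [List.drop_eq_getElem_cons hj'.2]
          generalize A.drop (j + 1) = R at h1 ⊢
          generalize A[j] = a
          simpa [mstep, minp, passF, hk, hj'.1] using h1
        · obtain ⟨y, h1, h2⟩ := ih O (i + 1) j (A.getD (π q i) o :: acc) (by omega) hj (by omega)
            (fun i' a b c => hinv i' (by omega) b c) (fun c hc => hO c (by simp [hc]))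
          refine ⟨y, (step (o :: O) i j acc ((M + 1) * (τ + s + 2 * W + 8)) y hj (by simpa using hi)
            hO ?_).mono (by nlinarith), by simp [h2, passO, hk]⟩
          have h3 := hinv i le_rfl (by omega) hk
          by_cases hjA : j < A.length
          · have e : π q i = j := by omega
            have e2 : A.getD j o = A[j] := by simp [hjA]
            rw [e, e2] at h1
            rw [List.drop_eq_getElem_cons hjA] at h1 ⊢
            generalize A.drop (j + 1) = R at h1 ⊢
            generalize A[j] = a at h1 ⊢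
            simpa [mstep, minp, passF, hk, e] using h1
          · have : A.drop j = [] := by simp; omega
            have e2 : A.getD (π q i) o = o := by
              simp [List.getD_eq_getElem?_getD, List.getElem?_eq_none (show A.length ≤ π q i by omega)]
            rw [e2] at h1
            rw [this] at h1 ⊢
            simpa [mstep, minp, passF, hk] using h1
      · obtain ⟨y, h1, h2⟩ := ih O (i + 1) j (o :: acc) (by omega) hj (by omega)
          (fun i' a b c => hinv i' (by omega) b c) (fun c hc => hO c (by simp [hc]))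
        refine ⟨y, (step (o :: O) i j acc ((M + 1) * (τ + s + 2 * W + 8)) y hj (by simpa using hi)
          hO ?_).mono (by nlinarith), by simp [h2, passO, hk]⟩
        generalize A.drop j = R at h1 ⊢
        cases R <;> simpa [mstep, minp, passF, hk] using h1

theorem ten_le {Λ : ℕ} (h : 2 ≤ Λ) : 10 * Λ ≤ Λ ^ 5 := by
  have : 2 ^ 4 ≤ Λ ^ 4 := Nat.pow_le_pow_left h 4
  rw [pow_succ]; nlinarith

theorem CC_pass {π κ : Q → ℕ → ℕ} (hπ : PT (fun x : Q × ℕ => π x.1 x.2))
    (hκ : PT (fun x : Q × ℕ => κ x.1 x.2)) : ∃ k, ∀ t,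
    CC (fun x : Q × List β × List β => passO (π x.1) (κ x.1) t x.2.1 0 x.2.2) (fun x T =>
      (∀ i j, i ≤ j → j < x.2.2.length → κ x.1 i = κ x.1 j → π x.1 i ≤ π x.1 j) ∧
      ∃ Λ W, sz x.1 ≤ Λ ∧ x.2.1.length ≤ 2 ^ Λ ∧ x.2.2.length ≤ 2 ^ Λ ∧ 2 ≤ Λ ∧
        (∀ c ∈ x.2.1, sz c ≤ W) ∧ (∀ c ∈ x.2.2, sz c ≤ W) ∧
        (x.2.1.length + x.2.2.length + 1) * (W + Λ ^ k) ≤ T) := by
  obtain ⟨k, hk⟩ := CC.ofPT (hπ.pair hκ)
  refine ⟨5 * k + 1, fun t => ?_⟩
  have h1 : CC (fun x : (Bool × Q × ℕ × ℕ) × List β × List β × List β =>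
      (π x.1.2.1 x.1.2.2.1, κ x.1.2.1 x.1.2.2.1)) (fun x T => sz (x.1.2.1, x.1.2.2.1) ^ k ≤ T) :=
    hk.comp2 (f := fun x : (Bool × Q × ℕ × ℕ) × List β × List β × List β => (x.1.2.1, x.1.2.2.1))
      (by fun_prop) (fun _ _ h => h)
  have h2 := h1.fst
  have h3 := h1.snd
  simp only at h2 h3
  have hF : CC (passF (β := β) π κ t) (fun x T => sz (x.1.2.1, x.1.2.2.1) ^ k ≤ T) := by
    unfold passF
    refine CC.cond (by fun_prop) (by fun_prop) (CC.cond (CC.eq h3 (CC.const t))
      (CC.cond (CC.and (CC.lt (by fun_prop) h2) (by fun_prop)) (by fun_prop) (by fun_prop))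
      (by fun_prop))
  have h := CC_mloop3 (cont := fun x : Bool × Q × ℕ × ℕ => x.1) (ctl := fun _ => (true, true, false))
    (by fun_prop) (by fun_prop) hF
    (fun x => (passO (π x.1.2.1) (κ x.1.2.1) t x.2.1 0 x.2.2.1).reverse)
  refine (h.comp3 (f := fun x : Q × List β × List β =>
    ((true, x.1, 0, 0), x.2.1, x.2.2, ([] : List β))) (by fun_prop) 30 ?_).reverse.of_eq
    (fun x => by simp)
  rintro ⟨q, A, O⟩ T ⟨hm, Λ, W, hq, hA, hO, hΛ, hA', hO', hT⟩
  simp only at hm hq hA hO hA' hO' hT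
  obtain ⟨y, a1, a2⟩ := pass_run π κ t k q A O.length W (Λ ^ (5 * k)) (20 * Λ) hA'
    (fun i hi => by
      have := sz_le_pow (hi.trans hO)
      have := ten_le hΛ
      rw [pow_mul]
      exact Nat.pow_le_pow_left (by rw [sz_pair]; omega) _)
    (fun i hi j hj => by
      have := sz_le_pow (hi.trans hO)
      have := sz_le_pow (hj.trans hA)
      have := sz_bool true
      simp only [sz_pair]; omega)
    hm (O.length + A.length) O 0 0 [] (by omega) (by omega) (by omega) (fun _ _ _ _ => by omega) hO'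
  refine ⟨_, ⟨y, a1, by simpa using a2⟩, ?_⟩
  have e1 : Λ ^ (5 * k) ≤ Λ ^ (5 * k + 1) := Nat.pow_le_pow_right (by omega) (by omega)
  have e2 : Λ ≤ Λ ^ (5 * k + 1) := Nat.le_self_pow (by omega) _
  calc _ ≤ (A.length + O.length + 1) * (30 * (W + Λ ^ (5 * k + 1))) :=
        Nat.mul_le_mul (by omega) (by omega)
    _ ≤ _ := by rw [mul_left_comm]; exact Nat.mul_le_mul_left _ (by omega)

theorem passO_map (π κ : ℕ → ℕ) (t : ℕ) (A : List β) (g : ℕ → β) (m : ℕ) : ∀ i,
    passO π κ t A i ((List.range' i m).map g) =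
      (List.range' i m).map (fun i => if κ i = t then A.getD (π i) (g i) else g i) := by
  induction m with
  | zero => intro i; rfl
  | succ m ih => intro i; simp [List.range'_succ, passO, ih]

end

variable {Q Q' : Type} [Enc Q] [Enc Q']

theorem bd_getD {V w : ℕ} {A : Arr} (h : Bd V w A) (hA : A ≠ []) (j : ℕ) :
    (A.getD j (zc A)).length = V ∧ ∀ x ∈ A.getD j (zc A), x < 2 ^ w := by
  rw [List.getD_eq_getElem?_getD]
  by_cases hj : j < A.length
  · simpa [hj] using h _ (List.getElem_mem hj)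
  · rw [List.getElem?_eq_none (by omega)]
    cases A with
    | nil => exact absurd rfl hA
    | cons a A => simpa [zc] using (h a (by simp)).1

theorem bd_zc {V w : ℕ} {A : Arr} (h : Bd V w A) (hA : A ≠ []) :
    (zc A).length = V ∧ ∀ x ∈ zc A, x < 2 ^ w := by
  simpa using bd_getD h hA A.length

theorem CC_len (P : Q → ℕ → Arr → Prop) (X : Q → ℝ) {k : ℕ} (hk : 1 ≤ k) :
    CC (fun x : Q × Arr => x.2.length) (ACS P X k) := by
  refine CC_length.comp3 (f := fun x : Q × Arr => x.2) (by fun_prop) 8 ?_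
  rintro ⟨q, A⟩ T h
  obtain ⟨V, w, Λ, hP, hB, hq, hw, hN, hΛ, hX, hT⟩ := h.mono_k hk
  have := cst_nat hX hT
  refine ⟨_, ⟨Λ, hN, le_rfl⟩, ?_⟩
  simp only at this ⊢
  nlinarith [Nat.zero_le (V * (w + 1)), Nat.mul_le_mul (le_refl A.length) hΛ]

/-- polynomial-time functions of the parameter and the length -/
theorem CC_ptl {β : Type} [Enc β] {h : Q × ℕ → β} (hh : PT h) :
    ∃ k0, ∀ (P : Q → ℕ → Arr → Prop) (X : Q → ℝ) (k : ℕ), k0 ≤ k →
      CC (fun x : Q × Arr => h (x.1, x.2.length)) (ACS P X k) := by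
  obtain ⟨k0, h0⟩ := CC.ofPT hh
  refine ⟨5 * k0 + 1, fun P X k hk => h0.comp2 (CC.pair (by fun_prop) (CC_len P X (by omega))) ?_⟩
  rintro x T ⟨V, w, Λ, h1, h2, h3, h4, h5, h6, h7, h8⟩
  have := sz_le_pow h5
  have := ten_le h6
  refine (Nat.pow_le_pow_left (show _ ≤ Λ ^ 5 by rw [sz_pair]; omega) _).trans ?_
  rw [← pow_mul]
  exact (Nat.pow_le_pow_right (by omega) (by omega)).trans (cst_pow h7 h8)

theorem AC.pull (C : CoreStmt) (n π κ : Q → ℕ → ℕ) (c : ℕ) (hn : PT (fun x : Q × ℕ => n x.1 x.2))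
    (hπ : PT (fun x : Q × ℕ => π x.1 x.2)) (hκ : PT (fun x : Q × ℕ => κ x.1 x.2)) :
    AC (fun q A => pullN (n q A.length) (π q) A) (fun q _ A =>
      n q A.length ≤ c * A.length ∧ (∀ i < n q A.length, κ q i < c) ∧
      ∀ i j, i ≤ j → j < n q A.length → κ q i = κ q j → π q i ≤ π q j) (fun _ => 0) := by
  obtain ⟨k1, h1⟩ := CC_ptl hn
  obtain ⟨k2, h2⟩ := CC_pass (β := List ℕ) hπ hκ
  set P : Q → ℕ → Arr → Prop := fun q _ A =>
      n q A.length ≤ c * A.length ∧ (∀ i < n q A.length, κ q i < c) ∧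
      ∀ i j, i ≤ j → j < n q A.length → κ q i = κ q j → π q i ≤ π q j with hPdef
  have bd : ∀ t q V w A, P q w A → Bd V w A → Bd V w ((List.range (n q A.length)).map
      (fun i => if κ q i < t then A.getD (π q i) (zc A) else zc A)) := by
    intro t q V w A hP hB x hx
    obtain ⟨i, hi, rfl⟩ := List.mem_map.1 hx
    have hA : A ≠ [] := by
      rintro rfl
      have := hP.1
      simp at hi this; omega
    split_ifs
    · exact bd_getD hB hA _
    · exact bd_zc hB hA
  have pw : ∀ {N Λ m : ℕ}, N ≤ 2 ^ Λ → m ≤ c * N → m ≤ 2 ^ (Λ + c) := fun h h' => by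
    rw [pow_add, mul_comm]
    exact h'.trans (Nat.mul_le_mul (Nat.lt_two_pow_self).le h)
  have key : ∀ t, CC (fun x : Q × Arr => (List.range (n x.1 x.2.length)).map
      (fun i => if κ x.1 i < t then x.2.getD (π x.1 i) (zc x.2) else zc x.2))
      (ACS P (fun _ => 0) (k1 + k2 + c + 1)) := by
    intro t
    induction t with
    | zero =>
      have a1 : CC (fun x : Q × Arr => List.replicate (n x.1 x.2.length) ())
          (ACS P (fun _ => 0) (k1 + k2 + c + 1)) := by
        refine C.unary.comp3 (h1 _ _ _ (by omega)) (c * (4 * c + 13)) ?_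
        rintro ⟨q, A⟩ T h
        obtain ⟨V, w, Λ, hP, hB, hq, hw, hN, hΛ, hX, hT⟩ := h.mono_k (show 1 ≤ _ by omega)
        have b1 := cst_nat hX hT
        have b2 := sz_le_pow (pw hN hP.1)
        refine ⟨_, le_rfl, ?_⟩
        simp only [pow_one] at b1 b2 ⊢
        calc _ ≤ (c * A.length) * ((4 * c + 13) * Λ) := Nat.mul_le_mul hP.1 (by nlinarith)
          _ = c * (4 * c + 13) * (A.length * Λ) := by ring
          _ ≤ _ := Nat.mul_le_mul_left _ (by nlinarith [Nat.zero_le (V * (w + 1))])
      have a2 := CC.mapCU (f := fun (z : List ℕ) (_ : Unit) => z) (S := fun _ _ => True) (by fun_prop)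
      refine (a2.comp3 (CC.pair (f := fun x : Q × Arr => zc x.2) (by unfold zc; fun_prop) a1)
        (c * 5) ?_).of_eq (fun x => by simp [List.map_const'])
      rintro ⟨q, A⟩ T h
      obtain ⟨V, w, Λ, hP, hB, hq, hw, hN, hΛ, hX, hT⟩ := h.mono_k (show 1 ≤ _ by omega)
      have b1 := cst_nat hX hT
      refine ⟨_, ⟨0, fun _ _ => trivial, le_rfl⟩, ?_⟩
      simp only [pow_one, List.length_replicate, zero_add] at b1 ⊢
      by_cases hA : A = []
      · have := hP.1
        subst hA
        simp at this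
        simp [this]
      · have b2 : sz (zc A) ≤ _ := sz_cell (bd_zc hB hA)
        calc _ ≤ (c * A.length) * (5 * (V * (w + 1) + Λ)) := Nat.mul_le_mul hP.1 (by omega)
          _ = c * 5 * (A.length * (V * (w + 1) + Λ)) := by ring
          _ ≤ _ := Nat.mul_le_mul_left _ (by nlinarith)
    | succ t ih =>
      refine ((h2 t).comp3 (CC.pair (f := fun x : Q × Arr => x.1) (by fun_prop)
        (CC.pair (f := fun x : Q × Arr => x.2) (by fun_prop) ih))
        ((c + 1) * ((c + 1) ^ k2 + 5)) ?_).of_eq (fun x => ?_)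
      · rintro ⟨q, A⟩ T h
        obtain ⟨V, w, Λ, hP, hB, hq, hw, hN, hΛ, hX, hT⟩ := h.mono_k (show k2 ≤ _ by omega)
        have b1 := cst_nat hX hT
        refine ⟨_, ⟨by simpa using hP.2.2, Λ + c, 5 * (V * (w + 1)) + 1, by simp only at hq ⊢; omega,
          hN.trans (Nat.pow_le_pow_right (by omega) (by omega)), by simpa using pw hN hP.1, by omega,
          fun c hc => sz_cell (hB c hc), fun c hc => sz_cell (bd t q V w A hP hB c hc), le_rfl⟩, ?_⟩
        have b2 : (Λ + c) ^ k2 ≤ (c + 1) ^ k2 * Λ ^ k2 := by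
          rw [← mul_pow]; exact Nat.pow_le_pow_left (by nlinarith) _
        have b3 : 1 ≤ Λ ^ k2 := Nat.one_le_pow _ _ (by omega)
        have b4 := hP.1
        simp only [List.length_map, List.length_range] at b1 b4 ⊢
        calc _ ≤ ((c + 1) * (A.length + 1)) * (((c + 1) ^ k2 + 5) * (V * (w + 1) + Λ ^ k2)) :=
              Nat.mul_le_mul (by nlinarith) (by nlinarith [Nat.zero_le ((c + 1) ^ k2 * (V * (w + 1)))])
          _ = (c + 1) * ((c + 1) ^ k2 + 5) * ((A.length + 1) * (V * (w + 1) + Λ ^ k2)) := by ring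
          _ ≤ _ := Nat.mul_le_mul_left _ (by omega)
      · simp only [List.range_eq_range']
        rw [passO_map]
        refine List.map_congr_left (fun i _ => ?_)
        by_cases e : κ x.1 i = t
        · simp [e]
        · by_cases e' : κ x.1 i < t
          · simp [e, e', show κ x.1 i < t + 1 by omega]
          · simp [e, e', show ¬ κ x.1 i < t + 1 by omega]
  have fin : ∀ q w A, P q w A → (List.range (n q A.length)).map
      (fun i => if κ q i < c then A.getD (π q i) (zc A) else zc A) = pullN (n q A.length) (π q) A :=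
    fun q w A hP => List.map_congr_left (fun i hi => by rw [if_pos (hP.2.1 i (List.mem_range.1 hi))])
  refine AC_iff.2 ⟨k1 + k2 + c + 1, (key c).congr ?_, ?_⟩
  · rintro x T ⟨V, w, Λ, hP, -⟩
    exact fin _ w _ hP
  · intro q V w A hP hB
    refine ⟨fin q w A hP ▸ bd c q V w A hP hB, ?_⟩
    simpa [pullN] using hP.1.trans (Nat.mul_le_mul_right _ (by omega))

theorem AC.drop_nonneg {f : Q → Arr → Arr} {P : Q → ℕ → Arr → Prop} {X : Q → ℝ}
    (h : AC f (fun q w A => P q w A ∧ 0 ≤ X q) X)
    (hb : ∀ q V w A, P q w A → Bd V w A → Bd V w (f q A) ∧ (f q A).length ≤ A.length) :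
    AC f P X := by
  obtain ⟨k, hc, -⟩ := AC_iff.1 h
  refine AC_iff.2 ⟨k + 1, hc.mono ?_, fun q V w A hP hB => ⟨(hb q V w A hP hB).1,
    (hb q V w A hP hB).2.trans (Nat.le_mul_of_pos_left _ (by omega))⟩⟩
  intro x T h
  obtain ⟨V, w, Λ, h1, h2, h3, h4, h5, h6, h7, h8⟩ := h.mono_k (show k ≤ _ by omega)
  exact ⟨V, w, Λ, ⟨h1, h7⟩, h2, h3, h4, h5, h6, h7, h8⟩

theorem range_mul_map {β : Type} (L m : ℕ) (g : ℕ → β) : (List.range (L * m)).map g =
    ((List.range m).map (fun j => (List.range L).map (fun r => g (L * j + r)))).flatten := by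
  induction m with
  | zero => simp
  | succ m ih =>
    rw [Nat.mul_succ, List.range_add, List.map_append, ih, List.range_succ]
    simp [Function.comp_def]

theorem rev_eq (L : ℕ) (A : Arr) (hL : 0 < L) (h : L ∣ A.length) :
    ((chunks L A).map List.reverse).flatten =
      pullN A.length (fun i => i / L * L + (L - 1 - i % L)) A := by
  obtain ⟨m, hm⟩ := h
  unfold pullN chunks
  rw [hm, range_mul_map, Nat.mul_div_cancel_left _ hL, List.map_map]
  congr 1
  refine List.map_congr_left (fun j hj => ?_)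
  have hj' := List.mem_range.1 hj
  have h1 : j * L + L ≤ A.length := by rw [hm]; nlinarith
  refine List.ext_getElem (by simp; omega) (fun r h2 h3 => ?_)
  have hr : r < L := by simpa using h3
  have e1 : (L * j + r) / L = j := by
    rw [Nat.mul_add_div hL, Nat.div_eq_of_lt hr, add_zero]
  have e2 : (L * j + r) % L = r := by rw [Nat.mul_add_mod, Nat.mod_eq_of_lt hr]
  simp only [Function.comp, List.getElem_reverse, List.getElem_take, List.getElem_drop,
    List.getElem_map, List.getElem_range, e1, e2, List.length_take, List.length_drop]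
  rw [List.getD_eq_getElem _ _ (by omega)]
  congr 2
  omega

theorem bd_pullN {V w : ℕ} {A : Arr} (π : ℕ → ℕ) (h : Bd V w A) : Bd V w (pullN A.length π A) := by
  intro x hx
  obtain ⟨i, hi, rfl⟩ := List.mem_map.1 hx
  exact bd_getD h (by rintro rfl; simp at hi) _

@[simp] theorem length_pullN (n : ℕ) (π : ℕ → ℕ) (A : Arr) : (pullN n π A).length = n := by
  simp [pullN]

theorem PC.rev (C : CoreStmt) :
    PC (fun (L : ℕ) i => i / L * L + (L - 1 - i % L)) (fun L N => 0 < L ∧ L ∣ N) (fun _ => 0) := by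
  refine ⟨?_, ?_⟩
  · obtain ⟨k1, h1⟩ := CC_ptl (Q := ℕ) (h := fun x : ℕ × ℕ => min x.1 x.2) (by fun_prop)
    refine AC_iff.2 ⟨k1 + 1, ?_, fun q V w A hP hB => ⟨bd_pullN _ hB, by simp; nlinarith⟩⟩
    have a1 : CC (fun x : ℕ × Arr => List.replicate (min x.1 x.2.length) ())
        (ACS (fun L _ A => 0 < L ∧ L ∣ A.length) (fun _ => 0) (k1 + 1)) := by
      refine C.unary.comp3 (h1 _ _ _ (by omega)) 13 ?_
      rintro ⟨q, A⟩ T h
      obtain ⟨V, w, Λ, hP, hB, hq, hw, hN, hΛ, hX, hT⟩ := h.mono_k (show 1 ≤ _ by omega)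
      have b1 := cst_nat hX hT
      have b2 := sz_le_pow ((min_le_right q A.length).trans hN)
      refine ⟨_, le_rfl, ?_⟩
      simp only [pow_one] at b1 b2 ⊢
      calc _ ≤ A.length * (13 * Λ) := Nat.mul_le_mul (min_le_right _ _) (by omega)
        _ = 13 * (A.length * Λ) := by ring
        _ ≤ _ := Nat.mul_le_mul_left _ (by nlinarith [Nat.zero_le (V * (w + 1))])
    have a2 := CC.comp C.chunks' (CC.pair a1 (g := fun x : ℕ × Arr => x.2) (by fun_prop))
    refine ((a2.mapL (f := List.reverse) (by fun_prop)).flatten).congr ?_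
    rintro ⟨L, A⟩ T ⟨V, w, Λ, hP, -⟩
    simp only [List.length_replicate] at hP ⊢
    by_cases hA : A = []
    · subst hA; simp [chunks, pullN]
    · rw [min_eq_left (Nat.le_of_dvd (List.length_pos_iff.2 hA) hP.2)]
      exact rev_eq L A hP.1 hP.2
  · rintro L N ⟨hL, m, rfl⟩ i hi
    have h1 : i / L < m := by rw [Nat.div_lt_iff_lt_mul hL]; rwa [mul_comm]
    simp only
    have : (i / L + 1) * L ≤ m * L := Nat.mul_le_mul_right _ h1
    rw [mul_comm L m]
    rw [add_mul] at this
    omega

theorem pullN_congr {n : ℕ} {π ρ : ℕ → ℕ} (A : Arr) (h : ∀ i < n, π i = ρ i) :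
    pullN n π A = pullN n ρ A :=
  List.map_congr_left (fun i hi => by rw [h i (List.mem_range.1 hi)])

theorem pullN_pullN (π ρ : ℕ → ℕ) (A : Arr) (h : ∀ i < A.length, ρ i < A.length) :
    pullN A.length ρ (pullN A.length π A) = pullN A.length (fun i => π (ρ i)) A := by
  refine List.map_congr_left (fun i hi => ?_)
  have := h i (List.mem_range.1 hi)
  rw [List.getD_eq_getElem _ _ (by simpa using this)]
  simp [pullN]

theorem pullN_id (A : Arr) : pullN A.length (fun i => i) A = A :=
  List.ext_getElem (by simp) (fun i h1 h2 => by simp [pullN, h2])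

theorem foldl_pullN (π : ℕ → ℕ → ℕ) (A : Arr) (m : ℕ)
    (h : ∀ j < m, ∀ i < A.length, π j i < A.length) :
    (List.range m).foldl (fun B j => pullN B.length (π j) B) A =
      pullN A.length (fun i => (List.range m).foldr (fun j i => π j i) i) A := by
  induction m with
  | zero => exact (pullN_id A).symm
  | succ m ih =>
    rw [List.range_succ, List.foldl_append, ih (fun j hj => h j (by omega))]
    simp only [List.foldl_cons, List.foldl_nil, length_pullN, List.foldr_append, List.foldr_cons,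
      List.foldr_nil]
    exact pullN_pullN _ _ A (h m (by omega))

theorem arrStmt (C : CoreStmt) : ArrStmt where
  mono hf h g P' X' c hh H := hf.mono h g P' X' c hh H
  comp hg hf := hg.comp hf
  cond hc hf hg := AC.cond hc hf hg
  loop hf m X' h1 h2 := hf.loop m X' h1 h2
  pull n π κ c hn hπ hκ := (AC.pull C n π κ c hn hπ hκ).mono (fun q => q) _ _ _ 0 PT.id'
    (fun q w A h => ⟨h.2, rfl, le_rfl, by simp⟩)
  rev := PC.rev C
  pmono := by
    intro Q Q' _ _ π P X hπ h ρ P' X' c hh H
    refine ⟨hπ.1.mono h _ _ _ c hh (fun q w A hP => ?_), fun q N hP i hi => ?_⟩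
    · obtain ⟨a1, a2, a3, a4⟩ := H q _ hP
      exact ⟨a1, pullN_congr A a2, a3, a4⟩
    · obtain ⟨a1, a2, a3, a4⟩ := H q _ hP
      rw [← a2 i hi]; exact hπ.2 _ _ a1 i hi
  pcomp := by
    intro Q _ π ρ P X hπ hρ
    have hX : AC (fun q A => pullN A.length (fun i => π q (ρ q i)) A)
        (fun q _ A => P q A.length ∧ 0 ≤ X q) X :=
      (hρ.1.comp hπ.1).mono (fun q => q) _ _ _ 1 PT.id' (fun q w A hP =>
        ⟨⟨hP.1, by simpa using hP.1⟩, by simpa using pullN_pullN _ _ A (hρ.2 q _ hP.1), hP.2,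
          by linarith⟩)
    exact ⟨hX.drop_nonneg (fun q V w A hP hB => ⟨bd_pullN _ hB, by simp⟩),
      fun q N hP i hi => hπ.2 q N hP _ (hρ.2 q N hP i hi)⟩
  pcond := by
    intro Q _ c π ρ P P' X hc hπ hρ
    refine ⟨?_, fun q N hP i hi => ?_⟩
    · have := AC.cond hc hπ.1 hρ.1
      convert this using 3 with q A
      beta_reduce
      cases c q <;> rfl
    · cases e : c q
      · simpa [e] using hρ.2 q N (hP.2 e) i hi
      · simpa [e] using hπ.2 q N (hP.1 e) i hi
  ploop := by
    intro Q _ π P X hπ m X' h1 h2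
    refine ⟨?_, fun q N hP => ?_⟩
    · have hX : AC (fun q A => pullN A.length
          (fun i => (List.range (m q)).foldr (fun j i => π (q, j) i) i) A)
          (fun q _ A => ((∀ j < m q, 0 ≤ X (q, j) ∧ P (q, j) A.length) ∧
            ∑ j ∈ Finset.range (m q), (X (q, j) + 1) ≤ X' q + 1) ∧ 0 ≤ X' q) X' := by
        refine (hπ.1.loop m X' h1 h2).mono (fun q => q) _ _ _ 1 PT.id' (fun q w A hP => ?_)
        have e := fun j (hj : j ≤ m q) => foldl_pullN (fun j => π (q, j)) A j
          (fun i hi => hπ.2 _ _ (hP.1.1 i (by omega)).2)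
        refine ⟨⟨fun j hj => ⟨(hP.1.1 j hj).1, ?_, ?_⟩, hP.1.2⟩, e _ le_rfl, hP.2, by linarith⟩
        · rw [e j hj.le]; simpa using (hP.1.1 j hj).2
        · rw [e (j + 1) hj]; simp
      exact hX.drop_nonneg (fun q V w A hP hB => ⟨bd_pullN _ hB, by simp⟩)
    · have : ∀ l : List ℕ, (∀ j ∈ l, j < m q) → ∀ i < N, l.foldr (fun j i => π (q, j) i) i < N := by
        intro l
        induction l with
        | nil => intro _ i hi; exact hi
        | cons j l ih =>
          intro hl i hi
          exact hπ.2 _ _ (hP.1 j (hl j (by simp))).2 _ (ih (fun j hj => hl j (by simp [hj])) i hi)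
      exact this _ (fun j hj => List.mem_range.1 hj)
  ppull := by
    intro Q _ π κ c hπ hκ
    refine ⟨(AC.pull C (fun _ N => N) π κ c (by fun_prop) hπ hκ).mono (fun q => q) _ _ _ 0 PT.id'
      (fun q w A hP => ⟨⟨?_, fun i hi => (hP.1 i hi).1, hP.2⟩, rfl, le_rfl, by simp⟩),
      fun q N hP i hi => (hP.1 i hi).2⟩
    rcases Nat.eq_zero_or_pos A.length with h | h
    · omega
    · exact Nat.le_mul_of_pos_left _ (by have := (hP.1 0 h).1; omega)

end Crest.Agent.H9.IM
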