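import Crest.Agent.H3.IMArr1
import Crest.Agent.H6.IMCore

set_option autoImplicit false
set_option linter.unusedSectionVars false
set_option linter.unusedVariables false
set_option linter.unusedSimpArgs false

/-! Convolution: the operations on single cells. -/

namespace Crest.Agent.H9.IM.Cv
open Crest.Agent.H3.Ptime

/-! ### interleaved lists -/

theorem il_length {α : Type} (f g : α → ℕ) (l : List α) :
    (l.flatMap (fun x => [f x, g x])).length = 2 * l.length := by
  induction l with
  | nil => rfl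
  | cons a l ih => simp only [List.flatMap_cons, List.length_append, ih]; simp; omega

theorem il_getD {α : Type} (f g : α → ℕ) (l : List α) : ∀ e,
    (l.flatMap (fun x => [f x, g x])).getD (2 * e) 0 = (l.map f).getD e 0 ∧
    (l.flatMap (fun x => [f x, g x])).getD (2 * e + 1) 0 = (l.map g).getD e 0 := by
  induction l with
  | nil => simp
  | cons a l ih =>
    intro e
    cases e with
    | zero => simp
    | succ e =>
      have := ih e
      simp only [List.flatMap_cons, List.map_cons, List.cons_append, List.nil_append,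
        Nat.mul_succ, List.getD_cons_succ]
      exact this

def ev (c : List ℕ) : List ℕ := (chunks 2 c).map (fun l => l.headD 0)
def od (c : List ℕ) : List ℕ := (chunks 2 c).map (fun l => l.tail.headD 0)

theorem ev_eq (c : List ℕ) : ev c = (List.range (c.length / 2)).map (fun e => c.getD (2 * e) 0) := by
  unfold ev chunks
  rw [List.map_map]
  refine List.map_congr_left (fun e _ => ?_)
  simp [List.headD_eq_head?_getD, List.head?_take, List.head?_drop, mul_comm,
    List.getD_eq_getElem?_getD]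

theorem od_eq (c : List ℕ) :
    od c = (List.range (c.length / 2)).map (fun e => c.getD (2 * e + 1) 0) := by
  unfold od chunks
  rw [List.map_map]
  refine List.map_congr_left (fun e _ => ?_)
  simp [List.headD_eq_head?_getD, List.head?_take, List.head?_drop, mul_comm,
    List.getD_eq_getElem?_getD, List.head?_tail, List.getElem?_take]

section
variable {α β γ : Type} [Enc α] [Enc β] [Enc γ] {S : α → ℕ → Prop}

theorem cc_chunks2 {f : α → List β} (hf : CC f S) : CC (fun a => chunks 2 (f a)) S :=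
  (CC.comp (Lin.chunks (α := β)) ((CC.const [(), ()]).pair hf)).of_eq (fun _ => rfl)

@[fun_prop] theorem cc_ev {f : α → List ℕ} (hf : CC f S) : CC (fun a => ev (f a)) S :=
  (cc_chunks2 hf).mapL (by fun_prop)

@[fun_prop] theorem cc_od {f : α → List ℕ} (hf : CC f S) : CC (fun a => od (f a)) S :=
  (cc_chunks2 hf).mapL (by fun_prop)

theorem cc_mapE {ε : Type} [Enc ε] {g : ε → β → γ} (hg : Lin (fun y : ε × β => g y.1 y.2))
    {e : α → ε} {l : α → List β} (he : CC e S) (hl : CC l S)
    (h : ∀ a T, S a T → (l a).length * sz (e a) ≤ T) : CC (fun a => (l a).map (g (e a))) S :=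
  hg.mapCU.comp2 (he.pair hl) (fun a T hT => ⟨0, fun _ _ => trivial, by simpa using h a T hT⟩)

theorem cc_flatMapE {ε : Type} [Enc ε] {g : ε → β → List γ} (hg : Lin (fun y : ε × β => g y.1 y.2))
    {e : α → ε} {l : α → List β} (he : CC e S) (hl : CC l S)
    (h : ∀ a T, S a T → (l a).length * sz (e a) ≤ T) : CC (fun a => (l a).flatMap (g (e a))) S :=
  hg.flatMapC.comp2 (he.pair hl) (fun a T hT => ⟨fun _ => 0, fun _ _ => trivial,
    by simpa using h a T hT⟩)

theorem cc_shl (N : NumStmt) {f : α → ℕ} {g : α → List Unit} (hf : CC f S) (hg : CC g S) :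
    CC (fun a => f a * 2 ^ (g a).length) S := CC.comp N.shl (hf.pair hg)

theorem cc_ishr (N : NumStmt) {f : α → ℤ} {g : α → List Unit} (hf : CC f S) (hg : CC g S) :
    CC (fun a => f a / 2 ^ (g a).length) S := CC.comp N.ishr (hf.pair hg)

theorem cc_MM (N : NumStmt) {g : α → List Unit} (hg : CC g S) : CC (fun a => MM (g a).length) S :=
  ((cc_shl N (CC.const 1) (hg.append hg)).add (CC.const 1)).of_eq (fun a => by
    simp [MM, two_mul])

theorem cc_sgn (N : NumStmt) {g : α → List Unit} {f : α → ℕ} (hg : CC g S) (hf : CC f S) :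
    CC (fun a => sgn (g a).length (f a)) S := by
  have h := cc_MM N hg
  exact (CC.ite (CC.lt (hf.add hf) h) hf.natCast (hf.natCast.isub h.natCast)).of_eq (fun a => by
    simp [sgn, two_mul])

def encZ (u : ℕ) (z : ℤ) : ℕ := if z < 0 then (z + MM u).toNat else z.toNat

theorem cc_encZ (N : NumStmt) {g : α → List Unit} {f : α → ℤ} (hg : CC g S) (hf : CC f S) :
    CC (fun a => encZ (g a).length (f a)) S :=
  CC.ite (CC.ilt hf (CC.const 0)) (hf.iadd (cc_MM N hg).natCast).toNat hf.toNat

end

theorem encZ_spec {u : ℕ} {z : ℤ} (h : 2 * |z| < MM u) : encZ u z < MM u ∧ sgn u (encZ u z) = z := by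
  unfold encZ sgn
  rcases abs_cases z with h1 | h1 <;> split_ifs <;> omega

theorem abs_sgn_le {u x : ℕ} (h : x < MM u) : (sgn u x).natAbs < 2 ^ (2 * u + 1) := by
  have : MM u ≤ 2 ^ (2 * u + 1) := by
    unfold MM; rw [pow_succ]; have := Nat.two_pow_pos (2 * u); omega
  unfold sgn
  split_ifs <;> omega

/-! ### the three cell operations -/

def encC (p : List Unit) (c : List ℕ) : List ℕ := c.flatMap (fun x => [x * 2 ^ p.length, 0])

def reL (u : List Unit) (c : List ℕ) : List ℤ := (ev c).map (sgn u.length)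
def imL (u : List Unit) (c : List ℕ) : List ℤ := (od c).map (sgn u.length)

def prL (u : List Unit) (c d : List ℕ) : List (ℤ × ℤ) :=
  (List.zipWith (fun a b => a - b) (pmul (reL u c) (reL u d)) (pmul (imL u c) (imL u d))).zip
    (List.zipWith (fun a b => a + b) (pmul (reL u c) (imL u d)) (pmul (imL u c) (reL u d)))

def mulC (E : List Unit × List Unit) (y : List ℕ × List ℕ) : List ℕ :=
  (prL E.2 y.1 y.2).flatMap
    (fun z => [encZ E.2.length (z.1 / 2 ^ E.1.length), encZ E.2.length (z.2 / 2 ^ E.1.length)])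

def rndC (E : List Unit × List Unit) (c : List ℕ) : List ℕ :=
  (ev c).map (fun x => ((sgn E.2.length x + sgn E.2.length x + (1 * 2 ^ E.1.length : ℕ)) /
    2 ^ (() :: E.1).length).toNat)

theorem length_ev (c : List ℕ) : (ev c).length = c.length / 2 := by simp [ev_eq]
theorem length_od (c : List ℕ) : (od c).length = c.length / 2 := by simp [od_eq]
theorem length_pmul (a b : List ℤ) : (pmul a b).length = a.length + b.length := by simp [pmul]

theorem length_prL {u : List Unit} {c d : List ℕ} {V : ℕ} (hc : c.length = 2 * V)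
    (hd : d.length = 2 * V) : (prL u c d).length = 2 * V := by
  simp [prL, length_pmul, reL, imL, length_ev, length_od, hc, hd]; omega

theorem cc_encC (N : NumStmt) : CC (fun y : List Unit × List ℕ => encC y.1 y.2)
    (fun y T => y.2.length * sz y.1 ≤ T) :=
  cc_flatMapE (g := fun (p : List Unit) (x : ℕ) => [x * 2 ^ p.length, 0])
    ((cc_shl N (by fun_prop) (by fun_prop)).cons (CC.const [0])) (by fun_prop) (by fun_prop)
    (fun _ _ h => h)

theorem cc_rndC (N : NumStmt) : CC (fun y : (List Unit × List Unit) × List ℕ => rndC y.1 y.2)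
    (fun y T => y.2.length * sz y.1 ≤ T) := by
  have h : Lin (fun y : (List Unit × List Unit) × ℕ => sgn y.1.2.length y.2) :=
    cc_sgn N (by fun_prop) (by fun_prop)
  refine cc_mapE (g := fun (E : List Unit × List Unit) (x : ℕ) =>
    ((sgn E.2.length x + sgn E.2.length x + (1 * 2 ^ E.1.length : ℕ)) /
      2 ^ (() :: E.1).length).toNat) (cc_ishr N ((h.iadd h).iadd
        (cc_shl N (CC.const 1) (by fun_prop)).natCast) (by fun_prop)).toNat (by fun_prop)
    (by fun_prop) (fun y T h => le_trans (Nat.mul_le_mul_right _ ?_) h)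
  rw [length_ev]; omega

def MS (γ : ℝ) (y : (List Unit × List Unit) × List ℕ × List ℕ) (T : ℕ) : Prop :=
  ∃ V, y.2.1.length = 2 * V ∧ y.2.2.length = 2 * V ∧ (∀ x ∈ y.2.1, x < MM y.1.2.length) ∧
    (∀ x ∈ y.2.2, x < MM y.1.2.length) ∧ V < 2 ^ (2 * y.1.2.length + 1) ∧
    ((V + 1 : ℝ) * ((2 * y.1.2.length + 1 : ℕ) + 1)) ^ (1 + γ) ≤ T ∧ 2 * V * sz y.1 ≤ T

theorem getD_lt {c : List ℕ} {M : ℕ} (hM : 0 < M) (h : ∀ x ∈ c, x < M) (j : ℕ) : c.getD j 0 < M := by
  rw [List.getD_eq_getElem?_getD]
  by_cases hj : j < c.length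
  · simpa [hj] using h _ (List.getElem_mem hj)
  · rw [List.getElem?_eq_none (by omega)]; exact hM

theorem MM_pos (u : ℕ) : 0 < MM u := Nat.succ_pos _

theorem reL_bd {u : List Unit} {c : List ℕ} (h : ∀ x ∈ c, x < MM u.length) :
    ∀ z ∈ reL u c, z.natAbs < 2 ^ (2 * u.length + 1) := by
  intro z hz
  simp only [reL, ev_eq, List.map_map, List.mem_map] at hz
  obtain ⟨e, -, rfl⟩ := hz
  exact abs_sgn_le (getD_lt (MM_pos _) h _)

theorem imL_bd {u : List Unit} {c : List ℕ} (h : ∀ x ∈ c, x < MM u.length) :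
    ∀ z ∈ imL u c, z.natAbs < 2 ^ (2 * u.length + 1) := by
  intro z hz
  simp only [imL, od_eq, List.map_map, List.mem_map] at hz
  obtain ⟨e, -, rfl⟩ := hz
  exact abs_sgn_le (getD_lt (MM_pos _) h _)

theorem cc_mulC (N : NumStmt) (C : CellStmt) {γ : ℝ} (hγ : 0 < γ) :
    CC (fun y : (List Unit × List Unit) × List ℕ × List ℕ => mulC y.1 y.2) (MS γ) := by
  have hs : Lin (fun y : (List Unit × List Unit) × ℕ => sgn y.1.2.length y.2) :=
    cc_sgn N (by fun_prop) (by fun_prop)
  have r1 : CC (fun y : (List Unit × List Unit) × List ℕ × List ℕ => reL y.1.2 y.2.1) (MS γ) :=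
    cc_mapE (g := fun (E : List Unit × List Unit) x => sgn E.2.length x) hs (by fun_prop)
      (by fun_prop) (by
        rintro y T ⟨V, h1, h2, -, -, -, -, h⟩
        exact le_trans (Nat.mul_le_mul_right _ (by rw [length_ev]; omega)) h)
  have r2 : CC (fun y : (List Unit × List Unit) × List ℕ × List ℕ => reL y.1.2 y.2.2) (MS γ) :=
    cc_mapE (g := fun (E : List Unit × List Unit) x => sgn E.2.length x) hs (by fun_prop)
      (by fun_prop) (by
        rintro y T ⟨V, h1, h2, -, -, -, -, h⟩
        exact le_trans (Nat.mul_le_mul_right _ (by rw [length_ev]; omega)) h)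
  have i1 : CC (fun y : (List Unit × List Unit) × List ℕ × List ℕ => imL y.1.2 y.2.1) (MS γ) :=
    cc_mapE (g := fun (E : List Unit × List Unit) x => sgn E.2.length x) hs (by fun_prop)
      (by fun_prop) (by
        rintro y T ⟨V, h1, h2, -, -, -, -, h⟩
        exact le_trans (Nat.mul_le_mul_right _ (by rw [length_od]; omega)) h)
  have i2 : CC (fun y : (List Unit × List Unit) × List ℕ × List ℕ => imL y.1.2 y.2.2) (MS γ) :=
    cc_mapE (g := fun (E : List Unit × List Unit) x => sgn E.2.length x) hs (by fun_prop)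
      (by fun_prop) (by
        rintro y T ⟨V, h1, h2, -, -, -, -, h⟩
        exact le_trans (Nat.mul_le_mul_right _ (by rw [length_od]; omega)) h)
  have pm : ∀ {f g : (List Unit × List Unit) × List ℕ × List ℕ → List ℤ}, CC f (MS γ) →
      CC g (MS γ) → (∀ y, (f y).length = y.2.1.length / 2 ∧ ((∀ x ∈ y.2.1, x < MM y.1.2.length) →
        ∀ z ∈ f y, z.natAbs < 2 ^ (2 * y.1.2.length + 1))) →
      (∀ y, (g y).length = y.2.2.length / 2 ∧ ((∀ x ∈ y.2.2, x < MM y.1.2.length) →
        ∀ z ∈ g y, z.natAbs < 2 ^ (2 * y.1.2.length + 1))) →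
      CC (fun y => pmul (f y) (g y)) (MS γ) := by
    intro f g hf hg h1 h2
    refine (C γ hγ).comp2 (hf.pair hg) ?_
    rintro y T ⟨V, a1, a2, a3, a4, a5, a6, a7⟩
    refine ⟨V, 2 * y.1.2.length + 1, by simp only [(h1 y).1]; omega, by simp only [(h2 y).1]; omega,
      fun z hz => ?_, a5, a6⟩
    rcases List.mem_append.1 hz with hz | hz
    · exact (h1 y).2 a3 z hz
    · exact (h2 y).2 a4 z hz
  have hp : CC (fun y : (List Unit × List Unit) × List ℕ × List ℕ => prL y.1.2 y.2.1 y.2.2) (MS γ) :=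
    CC.zip (CC.zipWithL
      (pm r1 r2 (fun y => ⟨by simp [reL, length_ev], reL_bd⟩) (fun y => ⟨by simp [reL, length_ev], reL_bd⟩))
      (pm i1 i2 (fun y => ⟨by simp [imL, length_od], imL_bd⟩) (fun y => ⟨by simp [imL, length_od], imL_bd⟩))
      (by fun_prop)) (CC.zipWithL
      (pm r1 i2 (fun y => ⟨by simp [reL, length_ev], reL_bd⟩) (fun y => ⟨by simp [imL, length_od], imL_bd⟩))
      (pm i1 r2 (fun y => ⟨by simp [imL, length_od], imL_bd⟩) (fun y => ⟨by simp [reL, length_ev], reL_bd⟩))
      (by fun_prop))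
  refine cc_flatMapE (g := fun (E : List Unit × List Unit) (z : ℤ × ℤ) =>
    [encZ E.2.length (z.1 / 2 ^ E.1.length), encZ E.2.length (z.2 / 2 ^ E.1.length)])
    ((cc_encZ N (by fun_prop) (cc_ishr N (by fun_prop) (by fun_prop))).cons
      ((cc_encZ N (by fun_prop) (cc_ishr N (by fun_prop) (by fun_prop))).cons (CC.const [])))
    (by fun_prop) hp ?_
  rintro y T ⟨V, h1, h2, -, -, -, -, h⟩
  rwa [length_prL h1 h2]

/-! ### numerical facts -/

theorem encC_spec {p u : List Unit} {c : List ℕ} {V w : ℕ} (hc : c.length = V ∧ ∀ x ∈ c, x < 2 ^ w)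
    (h : w + p.length + 1 ≤ 2 * u.length) :
    ((encC p c).length = 2 * V ∧ ∀ x ∈ encC p c, x < MM u.length) ∧
      ∀ e, cval p.length u.length (encC p c) e = (c.getD e 0 : ℕ) := by
  have key : ∀ x < 2 ^ w, 2 * (x * 2 ^ p.length) < MM u.length := by
    intro x hx
    have h1 : 2 ^ (w + p.length + 1) ≤ 2 ^ (2 * u.length) := Nat.pow_le_pow_right (by omega) h
    rw [pow_succ, pow_add] at h1
    have := Nat.mul_le_mul_right (2 ^ p.length) hx.le
    unfold MM; omega
  refine ⟨⟨by rw [encC, il_length, hc.1], fun x hx => ?_⟩, fun e => ?_⟩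
  · simp only [encC, List.mem_flatMap, List.mem_cons, List.not_mem_nil, or_false] at hx
    obtain ⟨y, hy, rfl | rfl⟩ := hx
    · have := key y (hc.2 y hy); omega
    · exact MM_pos _
  · have e1 : (c.map (fun x => x * 2 ^ p.length)).getD e 0 = c.getD e 0 * 2 ^ p.length := by
      simp only [List.getD_eq_getElem?_getD, List.getElem?_map]
      cases (getElem? c e) <;> simp
    have e2 : (c.map (fun _ => 0)).getD e 0 = 0 := by
      simp only [List.getD_eq_getElem?_getD, List.getElem?_map]
      cases (getElem? c e) <;> simp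
    unfold cval encC
    rw [(il_getD _ _ c e).1, (il_getD _ _ c e).2, e1, e2]
    have := key _ (getD_lt (Nat.two_pow_pos w) hc.2 e)
    have h0 := MM_pos u.length
    generalize c.getD e 0 = y at this ⊢
    simp [sgn, this, h0, toC]

theorem rndC_spec {p u : List Unit} {c : List ℕ} {V : ℕ} (hc : c.length = 2 * V) (n : ℕ → ℕ)
    (h : ∀ e < V, ‖cval p.length u.length c e - (n e : ℂ)‖ ≤ 1 / 4) :
    rndC (p, u) c = (List.range V).map n := by
  unfold rndC
  rw [ev_eq, hc, Nat.mul_div_cancel_left _ (by omega : 0 < 2), List.map_map]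
  refine List.map_congr_left (fun e he => ?_)
  have h1 := (Complex.abs_re_le_norm _).trans (h e (List.mem_range.1 he))
  have e1 : (cval p.length u.length c e - (n e : ℂ)).re =
      (sgn u.length (c.getD (2 * e) 0) : ℝ) / 2 ^ p.length - n e := by
    unfold cval toC
    have : (2 : ℂ) ^ p.length = ((2 ^ p.length : ℝ) : ℂ) := by push_cast; rfl
    rw [this, Complex.sub_re, Complex.div_ofReal_re]
    simp
  rw [e1] at h1
  simp only [Function.comp, List.length_cons, one_mul]
  generalize sgn u.length (c.getD (2 * e) 0) = z at *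
  have hP : (0 : ℝ) < 2 ^ p.length := by positivity
  obtain ⟨h2, h3⟩ := abs_le.1 h1
  rw [le_sub_iff_add_le, le_div_iff₀ hP] at h2
  rw [sub_le_iff_le_add, div_le_iff₀ hP] at h3
  have : (z + z + (2 ^ p.length : ℕ)) / 2 ^ (p.length + 1) = (n e : ℤ) := by
    rw [Int.ediv_eq_iff_of_pos (by positivity)]
    constructor
    · have : (n e : ℝ) * 2 ^ (p.length + 1) ≤ z + z + 2 ^ p.length := by rw [pow_succ]; nlinarith
      exact_mod_cast this
    · have : (z : ℝ) + z + 2 ^ p.length < (n e : ℝ) * 2 ^ (p.length + 1) + 2 ^ (p.length + 1) := by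
        rw [pow_succ]; nlinarith
      exact_mod_cast this
  rw [this]; simp

theorem toC_shift (p : ℕ) (a b : ℤ) :
    ‖toC p (a / 2 ^ p, b / 2 ^ p) - ((a : ℂ) + b * Complex.I) / (2 ^ p * 2 ^ p)‖ ≤ 2 / 2 ^ p := by
  have hP : (0 : ℤ) < 2 ^ p := by positivity
  have key : ∀ a : ℤ, ‖(((a / 2 ^ p : ℤ) : ℂ) - (a : ℂ) / 2 ^ p)‖ ≤ 1 := by
    intro a
    have h1 := Int.emod_add_mul_ediv a (2 ^ p)
    have h2 := Int.emod_nonneg a hP.ne'
    have h3 := Int.emod_lt_of_pos a hP
    have e : (((a / 2 ^ p : ℤ) : ℂ) - (a : ℂ) / 2 ^ p) = -((a % 2 ^ p : ℤ) : ℂ) / 2 ^ p := by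
      have : (a : ℂ) = ((a % 2 ^ p : ℤ) : ℂ) + 2 ^ p * ((a / 2 ^ p : ℤ) : ℂ) := by
        exact_mod_cast h1.symm
      generalize ((a % 2 ^ p : ℤ) : ℂ) = r at *
      generalize ((a / 2 ^ p : ℤ) : ℂ) = s at *
      rw [this]; field_simp; ring
    rw [e, norm_div, norm_neg, Complex.norm_intCast, norm_pow, Complex.norm_two,
      div_le_one (by positivity), abs_of_nonneg (by exact_mod_cast h2)]
    exact_mod_cast h3.le
  have e : toC p (a / 2 ^ p, b / 2 ^ p) - ((a : ℂ) + b * Complex.I) / (2 ^ p * 2 ^ p) =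
      ((((a / 2 ^ p : ℤ) : ℂ) - (a : ℂ) / 2 ^ p) +
        (((b / 2 ^ p : ℤ) : ℂ) - (b : ℂ) / 2 ^ p) * Complex.I) / 2 ^ p := by
    unfold toC
    simp only
    field_simp; ring
  rw [e, norm_div, norm_pow, Complex.norm_two]
  refine div_le_div_of_nonneg_right ((norm_add_le _ _).trans ?_) (by positivity)
  rw [norm_mul, Complex.norm_I]
  linarith [key a, key b]

theorem abs_le_toC (p : ℕ) (z : ℤ × ℤ) : (|z.1| : ℝ) ≤ ‖toC p z‖ * 2 ^ p ∧
    (|z.2| : ℝ) ≤ ‖toC p z‖ * 2 ^ p := by
  have e : ‖toC p z‖ * 2 ^ p = ‖(z.1 : ℂ) + z.2 * Complex.I‖ := by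
    unfold toC
    rw [norm_div, norm_pow, Complex.norm_two]; field_simp
  rw [e]
  exact ⟨by simpa using Complex.abs_re_le_norm ((z.1 : ℂ) + z.2 * Complex.I),
    by simpa using Complex.abs_im_le_norm ((z.1 : ℂ) + z.2 * Complex.I)⟩

theorem ri_eq {p u : List Unit} {c : List ℕ} {V : ℕ} (hc : c.length = 2 * V) (x : ℕ) :
    ((((reL u c).getD x 0 : ℤ) : ℂ) + ((imL u c).getD x 0 : ℤ) * Complex.I) / 2 ^ p.length =
      if x < V then cval p.length u.length c x else 0 := by
  unfold reL imL
  rw [ev_eq, od_eq, hc, Nat.mul_div_cancel_left _ (by omega : 0 < 2)]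
  split_ifs with h
  · simp [List.getD_eq_getElem?_getD, h, cval, toC]
  · simp [List.getD_eq_getElem?_getD, h]

theorem mulC_spec {p u : List Unit} {c d : List ℕ} {V : ℕ} (hc : c.length = 2 * V)
    (hd : d.length = 2 * V) (a b : ℕ → ℂ) (R η R2 κ : ℝ) (hη : 0 ≤ η) (hηR : η ≤ R)
    (ha : ∀ e < V, ‖cval p.length u.length c e - a e‖ ≤ η ∧ ‖a e‖ ≤ R)
    (hb : ∀ e < V, ‖cval p.length u.length d e - b e‖ ≤ η ∧ ‖b e‖ ≤ R)
    (h1 : 2 * V * (R * R) ≤ R2) (h2 : 2 * V * (3 * η * R) + 2 / 2 ^ p.length ≤ κ) (h3 : κ ≤ R2)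
    (h4 : R2 * 2 ^ (p.length + 2) ≤ 2 ^ (2 * u.length)) :
    ((mulC (p, u) (c, d)).length = 2 * (2 * V) ∧ ∀ x ∈ mulC (p, u) (c, d), x < MM u.length) ∧
      ∀ e < 2 * V, ‖cval p.length u.length (mulC (p, u) (c, d)) e - ∑ x ∈ Finset.range (e + 1),
          (if x < V then a x else 0) * (if e - x < V then b (e - x) else 0)‖ ≤ κ ∧
        ‖∑ x ∈ Finset.range (e + 1),
          (if x < V then a x else 0) * (if e - x < V then b (e - x) else 0)‖ ≤ R2 := by
  have hl := length_prL (u := u) hc hd
  have hR : 0 ≤ R := hη.trans hηR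
  have bd : ∀ e < 2 * V, ‖∑ x ∈ Finset.range (e + 1),
      (if x < V then a x else 0) * (if e - x < V then b (e - x) else 0)‖ ≤ R2 := by
    intro e he
    refine (norm_sum_le_of_le _ (n := fun _ => R * R) (fun x _ => ?_)).trans ?_
    · rw [norm_mul]
      refine mul_le_mul ?_ ?_ (norm_nonneg _) hR
      · split_ifs with h
        · exact (ha x h).2
        · simpa using hR
      · split_ifs with h
        · exact (hb _ h).2
        · simpa using hR
    · rw [Finset.sum_const, Finset.card_range, nsmul_eq_mul]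
      refine le_trans (mul_le_mul_of_nonneg_right ?_ (by positivity)) h1
      exact_mod_cast he
  have key : ∀ e (he : e < (prL u c d).length),
      ‖toC p.length ((prL u c d)[e].1 / 2 ^ p.length, (prL u c d)[e].2 / 2 ^ p.length) -
        ∑ x ∈ Finset.range (e + 1),
          (if x < V then a x else 0) * (if e - x < V then b (e - x) else 0)‖ ≤ κ := by
    intro e he
    have e1 : (((prL u c d)[e].1 : ℂ) + (prL u c d)[e].2 * Complex.I) / (2 ^ p.length * 2 ^ p.length) =
        ∑ x ∈ Finset.range (e + 1), (if x < V then cval p.length u.length c x else 0) *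
          (if e - x < V then cval p.length u.length d (e - x) else 0) := by
      simp only [← ri_eq hc, ← ri_eq hd, prL, pmul, List.getElem_zip, List.getElem_zipWith,
        List.getElem_map, List.getElem_range]
      push_cast
      rw [← Finset.sum_sub_distrib, ← Finset.sum_add_distrib, Finset.sum_mul,
        ← Finset.sum_add_distrib, Finset.sum_div]
      refine Finset.sum_congr rfl (fun x _ => ?_)
      field_simp
      linear_combination (-(((imL u c).getD x 0 : ℤ) : ℂ) * ((imL u d).getD (e - x) 0 : ℤ)) *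
        Complex.I_sq
    have e2 := toC_shift p.length (prL u c d)[e].1 (prL u c d)[e].2
    rw [e1] at e2
    refine (norm_sub_le_norm_sub_add_norm_sub _ _ _).trans ((add_le_add e2 ?_).trans
      (by rw [add_comm]; exact h2))
    rw [← Finset.sum_sub_distrib]
    refine (norm_sum_le_of_le _ (n := fun _ => 3 * η * R) (fun x _ => ?_)).trans ?_
    · split_ifs with k1 k2 k2
      · obtain ⟨b1, b2⟩ := ha x k1
        obtain ⟨b3, b4⟩ := hb _ k2
        generalize cval p.length u.length c x = F at *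
        generalize cval p.length u.length d (e - x) = G at *
        have : F * G - a x * b (e - x) = (F - a x) * (G - b (e - x)) + (F - a x) * b (e - x) +
          a x * (G - b (e - x)) := by ring
        rw [this]
        refine (norm_add₃_le).trans ?_
        rw [norm_mul, norm_mul, norm_mul]
        have := mul_le_mul b1 (b3.trans hηR) (norm_nonneg _) hη
        have := mul_le_mul b1 b4 (norm_nonneg _) hη
        have := mul_le_mul b2 b3 (norm_nonneg _) hR
        linarith
      all_goals simp; positivity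
    · rw [Finset.sum_const, Finset.card_range, nsmul_eq_mul]
      refine mul_le_mul_of_nonneg_right ?_ (by positivity)
      rw [hl] at he
      exact_mod_cast he
  have sm : ∀ e (he : e < (prL u c d).length),
      2 * |(prL u c d)[e].1 / 2 ^ p.length| < MM u.length ∧
      2 * |(prL u c d)[e].2 / 2 ^ p.length| < MM u.length := by
    intro e he
    have b1 := key e he
    have b2 := bd e (hl ▸ he)
    have b3 := abs_le_toC p.length ((prL u c d)[e].1 / 2 ^ p.length, (prL u c d)[e].2 / 2 ^ p.length)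
    have b4 := (norm_le_norm_sub_add _ _).trans (add_le_add b1 b2)
    have b5 := mul_le_mul_of_nonneg_right b4 (show (0 : ℝ) ≤ 2 ^ p.length by positivity)
    rw [pow_add] at h4
    have hP : (0 : ℝ) < 2 ^ p.length := by positivity
    have b6 : ∀ z : ℤ, (|z| : ℝ) ≤ (κ + R2) * 2 ^ p.length → 2 * |z| < MM u.length := by
      intro z hz
      have : (2 : ℝ) * |(z : ℝ)| < 2 ^ (2 * u.length) + 1 := by nlinarith
      unfold MM
      exact_mod_cast this
    exact ⟨b6 _ (b3.1.trans b5), b6 _ (b3.2.trans b5)⟩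
  refine ⟨⟨by rw [mulC, il_length, hl], fun x hx => ?_⟩, fun e he => ⟨?_, bd e he⟩⟩
  · simp only [mulC, List.mem_flatMap, List.mem_cons, List.not_mem_nil, or_false] at hx
    obtain ⟨y, hy, hx⟩ := hx
    obtain ⟨e, he, rfl⟩ := List.getElem_of_mem hy
    rcases hx with rfl | rfl
    · exact (encZ_spec (sm e he).1).1
    · exact (encZ_spec (sm e he).2).1
  · have he' : e < (prL u c d).length := hl ▸ he
    unfold cval mulC
    rw [(il_getD _ _ _ e).1, (il_getD _ _ _ e).2, List.getD_eq_getElem _ _ (by simpa using he'),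
      List.getD_eq_getElem _ _ (by simpa using he'), List.getElem_map, List.getElem_map,
      (encZ_spec (sm e he').1).2, (encZ_spec (sm e he').2).2]
    exact key e he'

end Crest.Agent.H9.IM.Cv
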