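import Crest.Agent.H3.IMConv1

set_option autoImplicit false
set_option linter.unusedSectionVars false
set_option linter.unusedVariables false
set_option linter.unusedSimpArgs false

/-! Convolution: assembly. -/

namespace Crest.Agent.H9.IM.Cv
open Crest.Agent.H3.Ptime

abbrev CI := (TQ × List Unit) × Arr × Arr

/-- the hypotheses on the input that do not mention the time -/
def Pre (c V : ℕ) (x : CI) : Prop :=
  TP x.1.1 ∧ tN x.1.1 ≤ 4 * tM x.1.1 ∧ x.2.1.length = tM x.1.1 ∧ x.2.2.length = tM x.1.1 ∧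
    Bd V x.1.2.length x.2.1 ∧ Bd V x.1.2.length x.2.2 ∧
    c * (Nat.log 2 (tN x.1.1) + 1) ^ 2 + V.size ≤ x.1.2.length

def CS (c k : ℕ) (γ : ℝ) (x : CI) (T : ℕ) : Prop :=
  ∃ V Λ : ℕ, Pre c V x ∧ sz x.1 ≤ Λ ∧ tN x.1.1 ≤ 2 ^ Λ ∧ 2 ≤ Λ ∧
    (tN x.1.1 : ℝ) * (V * (x.1.2.length + 1 : ℝ) ^ (1 + gam) * (tX x.1.1 + 1) + (Λ : ℝ) ^ k +
      ((V + 1 : ℝ) * (x.1.2.length + 1)) ^ (1 + γ)) + ((x.1.1.1 + 1 : ℝ) * Λ) ^ k ≤ T

theorem tX_nonneg (q : TQ) : 0 ≤ tX q := by unfold tX; positivity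

theorem tM_le {q : TQ} (h : TP q) : 0 < tM q ∧ tM q ≤ tN q := by
  obtain ⟨B, s, h1, h2, -, -, -, -, -, h3, -⟩ := h
  unfold tM tN tK
  refine ⟨Nat.mul_pos (by rw [h2]; positivity) (List.prod_pos (fun Q hQ => (h3 Q hQ).1)),
    Nat.mul_le_mul_left _ (List.prod_le_pow_card _ _ (fun Q hQ => (h3 Q hQ).2))⟩

theorem gam_le : gam ≤ 1 := by
  unfold gam
  rw [div_le_one (by positivity)]
  exact one_le_pow₀ (by norm_num)

theorem bud {N N' V V' β w Λ k k' D T : ℕ} {X Z : ℝ} (hX : 0 ≤ X) (hZ : 0 ≤ Z) (hN : 1 ≤ N)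
    (hN' : N' ≤ N) (hV : V' ≤ 4 * V) (hw : w + 1 ≤ 8 * (β + 1)) (hk : k' ≤ k) (hΛ : 1 ≤ Λ)
    (h : (N : ℝ) * (V * (β + 1 : ℝ) ^ (1 + gam) * (X + 1) + (Λ : ℝ) ^ k + Z) +
      ((D + 1 : ℝ) * Λ) ^ k ≤ T) :
    cst N' V' w X (8 * Λ) k' + ((D + 1 : ℝ) * (8 * Λ : ℕ)) ^ k' ≤ (512 * 8 ^ k * T : ℕ) := by
  have g0 := gam_pos
  have g1 := gam_le
  have hΛ' : (1 : ℝ) ≤ Λ := by exact_mod_cast hΛ
  have h8 : (1 : ℝ) ≤ 8 ^ k := one_le_pow₀ (by norm_num)
  have a1 : (w + 1 : ℝ) ^ (1 + gam) ≤ 64 * (β + 1 : ℝ) ^ (1 + gam) := by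
    have b1 : (w + 1 : ℝ) ≤ 8 * (β + 1) := by exact_mod_cast hw
    refine (Real.rpow_le_rpow (by positivity) b1 (by linarith)).trans ?_
    rw [Real.mul_rpow (by norm_num) (by positivity)]
    refine mul_le_mul_of_nonneg_right ?_ (by positivity)
    have : (8 : ℝ) ^ (1 + gam) ≤ 8 ^ (2 : ℝ) :=
      Real.rpow_le_rpow_of_exponent_le (by norm_num) (by linarith)
    norm_num at this
    exact this
  have a2 : ((8 * Λ : ℕ) : ℝ) ^ k' ≤ 8 ^ k * (Λ : ℝ) ^ k := by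
    push_cast
    rw [← mul_pow]
    exact pow_le_pow_right₀ (by linarith) hk
  have a3 : ((D + 1 : ℝ) * (8 * Λ : ℕ)) ^ k' ≤ 8 ^ k * ((D + 1 : ℝ) * Λ) ^ k := by
    push_cast
    rw [← mul_pow, mul_left_comm]
    have : (0 : ℝ) ≤ D := by positivity
    exact pow_le_pow_right₀ (by nlinarith) hk
  have a4 : (N' + 1 : ℝ) ≤ 2 * N := by exact_mod_cast (show N' + 1 ≤ 2 * N by omega)
  have a5 : (V' : ℝ) ≤ 4 * V := by exact_mod_cast hV
  have a6 : V' * (w + 1 : ℝ) ^ (1 + gam) * (X + 1) ≤ 256 * (V * (β + 1 : ℝ) ^ (1 + gam) * (X + 1)) := by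
    have := mul_le_mul a5 a1 (by positivity) (by positivity)
    have := mul_le_mul_of_nonneg_right this (show 0 ≤ X + 1 by linarith)
    linarith
  unfold cst
  have p1 : (0 : ℝ) ≤ V * (β + 1 : ℝ) ^ (1 + gam) * (X + 1) := by positivity
  have p2 : (0 : ℝ) ≤ (Λ : ℝ) ^ k := by positivity
  have p3 : (0 : ℝ) ≤ ((D + 1 : ℝ) * Λ) ^ k := by positivity
  have p4 : (0 : ℝ) ≤ ((8 * Λ : ℕ) : ℝ) ^ k' := by positivity
  have p5 : (0 : ℝ) ≤ V' * (w + 1 : ℝ) ^ (1 + gam) * (X + 1) := by positivity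
  generalize V * (β + 1 : ℝ) ^ (1 + gam) * (X + 1) = A at *
  generalize V' * (w + 1 : ℝ) ^ (1 + gam) * (X + 1) = A' at *
  generalize ((8 * Λ : ℕ) : ℝ) ^ k' = L' at *
  generalize ((D + 1 : ℝ) * (8 * Λ : ℕ)) ^ k' = Y' at *
  generalize ((D + 1 : ℝ) * Λ) ^ k = Y at *
  generalize (Λ : ℝ) ^ k = L at *
  push_cast
  generalize (8 : ℝ) ^ k = E at *
  have c1 : A' + L' ≤ 256 * E * (A + L + Z) := by nlinarith
  have c2 := mul_le_mul a4 c1 (by positivity) (by positivity)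
  have c3 := mul_le_mul_of_nonneg_left h (show 0 ≤ 512 * E by positivity)
  nlinarith

theorem bud1 {N N' V V' β w Λ k k' D T : ℕ} {X Z : ℝ} (hX : 0 ≤ X) (hZ : 0 ≤ Z) (hN : 1 ≤ N)
    (hN' : N' ≤ N) (hV : V' ≤ 4 * V) (hw : w + 1 ≤ 8 * (β + 1)) (hk : k' ≤ k) (hΛ : 1 ≤ Λ)
    (h : (N : ℝ) * (V * (β + 1 : ℝ) ^ (1 + gam) * (X + 1) + (Λ : ℝ) ^ k + Z) +
      ((D + 1 : ℝ) * Λ) ^ k ≤ T) :
    cst N' V' w X (8 * Λ) k' ≤ (512 * 8 ^ k * T : ℕ) :=
  le_trans (le_add_of_nonneg_right (by positivity)) (bud hX hZ hN hN' hV hw hk hΛ h)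

theorem lay_pos (L : LayStmt) {q : TQ} (h : TP q) (a : ℕ → ℂ) {m : ℕ} (hm : m < tM q) :
    lay q a (pos q m) = a m := by
  unfold lay
  rw [Finset.sum_eq_single m]
  · simp
  · intro m' hm' hne
    rw [if_neg (fun e => hne ((L.1 q h m' (Finset.mem_range.1 hm')).2 m hm e))]
  · intro h; exact absurd (Finset.mem_range.2 hm) h

theorem lay_out {q : TQ} (a : ℕ → ℂ) {i : ℕ} (h : ∀ m < tM q, pos q m ≠ i) : lay q a i = 0 :=
  Finset.sum_eq_zero (fun m hm => if_neg (h m (Finset.mem_range.1 hm)))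

theorem getD_map_lt {α β : Type} (f : α → β) (l : List α) (d : β) (d' : α) {i : ℕ}
    (h : i < l.length) : (l.map f).getD i d = f (l.getD i d') := by
  simp [List.getD_eq_getElem?_getD, h]

theorem getD_mem {α : Type} (l : List α) (d : α) {i : ℕ} (h : i < l.length) : l.getD i d ∈ l := by
  rw [List.getD_eq_getElem _ _ h]; exact List.getElem_mem h

def pp (b : List Unit) : List Unit := b ++ b ++ b
def uu (b : List Unit) : List Unit := b ++ b ++ b ++ b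

theorem length_pp (b : List Unit) : (pp b).length = 3 * b.length := by simp [pp]; omega
theorem length_uu (b : List Unit) : (uu b).length = 4 * b.length := by simp [uu]; omega

/-- the column `e` of an array -/
def col (A : Arr) (e : ℕ) (m : ℕ) : ℂ := ((A.getD m []).getD e 0 : ℕ)

theorem col_zero {V w : ℕ} {A : Arr} (h : Bd V w A) {e : ℕ} (he : ¬ e < V) : col A e = 0 := by
  funext m
  unfold col
  by_cases hm : m < A.length
  · rw [List.getD_eq_default _ _ (by rw [(h _ (getD_mem A [] hm)).1]; omega)]; simp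
  · rw [List.getD_eq_default A _ (by omega)]; simp

theorem cc_mapS {α ε β γ : Type} [Enc α] [Enc ε] [Enc β] [Enc γ] (g : ε → β → γ)
    {S' : ε × β → ℕ → Prop} {S : α → ℕ → Prop} (hg : CC (fun y : ε × β => g y.1 y.2) S')
    {e : α → ε} {l : α → List β} (he : CC e S) (hl : CC l S) (K : ℕ)
    (h : ∀ a T, S a T → ∃ t, (∀ x ∈ l a, S' (e a, x) t) ∧ (l a).length * (t + sz (e a)) ≤ K * T) :
    CC (fun a => (l a).map (g (e a))) S :=
  hg.mapCU.comp3 (he.pair hl) K (fun a T hT => by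
    obtain ⟨t, h1, h2⟩ := h a T hT
    exact ⟨K * T, ⟨t, h1, h2⟩, Nat.mul_le_mul_left _ (by omega)⟩)

theorem convStmt (N : NumStmt) (C : CellStmt) (L : LayStmt) (Tr : TransStmt) : ConvStmt := by
  obtain ⟨FW, IV, c0, ⟨fw, kf, hfw, sfw⟩, ⟨iv, ki, hiv, siv⟩, hex⟩ := Tr
  obtain ⟨lf, hlf, slf⟩ := L.2.1
  obtain ⟨kl, clf, blf⟩ := AC_iff.1 hlf
  obtain ⟨kp, cpl, -⟩ := AC_iff.1 L.2.2
  obtain ⟨k, hk⟩ : ∃ k, k = kf + ki + kl + kp + 1 := ⟨_, rfl⟩
  refine ⟨4 * c0 + 5, k, fun γ hγ => ?_⟩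
  -- the stages
  obtain ⟨s2, hs2⟩ : ∃ s2 : TQ × List Unit → Arr → Arr,
    s2 = fun y A => (lf y.1 A).map (encC (pp y.2)) := ⟨_, rfl⟩
  obtain ⟨s3, hs3⟩ : ∃ s3 : TQ × List Unit → Arr → Arr,
    s3 = fun y A => fw (y.1, pp y.2, uu y.2) (s2 y A) := ⟨_, rfl⟩
  obtain ⟨s4, hs4⟩ : ∃ s4 : CI → Arr,
    s4 = fun x => ((s3 x.1 x.2.1).zip (s3 x.1 x.2.2)).map (mulC (pp x.1.2, uu x.1.2)) := ⟨_, rfl⟩
  obtain ⟨s5, hs5⟩ : ∃ s5 : CI → Arr,
    s5 = fun x => iv (x.1.1, pp x.1.2, uu x.1.2) (s4 x) := ⟨_, rfl⟩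
  obtain ⟨Γ, hΓ⟩ : ∃ Γ : TQ → ℕ, Γ = fun q => c0 * (Nat.log 2 (tN q) + 1) ^ 2 := ⟨_, rfl⟩
  have hΓ' : ∀ q, c0 * (Nat.log 2 (tN q) + 1) ^ 2 = Γ q := fun q => by rw [hΓ]
  simp only [hΓ'] at hfw sfw hiv siv
  have num : ∀ {V : ℕ} {x : CI}, Pre (4 * c0 + 5) V x → 4 * Γ x.1.1 + 5 + V.size ≤ x.1.2.length := by
    rintro V x ⟨-, -, -, -, -, -, h⟩
    have : 1 ≤ (Nat.log 2 (tN x.1.1) + 1) ^ 2 := Nat.one_le_pow _ _ (by omega)
    rw [← hΓ']; nlinarith
  have f2 : ∀ (q : TQ) (b : List Unit) (A : Arr) (V : ℕ), TP q → tN q ≤ 4 * tM q → A.length = tM q →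
      Bd V b.length A → 1 ≤ b.length → (s2 (q, b) A).length = tN q ∧ Res (uu b).length V (s2 (q, b) A) ∧
      ∀ i < tN q, ∀ e, cval (pp b).length (uu b).length ((s2 (q, b) A).getD i []) e =
        lay q (col A e) i ∧ ‖lay q (col A e) i‖ ≤ 2 ^ b.length := by
    intro q b A V h1 h2 h3 h4 hb
    obtain ⟨a1, a2, a3⟩ := slf q A h1 h3
    have a4 := (blf q V _ A ⟨h1, h3, h2⟩ h4).1
    have hh : b.length + (pp b).length + 1 ≤ 2 * (uu b).length := by
      rw [length_pp, length_uu]; omega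
    subst hs2
    refine ⟨by simp [a1], fun c hc => ?_, fun i hi e => ?_⟩
    · obtain ⟨d, hd, rfl⟩ := List.mem_map.1 hc
      exact (encC_spec (a4 d hd) hh).1
    · have hm := a4 _ (getD_mem (lf q A) [] (a1 ▸ hi))
      have e1 : lay q (col A e) i = (((lf q A).getD i []).getD e 0 : ℕ) := by
        by_cases hx : ∃ m < tM q, pos q m = i
        · obtain ⟨m, hm', rfl⟩ := hx
          rw [lay_pos L h1 _ hm', a2 m hm']; rfl
        · have hx' : ∀ m < tM q, pos q m ≠ i := fun m hm e => hx ⟨m, hm, e⟩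
          rw [lay_out _ hx', a3 i hi hx']
          simp only [zc, List.getD_eq_getElem?_getD, List.getElem?_map]
          cases (getElem? (A.headD []) e) <;> simp
      simp only
      rw [getD_map_lt _ _ _ [] (a1 ▸ hi), (encC_spec hm hh).2, e1]
      refine ⟨rfl, ?_⟩
      rw [Complex.norm_natCast]
      exact_mod_cast (getD_lt (Nat.two_pow_pos _) hm.2 e).le
  have f3 : ∀ (q : TQ) (b : List Unit) (A : Arr) (V : ℕ), TP q → tN q ≤ 4 * tM q → A.length = tM q →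
      Bd V b.length A → 4 * Γ q + 5 ≤ b.length → (s3 (q, b) A).length = tN q ∧
      Res (uu b).length V (s3 (q, b) A) ∧ ∀ i < tN q, ∀ e < V,
        ‖cval (pp b).length (uu b).length ((s3 (q, b) A).getD i []) e - FW q (lay q (col A e)) i‖ ≤
          Γ q * (2 ^ b.length * 2 ^ Γ q) / 2 ^ (pp b).length ∧
        ‖FW q (lay q (col A e)) i‖ ≤ 2 ^ b.length * 2 ^ Γ q := by
    intro q b A V h1 h2 h3 h4 hb
    obtain ⟨a1, a2, a3⟩ := f2 q b A V h1 h2 h3 h4 (by omega)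
    obtain ⟨b1, b2, b3⟩ := sfw q (pp b) (uu b) (s2 (q, b) A) V ⟨h1, a1⟩ a2
      (by rw [length_pp, length_uu]; omega)
    obtain ⟨b4, b5⟩ := b3 (2 ^ b.length) 0 (fun e => lay q (col A e)) (one_le_pow₀ (by norm_num))
      le_rfl (by
        have : Γ q ≤ 2 ^ (pp b).length :=
          (Nat.lt_two_pow_self).le.trans (Nat.pow_le_pow_right (by omega) (by rw [length_pp]; omega))
        rw [zero_add]; exact_mod_cast this)
      (by rw [← pow_add]; exact pow_le_pow_right₀ (by norm_num) (by rw [length_pp, length_uu]; omega))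
      (fun e _ i hi => (a3 i (a1 ▸ hi) e).2)
      (fun i hi e _ => by rw [(a3 i (a1 ▸ hi) e).1]; simp)
    subst hs3
    refine ⟨b1.trans a1, b2, fun i hi e he => ⟨?_, b5 e he i (a1 ▸ hi)⟩⟩
    simpa using b4 i (by rw [b1, a1]; exact hi) e he
  obtain ⟨h, hh⟩ : ∃ h : ℕ → CI → ℕ → ℕ → ℂ, h = fun V x e i => ∑ y ∈ Finset.range (e + 1),
    (if y < V then FW x.1.1 (lay x.1.1 (col x.2.1 y)) i else 0) *
      (if e - y < V then FW x.1.1 (lay x.1.1 (col x.2.2 (e - y))) i else 0) := ⟨_, rfl⟩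
  have f4 : ∀ (V : ℕ) (x : CI), Pre (4 * c0 + 5) V x → (s4 x).length = tN x.1.1 ∧
      Res (uu x.1.2).length (2 * V) (s4 x) ∧ ∀ i < tN x.1.1, ∀ e < 2 * V,
        ‖cval (pp x.1.2).length (uu x.1.2).length ((s4 x).getD i []) e - h V x e i‖ ≤
          (3 * Γ x.1.1 + 2) * 2 ^ (V.size + 1 + 2 * x.1.2.length + 2 * Γ x.1.1) / 2 ^ (pp x.1.2).length ∧
        ‖h V x e i‖ ≤ 2 ^ (V.size + 1 + 2 * x.1.2.length + 2 * Γ x.1.1) := by
    rintro V ⟨⟨q, b⟩, A, B⟩ hP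
    have hn := num hP
    obtain ⟨h1, h2, h3, h4, h5, h6, -⟩ := hP
    simp only at h1 h2 h3 h4 h5 h6 hn ⊢
    obtain ⟨a1, a2, a3⟩ := f3 q b A V h1 h2 h3 h5 (by omega)
    obtain ⟨b1, b2, b3⟩ := f3 q b B V h1 h2 h4 h6 (by omega)
    have hl : ((s3 (q, b) A).zip (s3 (q, b) B)).length = tN q := by simp [a1, b1]
    have key : ∀ i < tN q, _ := fun i hi => mulC_spec (p := pp b) (u := uu b)
      (a2 _ (getD_mem _ [] (a1 ▸ hi))).1 (b2 _ (getD_mem _ [] (b1 ▸ hi))).1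
      (fun e => FW q (lay q (col A e)) i) (fun e => FW q (lay q (col B e)) i)
      (2 ^ b.length * 2 ^ Γ q) (Γ q * (2 ^ b.length * 2 ^ Γ q) / 2 ^ (pp b).length)
      (2 ^ (V.size + 1 + 2 * b.length + 2 * Γ q))
      ((3 * Γ q + 2) * 2 ^ (V.size + 1 + 2 * b.length + 2 * Γ q) / 2 ^ (pp b).length)
      (by positivity) ?_ (a3 i hi) (b3 i hi) ?_ ?_ ?_ ?_
    · have e1 : ∀ i < tN q, (s4 ((q, b), A, B)).getD i [] =
          mulC (pp b, uu b) ((s3 (q, b) A).getD i [], (s3 (q, b) B).getD i []) := by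
        intro i hi
        subst hs4
        simp only
        rw [getD_map_lt _ _ _ ([], []) (hl ▸ hi), List.getD_eq_getElem _ _ (hl ▸ hi),
          List.getD_eq_getElem _ _ (a1 ▸ hi), List.getD_eq_getElem _ _ (b1 ▸ hi), List.getElem_zip]
      have e2 : (s4 ((q, b), A, B)).length = tN q := by subst hs4; simpa using hl
      refine ⟨e2, fun c hc => ?_, fun i hi e he => ?_⟩
      · obtain ⟨i, hi, rfl⟩ := List.getElem_of_mem hc
        rw [← List.getD_eq_getElem _ [] hi, e1 i (e2 ▸ hi)]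
        exact (key i (e2 ▸ hi)).1
      · rw [e1 i hi, hh]
        exact (key i hi).2 e he
    all_goals
      have v1 : (2 * V : ℝ) ≤ 2 ^ (V.size + 1) := by
        have := Nat.lt_size_self V
        exact_mod_cast (show 2 * V ≤ 2 ^ (V.size + 1) by rw [pow_succ]; omega)
      have v2 : (3 * Γ q + 2 : ℝ) ≤ 2 ^ (pp b).length := by
        have : b.length ≤ 2 ^ (pp b).length :=
          (Nat.lt_two_pow_self).le.trans (Nat.pow_le_pow_right (by omega) (by rw [length_pp]; omega))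
        exact_mod_cast (show 3 * Γ q + 2 ≤ 2 ^ (pp b).length by omega)
      have v3 : (2 : ℝ) ^ (V.size + 1 + 2 * b.length + 2 * Γ q) =
          2 ^ (V.size + 1) * ((2 ^ b.length * 2 ^ Γ q) * (2 ^ b.length * 2 ^ Γ q)) := by ring
      have v4 : (0 : ℝ) ≤ Γ q := by positivity
      have v5 : (0 : ℝ) < 2 ^ (pp b).length := by positivity
    · rw [div_le_iff₀ v5, mul_comm]
      exact mul_le_mul_of_nonneg_left (by linarith) (by positivity)
    · rw [v3]; exact mul_le_mul_of_nonneg_right v1 (by positivity)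
    · have v6 : (1 : ℝ) ≤ 2 ^ (V.size + 1 + 2 * b.length + 2 * Γ q) := one_le_pow₀ (by norm_num)
      have v7 := mul_le_mul_of_nonneg_right v1
        (show (0 : ℝ) ≤ (2 ^ b.length * 2 ^ Γ q) * (2 ^ b.length * 2 ^ Γ q) by positivity)
      rw [← v3] at v7
      generalize (2 : ℝ) ^ (V.size + 1 + 2 * b.length + 2 * Γ q) = R2 at *
      generalize (2 : ℝ) ^ b.length * 2 ^ Γ q = R at *
      rw [le_div_iff₀ v5]
      have : (2 * V * (3 * (Γ q * R / 2 ^ (pp b).length) * R) + 2 / 2 ^ (pp b).length) *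
          2 ^ (pp b).length = 3 * Γ q * (2 * V * (R * R)) + 2 := by field_simp
      rw [this]
      nlinarith
    · rw [div_le_iff₀ v5, mul_comm]
      exact mul_le_mul_of_nonneg_left v2 (by positivity)
    · rw [← pow_add]
      exact pow_le_pow_right₀ (by norm_num) (by rw [length_pp, length_uu]; omega)
  have f5 : ∀ (V : ℕ) (x : CI), Pre (4 * c0 + 5) V x → (s5 x).length = tN x.1.1 ∧
      Res (uu x.1.2).length (2 * V) (s5 x) ∧ ∀ i < tN x.1.1, ∀ e < 2 * V,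
        ‖cval (pp x.1.2).length (uu x.1.2).length ((s5 x).getD i []) e - IV x.1.1 (h V x e) i‖ ≤
          1 / 4 := by
    rintro V ⟨⟨q, b⟩, A, B⟩ hP
    have hn := num hP
    obtain ⟨a1, a2, a3⟩ := f4 V _ hP
    simp only at a1 a2 a3 hn ⊢
    obtain ⟨b1, b2, b3⟩ := siv q (pp b) (uu b) _ (2 * V) ⟨hP.1, a1⟩ a2
      (by rw [length_pp, length_uu]; omega)
    obtain ⟨b4, -⟩ := b3 (2 ^ (V.size + 1 + 2 * b.length + 2 * Γ q)) (3 * Γ q + 2)
      (h V ((q, b), A, B)) (one_le_pow₀ (by norm_num)) (by positivity) (by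
        have : b.length ≤ 2 ^ (pp b).length :=
          (Nat.lt_two_pow_self).le.trans (Nat.pow_le_pow_right (by omega) (by rw [length_pp]; omega))
        exact_mod_cast (show 3 * Γ q + 2 + Γ q ≤ 2 ^ (pp b).length by omega))
      (by rw [← pow_add]; exact pow_le_pow_right₀ (by norm_num) (by rw [length_pp, length_uu]; omega))
      (fun e he i hi => (a3 i (a1 ▸ hi) e he).2) (fun i hi e he => (a3 i (a1 ▸ hi) e he).1)
    subst hs5
    refine ⟨b1.trans a1, b2, fun i hi e he => (b4 i (by rw [b1, a1]; exact hi) e he).trans ?_⟩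
    rw [div_le_div_iff₀ (by positivity) (by norm_num)]
    have v1 : (3 * Γ q + 2 + Γ q : ℝ) ≤ 2 ^ (Γ q + 2) := by
      have := Nat.lt_two_pow_self (n := Γ q)
      exact_mod_cast (show 3 * Γ q + 2 + Γ q ≤ 2 ^ (Γ q + 2) by rw [pow_add]; omega)
    calc _ ≤ 2 ^ (Γ q + 2) * (2 ^ (V.size + 1 + 2 * b.length + 2 * Γ q) * 2 ^ Γ q) * (4 : ℝ) := by
          gcongr
      _ = 2 ^ (Γ q + 2 + (V.size + 1 + 2 * b.length + 2 * Γ q) + Γ q + 2) := by ring
      _ ≤ _ := by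
          rw [one_mul]; exact pow_le_pow_right₀ (by norm_num) (by rw [length_pp]; omega)
  have f6 : ∀ (V : ℕ) (x : CI), Pre (4 * c0 + 5) V x → ∀ m < tM x.1.1, ∀ e,
      IV x.1.1 (h V x e) (pos x.1.1 m) = ((∑ y ∈ Finset.range (e + 1), cconv (tM x.1.1)
        (fun i => (x.2.1.getD i []).getD y 0) (fun i => (x.2.2.getD i []).getD (e - y) 0) m : ℕ) : ℂ) := by
    rintro V ⟨⟨q, b⟩, A, B⟩ ⟨h1, -, -, -, h5, h6, -⟩ m hm e
    simp only at h1 h5 h6 hm ⊢
    obtain ⟨x1, x2⟩ := hex q h1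
    have hi := (L.1 q h1 m hm).1
    have z : IV q 0 (pos q m) = 0 := by simpa using x1 0 0 _ hi
    have sm : ∀ (s : Finset ℕ) (g : ℕ → ℕ → ℂ),
        IV q (fun i => ∑ y ∈ s, g y i) (pos q m) = ∑ y ∈ s, IV q (g y) (pos q m) := by
      intro s g
      induction s using Finset.induction_on with
      | empty => exact (congrArg (fun g => IV q g (pos q m)) (funext fun i => by simp)).trans (z.trans (by simp))
      | insert y s hy ih =>
        rw [Finset.sum_insert hy, ← ih, ← x1 _ _ _ hi]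
        congr 1
        funext i
        rw [Finset.sum_insert hy]; rfl
    subst hh
    simp only
    rw [sm]
    push_cast
    refine Finset.sum_congr rfl (fun y _ => ?_)
    have e1 : ((cconv (tM q) (fun i => (A.getD i []).getD y 0)
        (fun i => (B.getD i []).getD (e - y) 0) m : ℕ) : ℂ) =
        cconv (tM q) (col A y) (col B (e - y)) m := by
      simp [cconv, col]
    rw [e1]
    by_cases k1 : y < V
    · by_cases k2 : e - y < V
      · simp only [k1, k2, if_true]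
        rw [x2 _ _ _ hi, lay_pos L h1 _ hm]
      · simp only [k2, if_false, mul_zero]
        rw [col_zero h6 k2]
        exact z.trans (by simp [cconv])
    · simp only [k1, if_false, zero_mul]
      rw [col_zero h5 k1]
      exact z.trans (by simp [cconv])
  have fin : ∀ (V : ℕ) (x : CI), Pre (4 * c0 + 5) V x →
      (pullN (tM x.1.1) (pos x.1.1) (s5 x)).map (rndC (pp x.1.2, uu x.1.2)) = convA x.2.1 x.2.2 := by
    intro V x hP
    obtain ⟨a1, a2, a3⟩ := f5 V x hP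
    have hV : (x.2.1.headD []).length = V := by
      have := (tM_le hP.1).1
      rw [← hP.2.2.1] at this
      have h5 := hP.2.2.2.2.1
      generalize x.2.1 = A at *
      cases A with
      | nil => simp at this
      | cons a A => exact (h5 a (by simp)).1
    unfold pullN convA
    rw [List.map_map, hP.2.2.1, hV]
    refine List.map_congr_left (fun m hm => ?_)
    have hm' := List.mem_range.1 hm
    have hi := (L.1 _ hP.1 m hm').1
    simp only [Function.comp]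
    rw [List.getD_eq_getElem _ _ (a1 ▸ hi), ← List.getD_eq_getElem _ [] (a1 ▸ hi)]
    refine rndC_spec (a2 _ (getD_mem _ [] (a1 ▸ hi))).1 _ (fun e he => ?_)
    rw [← f6 V x hP m hm' e]
    exact a3 _ hi e he
  -- the costs
  have szs : ∀ {x : CI} {Λ : ℕ}, sz x.1 ≤ Λ → sz x.1.1 ≤ Λ ∧ 2 * x.1.2.length + 2 ≤ Λ ∧
      sz (pp x.1.2) = 6 * x.1.2.length + 1 ∧ sz (pp x.1.2, uu x.1.2) = 14 * x.1.2.length + 3 ∧
      sz (x.1.1, pp x.1.2, uu x.1.2) ≤ 8 * Λ := by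
    rintro ⟨⟨q, b⟩, A⟩ Λ h
    have := sz_pos q
    simp only [sz_pair, sz_units, length_pp, length_uu] at h ⊢
    omega
  have p8 : ∀ {n Λ : ℕ}, n ≤ 2 ^ Λ → n ≤ 2 ^ (8 * Λ) := fun h =>
    h.trans (Nat.pow_le_pow_right (by omega) (by omega))
  have cpp : CC (fun x : CI => pp x.1.2) (CS (4 * c0 + 5) k γ) := by unfold pp; fun_prop
  have cuu : CC (fun x : CI => uu x.1.2) (CS (4 * c0 + 5) k γ) := by unfold uu; fun_prop
  have c3 : ∀ sel : CI → Arr, Lin sel → (∀ V x, Pre (4 * c0 + 5) V x → (sel x).length = tM x.1.1 ∧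
      Bd V x.1.2.length (sel x)) → CC (fun x => s3 x.1 (sel x)) (CS (4 * c0 + 5) k γ) := by
    intro sel hsel hs
    have c1 : CC (fun x : CI => lf x.1.1 (sel x)) (CS (4 * c0 + 5) k γ) := by
      refine clf.comp3 (f := fun x : CI => (x.1.1, sel x)) (CC.pair (by fun_prop) (hsel.cc _))
        (512 * 8 ^ k) ?_
      rintro x T ⟨V, Λ, hP, h1, h2, h3, hT⟩
      obtain ⟨z1, z2, -⟩ := szs h1
      obtain ⟨t1, t2⟩ := tM_le hP.1
      obtain ⟨y1, y2⟩ := hs V x hP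
      exact ⟨512 * 8 ^ k * T, ⟨V, x.1.2.length, 8 * Λ, ⟨hP.1, y1, hP.2.1⟩, y2, by simp only; omega,
        by omega, p8 (by simp only; omega), by omega, tX_nonneg _,
        bud1 (tX_nonneg _) (by positivity) (by omega) (by simp only; omega) (by omega) (by omega)
          (by omega) (by omega) hT⟩, Nat.mul_le_mul_left _ (by omega)⟩
    have c2 : CC (fun x : CI => s2 x.1 (sel x)) (CS (4 * c0 + 5) k γ) := by
      subst hs2
      refine cc_mapS encC (cc_encC N) cpp c1 (512 * 8 ^ k) ?_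
      rintro x T ⟨V, Λ, hP, h1, h2, h3, hT⟩
      obtain ⟨z1, z2, z3, -⟩ := szs h1
      obtain ⟨t1, t2⟩ := tM_le hP.1
      obtain ⟨y1, y2⟩ := hs V x hP
      have a1 := (slf _ _ hP.1 y1).1
      have a4 := (blf _ V _ _ ⟨hP.1, y1, hP.2.1⟩ y2).1
      have := cst_nat (tX_nonneg _) (bud1 (N' := tN x.1.1) (V' := 4 * V) (w := 8 * x.1.2.length + 1)
        (k' := 1) (tX_nonneg _) (by positivity) (by omega) le_rfl le_rfl (by omega) (by omega)
        (by omega) hT)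
      refine ⟨V * (6 * x.1.2.length + 1), fun c hc => ?_, le_trans ?_ this⟩
      · simp only [z3, (a4 c hc).1, le_refl]
      · simp only [z3, a1, pow_one]
        exact Nat.mul_le_mul (by omega) (by nlinarith)
    subst hs3
    refine hfw.comp3 (f := fun x : CI => ((x.1.1, pp x.1.2, uu x.1.2), s2 x.1 (sel x)))
      (CC.pair (CC.pair (by fun_prop) (cpp.pair cuu)) c2) (512 * 8 ^ k) ?_
    rintro x T ⟨V, Λ, hP, h1, h2, h3, hT⟩
    obtain ⟨z1, z2, z3, z4, z5⟩ := szs h1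
    obtain ⟨t1, t2⟩ := tM_le hP.1
    obtain ⟨y1, y2⟩ := hs V x hP
    have hn := num hP
    obtain ⟨a1, a2, -⟩ := f2 x.1.1 x.1.2 (sel x) V hP.1 hP.2.1 y1 y2 (by omega)
    exact ⟨512 * 8 ^ k * T, ⟨V, 8 * Λ, ⟨hP.1, a1⟩, a2, by simp only [length_pp, length_uu]; omega,
      z5, p8 (a1 ▸ h2), by omega, tX_nonneg _,
      bud (tX_nonneg _) (by positivity) (by omega) a1.le (by omega)
        (by simp only [length_uu]; omega) (by omega) (by omega) hT⟩, Nat.mul_le_mul_left _ (by omega)⟩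
  have c4 : CC s4 (CS (4 * c0 + 5) k γ) := by
    have c31 := c3 (fun x => x.2.1) (by fun_prop) (fun V x h => ⟨h.2.2.1, h.2.2.2.2.1⟩)
    have c32 := c3 (fun x => x.2.2) (by fun_prop) (fun V x h => ⟨h.2.2.2.1, h.2.2.2.2.2.1⟩)
    rw [hs4]
    refine cc_mapS mulC (cc_mulC N C hγ) (cpp.pair cuu) (c31.zip c32)
      (⌈(8 : ℝ) ^ (1 + γ)⌉₊ + 512 * 8 ^ k) ?_
    rintro x T ⟨V, Λ, hP, h1, h2, h3, hT⟩
    obtain ⟨z1, z2, z3, z4, z5⟩ := szs h1
    obtain ⟨t1, t2⟩ := tM_le hP.1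
    have hn := num hP
    obtain ⟨a1, a2, -⟩ := f3 x.1.1 x.1.2 x.2.1 V hP.1 hP.2.1 hP.2.2.1 hP.2.2.2.2.1 (by omega)
    obtain ⟨b1, b2, -⟩ := f3 x.1.1 x.1.2 x.2.2 V hP.1 hP.2.1 hP.2.2.2.1 hP.2.2.2.2.2.1 (by omega)
    have d1 := cst_nat (tX_nonneg _) (bud1 (N' := tN x.1.1) (V' := 4 * V) (w := 8 * x.1.2.length + 1)
      (k' := 1) (tX_nonneg _) (by positivity) (by omega) le_rfl le_rfl (by omega) (by omega)
      (by omega) hT)
    obtain ⟨Z, hZ⟩ : ∃ Z : ℕ, Z = ⌈((V + 1 : ℝ) * ((2 * (uu x.1.2).length + 1 : ℕ) + 1)) ^ (1 + γ)⌉₊ :=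
      ⟨_, rfl⟩
    have d2 : tN x.1.1 * Z ≤ ⌈(8 : ℝ) ^ (1 + γ)⌉₊ * T + tN x.1.1 := by
      have e1 : ((V + 1 : ℝ) * ((2 * (uu x.1.2).length + 1 : ℕ) + 1)) ^ (1 + γ) ≤
          8 ^ (1 + γ) * ((V + 1 : ℝ) * (x.1.2.length + 1)) ^ (1 + γ) := by
        rw [← Real.mul_rpow (by norm_num) (by positivity)]
        refine Real.rpow_le_rpow (by positivity) ?_ (by linarith)
        rw [length_uu]; push_cast
        have : (0 : ℝ) ≤ V := by positivity
        nlinarith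
      have e2 : (Z : ℝ) ≤ _ := hZ ▸ (Nat.ceil_lt_add_one (by positivity)).le
      have e3 : (tN x.1.1 : ℝ) * ((V + 1 : ℝ) * (x.1.2.length + 1)) ^ (1 + γ) ≤ T := by
        refine le_trans ?_ hT
        refine le_add_of_le_of_nonneg (mul_le_mul_of_nonneg_left (le_add_of_nonneg_left ?_)
          (by positivity)) (by positivity)
        have := tX_nonneg x.1.1
        positivity
      have e4 := Nat.le_ceil ((8 : ℝ) ^ (1 + γ))
      have e5 : (0 : ℝ) ≤ tN x.1.1 := by positivity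
      have e6 := mul_le_mul e4 e3 (by positivity) (by positivity)
      have e7 := mul_le_mul_of_nonneg_left (e2.trans (add_le_add_left e1 1)) e5
      have : (tN x.1.1 : ℝ) * Z ≤ ⌈(8 : ℝ) ^ (1 + γ)⌉₊ * T + tN x.1.1 := by nlinarith
      exact_mod_cast this
    refine ⟨Z + 2 * V * (14 * x.1.2.length + 3), fun y hy => ?_, ?_⟩
    · obtain ⟨m1, m2⟩ := List.of_mem_zip (a := y.1) (b := y.2) hy
      refine ⟨V, (a2 _ m1).1, (b2 _ m2).1, (a2 _ m1).2, (b2 _ m2).2, ?_, ?_, by simp only [z4]; omega⟩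
      · exact (Nat.lt_size_self V).trans_le
          (Nat.pow_le_pow_right (by omega) (by simp only [length_uu]; omega))
      · simp only
        push_cast at hZ ⊢
        exact le_add_of_le_of_nonneg (hZ ▸ Nat.le_ceil _) (by positivity)
    · have : tN x.1.1 * (2 * V * (14 * x.1.2.length + 3) + (14 * x.1.2.length + 3) + 1) ≤
          512 * 8 ^ k * T := le_trans (Nat.mul_le_mul (by omega) (by rw [pow_one]; nlinarith)) d1
      simp only [List.length_zip, z4]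
      rw [show (s3 x.1 x.2.1).length = tN x.1.1 from a1, show (s3 x.1 x.2.2).length = tN x.1.1 from b1,
        min_self]
      nlinarith
  have c5 : CC s5 (CS (4 * c0 + 5) k γ) := by
    rw [hs5]
    refine hiv.comp3 (f := fun x : CI => ((x.1.1, pp x.1.2, uu x.1.2), s4 x))
      (CC.pair (CC.pair (by fun_prop) (cpp.pair cuu)) c4) (512 * 8 ^ k) ?_
    rintro x T ⟨V, Λ, hP, h1, h2, h3, hT⟩
    obtain ⟨z1, z2, z3, z4, z5⟩ := szs h1
    obtain ⟨t1, t2⟩ := tM_le hP.1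
    have hn := num hP
    obtain ⟨a1, a2, -⟩ := f4 V x hP
    exact ⟨512 * 8 ^ k * T, ⟨2 * V, 8 * Λ, ⟨hP.1, a1⟩, a2, by simp only [length_pp, length_uu]; omega,
      z5, p8 (a1 ▸ h2), by omega, tX_nonneg _,
      bud (tX_nonneg _) (by positivity) (by omega) a1.le (by omega)
        (by simp only [length_uu]; omega) (by omega) (by omega) hT⟩, Nat.mul_le_mul_left _ (by omega)⟩
  have c6 : CC (fun x : CI => pullN (tM x.1.1) (pos x.1.1) (s5 x)) (CS (4 * c0 + 5) k γ) := by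
    refine cpl.comp3 (f := fun x : CI => (x.1.1, s5 x)) (CC.pair (by fun_prop) c5) (512 * 8 ^ k) ?_
    rintro x T ⟨V, Λ, hP, h1, h2, h3, hT⟩
    obtain ⟨z1, z2, -⟩ := szs h1
    obtain ⟨t1, t2⟩ := tM_le hP.1
    obtain ⟨a1, a2, -⟩ := f5 V x hP
    refine ⟨512 * 8 ^ k * T, ⟨2 * (2 * V), 8 * x.1.2.length + 1, 8 * Λ, ⟨hP.1, a1⟩,
      fun c hc => ⟨(a2 c hc).1, fun y hy => ((a2 c hc).2 y hy).trans_le ?_⟩, by simp only; omega,
      by omega, p8 (a1 ▸ h2), by omega, tX_nonneg _,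
      bud1 (tX_nonneg _) (by positivity) (by omega) a1.le (by omega) (by omega)
        (by omega) (by omega) hT⟩, Nat.mul_le_mul_left _ (by omega)⟩
    unfold MM
    rw [length_uu, pow_succ, show 2 * (4 * x.1.2.length) = 8 * x.1.2.length by omega]
    have := Nat.two_pow_pos (8 * x.1.2.length)
    omega
  have c7 : CC (fun x : CI => (pullN (tM x.1.1) (pos x.1.1) (s5 x)).map (rndC (pp x.1.2, uu x.1.2)))
      (CS (4 * c0 + 5) k γ) := by
    refine cc_mapS rndC (cc_rndC N) (cpp.pair cuu) c6 (1024 * 8 ^ k) ?_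
    rintro x T ⟨V, Λ, hP, h1, h2, h3, hT⟩
    obtain ⟨z1, z2, z3, z4, -⟩ := szs h1
    obtain ⟨t1, t2⟩ := tM_le hP.1
    obtain ⟨a1, a2, -⟩ := f5 V x hP
    have := cst_nat (tX_nonneg _) (bud1 (N' := tN x.1.1) (V' := 4 * V) (w := 8 * x.1.2.length + 1)
      (k' := 1) (tX_nonneg _) (by positivity) (by omega) le_rfl le_rfl (by omega) (by omega)
      (by omega) hT)
    refine ⟨4 * V * (14 * x.1.2.length + 3), fun c hc => ?_, ?_⟩
    · obtain ⟨m, hm, rfl⟩ := List.mem_map.1 hc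
      have hi := (L.1 _ hP.1 m (List.mem_range.1 hm)).1
      simp only [z4, (a2 _ (getD_mem _ (zc (s5 x)) (a1 ▸ hi))).1]
      exact Nat.mul_le_mul_right _ (by omega)
    · simp only [z4, pullN, List.length_map, List.length_range]
      calc _ ≤ (tN x.1.1 + 1) * (2 * (4 * V * (8 * x.1.2.length + 1 + 1) + (8 * Λ) ^ 1)) :=
            Nat.mul_le_mul (by omega) (by rw [pow_one]; nlinarith)
        _ ≤ _ := by nlinarith
  refine (c7.congr (fun x T h => ?_)).mono ?_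
  · obtain ⟨V, Λ, hP, -⟩ := h
    exact fin V x hP
  · rintro x T ⟨V, Λ, h1, h2, h3, h4, h5, h6, h7, h8⟩
    exact ⟨V, Λ, ⟨h1, h2, h3, h4, h5, h6, h7⟩, h8⟩

end Crest.Agent.H9.IM.Cv
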