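import Crest.Agent.H9.IMI

set_option autoImplicit false
set_option linter.unusedSectionVars false
set_option linter.unusedVariables false
set_option linter.unusedSimpArgs false

/-! Lemmas on the digit fields `fld` and `setf`. -/

namespace Crest.Agent.H9.IM
open Crest.Agent.H3.Ptime

variable {lo L i j v v' N m a b : ℕ}

theorem fld_lt (hL : 0 < L) : fld lo L i < L := Nat.mod_lt _ hL

theorem fld_decomp (lo L i : ℕ) : i = i % lo + lo * fld lo L i + lo * L * (i / (lo * L)) := by
  have h1 := Nat.mod_add_div i lo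
  have h2 := Nat.mod_add_div (i / lo) L
  rw [Nat.div_div_eq_div_mul] at h2
  unfold fld
  rw [mul_assoc, add_assoc, ← mul_add, h2, h1]

theorem fld_mul_le (lo L i : ℕ) : fld lo L i * lo ≤ i := by
  have := fld_decomp lo L i
  rw [mul_comm]; omega

theorem setf_eq (lo L i v : ℕ) : setf lo L i v = i % lo + lo * v + lo * L * (i / (lo * L)) := by
  have := fld_decomp lo L i
  unfold setf
  rw [mul_comm (fld lo L i), mul_comm v]; omega

theorem setf_add (lo L i v : ℕ) : setf lo L i v + fld lo L i * lo = i + v * lo := by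
  have := fld_mul_le lo L i
  unfold setf; omega

theorem setf_mod_of_dvd (hm : m ∣ lo) : setf lo L i v % m = i % m := by
  obtain ⟨c, rfl⟩ := hm
  rw [setf_eq, mul_assoc m c v, mul_assoc m, mul_assoc m, Nat.add_mul_mod_self_left,
    Nat.add_mul_mod_self_left, Nat.mod_mod_of_dvd _ (dvd_mul_right m c)]

theorem setf_mod : setf lo L i v % lo = i % lo := setf_mod_of_dvd dvd_rfl

theorem setf_div_lo (hlo : 0 < lo) : setf lo L i v / lo = v + L * (i / (lo * L)) := by
  rw [setf_eq, mul_assoc, add_assoc, ← mul_add, Nat.add_mul_div_left _ _ hlo,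
    Nat.div_eq_of_lt (Nat.mod_lt _ hlo), zero_add]

theorem setf_div (hlo : 0 < lo) (hv : v < L) : setf lo L i v / (lo * L) = i / (lo * L) := by
  rw [← Nat.div_div_eq_div_mul, setf_div_lo hlo, Nat.add_mul_div_left _ _ (by omega),
    Nat.div_eq_of_lt hv, zero_add]

theorem setf_div_of_dvd (hlo : 0 < lo) (hv : v < L) (hm : lo * L ∣ m) :
    setf lo L i v / m = i / m := by
  obtain ⟨c, rfl⟩ := hm
  rw [← Nat.div_div_eq_div_mul, setf_div hlo hv, Nat.div_div_eq_div_mul]

theorem fld_setf_same (hlo : 0 < lo) (hv : v < L) : fld lo L (setf lo L i v) = v := by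
  unfold fld
  rw [setf_div_lo hlo, Nat.add_mul_mod_self_left, Nat.mod_eq_of_lt hv]

theorem fld_eq_mod_div (lo L i : ℕ) : fld lo L i = i % (lo * L) / lo := by
  unfold fld; rw [Nat.mod_mul_right_div_self]

/-- a field below the changed one -/
theorem fld_setf_low {lo' L' : ℕ} (h : lo' * L' ∣ lo) :
    fld lo' L' (setf lo L i v) = fld lo' L' i := by
  rw [fld_eq_mod_div, fld_eq_mod_div, setf_mod_of_dvd h]

/-- a field above the changed one -/
theorem fld_setf_high {lo' L' : ℕ} (hlo : 0 < lo) (hv : v < L) (h : lo * L ∣ lo') :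
    fld lo' L' (setf lo L i v) = fld lo' L' i := by
  unfold fld; rw [setf_div_of_dvd hlo hv h]

theorem Dis.symm (h : Dis a b L) : Dis b a L := Or.symm h

theorem fld_setf_other (ha : 0 < a) (hv : v < L) (h : Dis a b L) :
    fld b L (setf a L i v) = fld b L i :=
  h.elim (fld_setf_high ha hv) fld_setf_low

theorem setf_setf (hlo : 0 < lo) (hv : v < L) : setf lo L (setf lo L i v) v' = setf lo L i v' := by
  rw [setf_eq lo L (setf lo L i v), setf_mod, setf_div hlo hv, ← setf_eq]

theorem setf_fld (lo L i : ℕ) : setf lo L i (fld lo L i) = i := by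
  have := setf_add lo L i (fld lo L i); omega

theorem setf_lt (hlo : 0 < lo) (hv : v < L) (hN : lo * L ∣ N) (hi : i < N) : setf lo L i v < N := by
  obtain ⟨c, rfl⟩ := hN
  have hp : 0 < lo * L := Nat.mul_pos hlo (by omega)
  rw [mul_comm] at hi ⊢
  rw [← Nat.div_lt_iff_lt_mul hp] at hi ⊢
  rwa [setf_div hlo hv]

theorem fld_ext (h1 : i % lo = j % lo) (h2 : fld lo L i = fld lo L j)
    (h3 : i / (lo * L) = j / (lo * L)) : i = j := by
  rw [fld_decomp lo L i, fld_decomp lo L j, h1, h2, h3]

/-- general commutation: the field `(b, L')` lies above the field `(a, L)` -/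
theorem setf_comm' {L' : ℕ} (ha : 0 < a) (hv : v < L) (h : a * L ∣ b) :
    setf a L (setf b L' i v') v = setf b L' (setf a L i v) v' := by
  have h1 := setf_add a L (setf b L' i v') v
  have h2 := setf_add b L' (setf a L i v) v'
  have h3 := setf_add a L i v
  have h4 := setf_add b L' i v'
  rw [fld_setf_low h] at h1
  rw [fld_setf_high ha hv h] at h2
  omega

theorem setf_comm (ha : 0 < a) (hb : 0 < b) (hv : v < L) (hv' : v' < L) (h : Dis a b L) :
    setf a L (setf b L i v') v = setf b L (setf a L i v) v' :=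
  h.elim (setf_comm' ha hv) (fun h => (setf_comm' hb hv' h).symm)

theorem setf_inj (hlo : 0 < lo) (hv : v < L) (hv' : v' < L) (h : setf lo L i v = setf lo L i v') :
    v = v' := by
  rw [← fld_setf_same (i := i) hlo hv, h, fld_setf_same hlo hv']

/-- the value assembled from low part, digit and high part -/
theorem fld_mk {x y : ℕ} (hx : x < lo) (hv : v < L) : fld lo L (x + lo * v + lo * L * y) = v := by
  unfold fld
  rw [mul_assoc, add_assoc, ← mul_add, Nat.add_mul_div_left _ _ (by omega), Nat.div_eq_of_lt hx,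
    zero_add, Nat.add_mul_mod_self_left, Nat.mod_eq_of_lt hv]

theorem setf_mk {x y : ℕ} (hx : x < lo) (hv : v < L) :
    setf lo L (x + lo * v + lo * L * y) v' = x + lo * v' + lo * L * y := by
  have := setf_add lo L (x + lo * v + lo * L * y) v'
  rw [fld_mk hx hv, mul_comm v, mul_comm v'] at this
  omega

variable {α : Type} [Enc α]

@[fun_prop] theorem PT_fld {f g h : α → ℕ} (hf : PT f) (hg : PT g) (hh : PT h) :
    PT (fun a => fld (f a) (g a) (h a)) := by
  unfold fld; fun_prop

@[fun_prop] theorem PT_setf {f g h k : α → ℕ} (hf : PT f) (hg : PT g) (hh : PT h) (hk : PT k) :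
    PT (fun a => setf (f a) (g a) (h a) (k a)) := by
  unfold setf; fun_prop

end Crest.Agent.H9.IM
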