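import Crest.Agent.H9.IMSwI
import Crest.Agent.H3.IMArr2

set_option autoImplicit false
set_option linter.unusedSectionVars false
set_option linter.unusedVariables false
set_option linter.unusedSimpArgs false

/-! Padding two fields to a power of `p`. -/

namespace Crest.Agent.H9.IM.SW
open Crest.Agent.H3.Ptime

/-- change of radix -/
def rad (M M' i : ℕ) : ℕ := i % M + M' * (i / M)

theorem rad_mk {M M' s t : ℕ} (h : s < M) : rad M M' (s + M * t) = s + M' * t := by
  unfold rad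
  rw [Nat.add_mul_mod_self_left, Nat.mod_eq_of_lt h, Nat.add_mul_div_left _ _ (by omega),
    Nat.div_eq_of_lt h, zero_add]

theorem rad_mono {M M' i j : ℕ} (h : i ≤ j) (hi : i % M < M') : rad M M' i ≤ rad M M' j := by
  unfold rad
  rcases (Nat.div_le_div_right (c := M) h).eq_or_lt with e | e
  · have h1 := Nat.mod_add_div i M
    have h2 := Nat.mod_add_div j M
    rw [e] at h1 ⊢
    omega
  · have := Nat.mul_le_mul_left M' (Nat.succ_le_of_lt e)
    rw [Nat.mul_succ] at this
    omega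

def mk (lo L1 m L3 a y b x c : ℕ) : ℕ := a + lo * (y + L1 * (b + m * (x + L3 * c)))

theorem lt_mul_of {a lo y L : ℕ} (ha : a < lo) (hy : y < L) : a + lo * y < lo * L := by
  have := Nat.mul_le_mul_left lo (Nat.succ_le_of_lt hy)
  rw [Nat.mul_succ] at this
  omega

theorem exists_mk {lo L m : ℕ} (hlo : 0 < lo) (hL : 0 < L) (hm : 0 < m) (i : ℕ) :
    ∃ a y b x c, a < lo ∧ y < L ∧ b < m ∧ x < L ∧ i = mk lo L m L a y b x c :=
  ⟨i % lo, i / lo % L, i / lo / L % m, i / lo / L / m % L, i / lo / L / m / L, Nat.mod_lt _ hlo,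
    Nat.mod_lt _ hL, Nat.mod_lt _ hm, Nat.mod_lt _ hL, by simp only [mk, Nat.mod_add_div]⟩

theorem mk_lt_iff {lo L1 m L3 a y b x c r : ℕ} (ha : a < lo) (hy : y < L1) (hb : b < m)
    (hx : x < L3) : mk lo L1 m L3 a y b x c < lo * L1 * m * L3 * r ↔ c < r := by
  have h := lt_mul_of (lt_mul_of (lt_mul_of ha hy) hb) hx
  have e : mk lo L1 m L3 a y b x c =
    (a + lo * y + lo * L1 * b + lo * L1 * m * x) + lo * L1 * m * L3 * c := by unfold mk; ring
  rw [e]
  constructor
  · intro h'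
    by_contra hc
    have := Nat.mul_le_mul_left (lo * L1 * m * L3) (not_lt.1 hc)
    omega
  · exact lt_mul_of h

theorem rad_low {lo L1 L1' m L3 a y b x c : ℕ} (ha : a < lo) (hy : y < L1) :
    rad (lo * L1) (lo * L1') (mk lo L1 m L3 a y b x c) = mk lo L1' m L3 a y b x c ∧
      mk lo L1 m L3 a y b x c % (lo * L1) = a + lo * y := by
  have e : ∀ L, mk lo L m L3 a y b x c = (a + lo * y) + lo * L * (b + m * (x + L3 * c)) := by
    intro L; unfold mk; ring
  rw [e, e, rad_mk (lt_mul_of ha hy), Nat.add_mul_mod_self_left, Nat.mod_eq_of_lt (lt_mul_of ha hy)]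
  exact ⟨rfl, rfl⟩

theorem rad_high {lo L1 m L3 L3' a y b x c : ℕ} (ha : a < lo) (hy : y < L1) (hb : b < m)
    (hx : x < L3) : rad (lo * L1 * m * L3) (lo * L1 * m * L3') (mk lo L1 m L3 a y b x c) =
      mk lo L1 m L3' a y b x c ∧ mk lo L1 m L3 a y b x c % (lo * L1 * m * L3) =
        a + lo * y + lo * L1 * b + lo * L1 * m * x := by
  have h := lt_mul_of (lt_mul_of (lt_mul_of ha hy) hb) hx
  have e : ∀ L, mk lo L1 m L a y b x c =
    (a + lo * y + lo * L1 * b + lo * L1 * m * x) + lo * L1 * m * L * c := by intro L; unfold mk; ring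
  rw [e, e, rad_mk h, Nat.add_mul_mod_self_left, Nat.mod_eq_of_lt h]
  exact ⟨rfl, rfl⟩

theorem swp_mk {lo L m a y b x c : ℕ} (ha : a < lo) (hy : y < L) (hb : b < m) (hx : x < L) :
    swp (lo * L * m) lo L (mk lo L m L a y b x c) = mk lo L m L a x b y c := by
  have e1 : ∀ y x, mk lo L m L a y b x c = a + lo * y + lo * L * (b + m * (x + L * c)) := by
    intro y x; unfold mk; ring
  have e2 : ∀ y x, mk lo L m L a y b x c =
    (a + lo * y + lo * L * b) + lo * L * m * x + lo * L * m * L * c := by intro y x; unfold mk; ring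
  have h := lt_mul_of (lt_mul_of ha hy) hb
  unfold swp
  have f1 : fld lo L (mk lo L m L a y b x c) = y := by rw [e1, fld_mk ha hy]
  have f2 : fld (lo * L * m) L (mk lo L m L a y b x c) = x := by rw [e2, fld_mk h hx]
  rw [f1, f2, e2 y x, setf_mk h hx, ← e2, e1 y y, setf_mk ha hy, ← e1]

/-- the exponent in unary -/
def ex (p L : ℕ) : List Unit :=
  ((List.range L.size).filter (fun k => decide (p ^ (min k L.size) < L))).map (fun _ => ())

theorem length_filter_lt (c n : ℕ) :
    ((List.range n).filter (fun k => decide (k < c))).length = min c n := by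
  induction n with
  | zero => simp
  | succ n ih =>
    rw [List.range_succ, List.filter_append, List.length_append, ih]
    by_cases h : n < c <;> simp [h] <;> omega

theorem ex_spec {p L : ℕ} (hp : 2 ≤ p) (hL : 0 < L) :
    L ≤ p ^ (ex p L).length ∧ p ^ (ex p L).length ≤ p * L ∧ (ex p L).length ≤ Nat.log 2 L + 1 := by
  have h1 : Nat.clog p L ≤ L.size := by
    rw [Nat.clog_le_iff_le_pow (by omega)]
    exact (Nat.lt_size_self L).le.trans (Nat.pow_le_pow_left hp _)
  have e : (ex p L).length = Nat.clog p L := by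
    unfold ex
    rw [List.length_map, List.filter_congr (q := fun k => decide (k < Nat.clog p L)),
      length_filter_lt, min_eq_left h1]
    intro k hk
    rw [min_eq_left (List.mem_range.1 hk).le]
    simp only [Nat.lt_clog_iff_pow_lt (show 1 < p by omega)]
  rw [e]
  refine ⟨Nat.le_pow_clog (by omega) _, ?_, h1.trans ?_⟩
  · rcases Nat.eq_zero_or_pos (Nat.clog p L) with h | h
    · rw [h]; nlinarith
    · have : p ^ (Nat.clog p L - 1) < L := (Nat.lt_clog_iff_pow_lt (by omega)).1 (by omega)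
      obtain ⟨k, hk⟩ : ∃ k, Nat.clog p L = k + 1 := ⟨_, (Nat.succ_pred_eq_of_pos h).symm⟩
      rw [hk] at this ⊢
      rw [pow_succ, mul_comm]
      exact Nat.mul_le_mul_left _ this.le
  · exact Nat.size_le.2 (Nat.lt_pow_succ_log_self (by omega) _)

theorem getD_pullN {n j : ℕ} (π : ℕ → ℕ) (A : Arr) (z : List ℕ) (h : j < n) :
    (pullN n π A).getD j z = A.getD (π j) (zc A) := by
  rw [List.getD_eq_getElem _ _ (by simpa using h)]
  simp [pullN]

theorem padStmt (hA : ArrStmt) : PadStmt := by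
  intro p hp hS
  have pe : PT (fun q : ℕ × ℕ × ℕ => ex p q.2.2) := by
    unfold ex
    refine PT.map (PT.filter (PT.range (by fun_prop) (PB.natSize (by fun_prop))) ?_) (by fun_prop)
    exact PT.lt (PT.pow (by fun_prop) (by fun_prop) (PB.min (PB.natSize (by fun_prop)))) (by fun_prop)
  obtain ⟨L2, hL2⟩ : ∃ L2 : ℕ × ℕ × ℕ → ℕ, L2 = fun q => p ^ (ex p q.2.2).length := ⟨_, rfl⟩
  have pL : PT L2 := hL2 ▸ PT.pow (by fun_prop) pe.length (PB.length pe)
  have pL' : PT (fun x : (ℕ × ℕ × ℕ) × ℕ => L2 x.1) := pL.comp (by fun_prop)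
  obtain ⟨X, hX⟩ : ∃ X : ℕ × ℕ × ℕ → ℝ, X = fun q => (Nat.log 2 q.2.2 + 1 : ℝ) ^ th := ⟨_, rfl⟩
  have X0 : ∀ q, 0 ≤ X q := fun q => by rw [hX]; positivity
  obtain ⟨val, hval⟩ : ∃ val : ℕ × ℕ × ℕ → ℕ → Prop, val = fun q i =>
    i % (q.1 / q.2.2 * L2 q * L2 q) < q.1 / q.2.2 * L2 q * q.2.2 ∧
    rad (q.1 / q.2.2 * L2 q * L2 q) (q.1 / q.2.2 * L2 q * q.2.2) i % (q.2.1 * L2 q) <
      q.2.1 * q.2.2 := ⟨_, rfl⟩
  have dval : ∀ q i, Decidable (val q i) := fun q i => by rw [hval]; infer_instance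
  have pval : PT (fun x : (ℕ × ℕ × ℕ) × ℕ => decide (val x.1 x.2)) := by
    refine PT.of_eq (f := fun x : (ℕ × ℕ × ℕ) × ℕ =>
      decide (x.2 % (x.1.1 / x.1.2.2 * L2 x.1 * L2 x.1) < x.1.1 / x.1.2.2 * L2 x.1 * x.1.2.2) &&
      decide (rad (x.1.1 / x.1.2.2 * L2 x.1 * L2 x.1) (x.1.1 / x.1.2.2 * L2 x.1 * x.1.2.2) x.2 %
        (x.1.2.1 * L2 x.1) < x.1.2.1 * x.1.2.2)) (by unfold rad; fun_prop) (fun x => ?_)
    subst hval
    rw [← Bool.decide_and]
  obtain ⟨dn, hdn⟩ : ∃ dn : ℕ × ℕ × ℕ → ℕ → ℕ, dn = fun q i => if val q i then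
    rad (q.2.1 * L2 q) (q.2.1 * q.2.2)
      (rad (q.1 / q.2.2 * L2 q * L2 q) (q.1 / q.2.2 * L2 q * q.2.2) i) else 0 := ⟨_, rfl⟩
  obtain ⟨up, hup⟩ : ∃ up : ℕ × ℕ × ℕ → ℕ → ℕ, up = fun q i =>
    rad (q.1 / q.2.2 * L2 q * q.2.2) (q.1 / q.2.2 * L2 q * L2 q)
      (rad (q.2.1 * q.2.2) (q.2.1 * L2 q) i) := ⟨_, rfl⟩
  have p1 := (hA.pull (fun q N => N / (q.2.2 * q.2.2) * (L2 q * L2 q)) dn
    (fun q i => if val q i then 0 else 1) (p * p + 2) (by fun_prop)
    (by rw [hdn]; exact PT.ite pval (by unfold rad; fun_prop) (by fun_prop))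
    (PT.ite pval (by fun_prop) (by fun_prop)))
  have p1' := hA.mono p1 (fun q => q) _ _ X 0 PT.id' (fun q w A h => ⟨h, rfl, le_rfl, by simp⟩)
  have p3 := (hA.pull (fun q N => N / (L2 q * L2 q) * (q.2.2 * q.2.2)) up
    (fun q i => 0) 1 (by fun_prop) (by rw [hup]; unfold rad; fun_prop) (by fun_prop))
  have p3' := hA.mono p3 (fun q => q) _ _ X 0 PT.id' (fun q w A h => ⟨h, rfl, le_rfl, by simp⟩)
  have p2 := hA.mono hS.1 (fun q : ℕ × ℕ × ℕ => (q.1 / q.2.2 * L2 q, q.2.1, ex p q.2.2))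
    (fun q A => pullN A.length (swp (q.1 / q.2.2 * L2 q) q.2.1 (L2 q)) A)
    (fun q _ A => 0 < q.2.2 ∧ SP p (q.1 / q.2.2 * L2 q, q.2.1, ex p q.2.2) A.length) X 2
    (by fun_prop) (fun q w A h => ⟨h.2, by rw [hL2], by positivity, by
      have h1 := (ex_spec hp h.1).2.2
      have h2 : ((ex p q.2.2).length + 1 : ℝ) ≤ 2 * (Nat.log 2 q.2.2 + 1) := by
        exact_mod_cast (show (ex p q.2.2).length + 1 ≤ 2 * (Nat.log 2 q.2.2 + 1) by omega)
      have h3 : 1 / (2 : ℝ) ^ 40 ≤ 1 := by norm_num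
      have h4 : 0 ≤ th := by unfold th; linarith
      have h5 : th ≤ 1 := by unfold th; norm_num
      have h6 : (2 : ℝ) ^ th ≤ 2 := by
        simpa using Real.rpow_le_rpow_of_exponent_le (show (1 : ℝ) ≤ 2 by norm_num) h5
      refine (Real.rpow_le_rpow (by positivity) h2 h4).trans ?_
      rw [Real.mul_rpow (by norm_num) (by positivity), hX]
      have : (0 : ℝ) ≤ (Nat.log 2 q.2.2 + 1 : ℝ) ^ th := by positivity
      nlinarith⟩)
  have key : ∀ {lo L m a y b x c : ℕ}, a < lo → y < L → b < m → x < L →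
      up (lo * L * m, lo, L) (mk lo L m L a y b x c) =
        mk lo (L2 (lo * L * m, lo, L)) m (L2 (lo * L * m, lo, L)) a y b x c ∧
      dn (lo * L * m, lo, L) (mk lo (L2 (lo * L * m, lo, L)) m (L2 (lo * L * m, lo, L)) a y b x c) =
        mk lo L m L a y b x c := by
    intro lo L m a y b x c ha hy hb hx
    have hL : L ≤ L2 (lo * L * m, lo, L) := by rw [hL2]; exact (ex_spec hp (by omega)).1
    have e : lo * L * m / L * L2 (lo * L * m, lo, L) = lo * L2 (lo * L * m, lo, L) * m := by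
      rw [mul_right_comm lo, Nat.mul_div_cancel _ (by omega), mul_right_comm]
    have hv : val (lo * L * m, lo, L)
        (mk lo (L2 (lo * L * m, lo, L)) m (L2 (lo * L * m, lo, L)) a y b x c) := by
      rw [hval]
      simp only [e]
      generalize L2 (lo * L * m, lo, L) = M at *
      rw [(rad_high (L3' := L) ha (hy.trans_le hL) hb (hx.trans_le hL)).2,
        (rad_high ha (hy.trans_le hL) hb (hx.trans_le hL)).1, (rad_low (L1' := L) ha (hy.trans_le hL)).2]
      exact ⟨lt_mul_of (lt_mul_of (lt_mul_of ha (hy.trans_le hL)) hb) hx, lt_mul_of ha hy⟩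
    rw [hup, hdn]
    simp only [e, if_pos hv]
    generalize L2 (lo * L * m, lo, L) = M at *
    rw [(rad_low ha hy).1, (rad_high ha (hy.trans_le hL) hb hx).1,
      (rad_high ha (hy.trans_le hL) hb (hx.trans_le hL)).1, (rad_low ha (hy.trans_le hL)).1]
    exact ⟨rfl, rfl⟩
  refine ⟨?_, ?_⟩
  · rw [← hX]
    refine hA.mono (hA.comp p3' (hA.comp p2 p1')) (fun q => q) _ _ X 1 PT.id' ?_
    rintro ⟨loX, lo, L⟩ w A ⟨h1, h2, ⟨m, h3⟩, ⟨r, h4⟩, h5⟩
    simp only at h1 h2 h3 h4 h5
    subst h3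
    have hm : 0 < m := Nat.pos_of_ne_zero (by rintro rfl; simp at h4; simp [h4] at h5)
    have hr : 0 < r := Nat.pos_of_ne_zero (by rintro rfl; simp at h4; simp [h4] at h5)
    obtain ⟨l1, l2, -⟩ := ex_spec hp h2
    have l3 : L2 (lo * L * m, lo, L) = p ^ (ex p L).length := by rw [hL2]
    rw [← l3] at l1 l2
    have e : lo * L * m / L * L2 (lo * L * m, lo, L) = lo * L2 (lo * L * m, lo, L) * m := by
      rw [mul_right_comm lo, Nat.mul_div_cancel _ (by omega), mul_right_comm]
    have key' := @key lo L m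
    have hup' : ∀ i j, i ≤ j → up (lo * L * m, lo, L) i ≤ up (lo * L * m, lo, L) j := by
      intro i j hij
      rw [hup]
      simp only [e]
      refine rad_mono (rad_mono hij ?_) ?_
      · exact (Nat.mod_lt _ (by positivity)).trans_le (Nat.mul_le_mul_left _ l1)
      · exact (Nat.mod_lt _ (by have : 0 < L2 (lo * L * m, lo, L) := by omega
                                positivity)).trans_le (Nat.mul_le_mul_left _ l1)
    have hdn' : ∀ i j, i ≤ j → (if val (lo * L * m, lo, L) i then 0 else 1) =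
        (if val (lo * L * m, lo, L) j then 0 else 1) →
        dn (lo * L * m, lo, L) i ≤ dn (lo * L * m, lo, L) j := by
      intro i j hij hk
      rw [hdn]
      by_cases hi : val (lo * L * m, lo, L) i
      · have hj : val (lo * L * m, lo, L) j := by
          by_contra hj
          simp [hi, hj] at hk
        simp only [if_pos hi, if_pos hj]
        rw [hval] at hi
        exact rad_mono (rad_mono hij hi.1) hi.2
      · simp only [if_neg hi]; omega
    simp only [length_pullN, SP, e, ← l3]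
    generalize L2 (lo * L * m, lo, L) = M at *
    have hM : 0 < M := by omega
    have n1 : A.length / (L * L) * (M * M) = lo * M * m * M * r := by
      rw [h4, show lo * L * m * L * r = lo * m * r * (L * L) by ring,
        Nat.mul_div_cancel _ (by positivity)]; ring
    have n2 : lo * M * m * M * r / (M * M) * (L * L) = A.length := by
      rw [h4, show lo * M * m * M * r = lo * m * r * (M * M) by ring,
        Nat.mul_div_cancel _ (by positivity)]; ring
    have n3 : 0 < lo * M * m * M * r := by positivity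
    rw [n1, n2]
    refine ⟨⟨⟨⟨List.length_pos_iff.1 h5, ?_, fun i _ => by split_ifs <;> omega,
      fun i j hij _ hk => hdn' i j hij hk⟩, h2, h1, ⟨m, rfl⟩, ⟨r, rfl⟩, n3⟩,
      List.length_pos_iff.1 (by simpa using n3), ?_, fun _ _ => by omega,
      fun i j hij _ _ => hup' i j hij⟩, ?_, X0 _, by linarith⟩
    · rw [h4]
      calc _ = lo * m * r * (M * M) := by ring
        _ ≤ lo * m * r * ((p * L) * (p * L)) := Nat.mul_le_mul_left _ (Nat.mul_le_mul l2 l2)
        _ = p * p * (lo * L * m * L * r) := by ring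
        _ ≤ _ := Nat.mul_le_mul_right _ (by omega)
    · rw [h4, one_mul]
      gcongr
    · refine List.map_congr_left (fun i hi => ?_)
      obtain ⟨a, y, b, x, c, ha, hy, hb, hx, rfl⟩ := exists_mk h1 h2 hm i
      have hc : c < r := (mk_lt_iff ha hy hb hx).1 (h4 ▸ List.mem_range.1 hi)
      rw [(key' ha hy hb hx).1,
        getD_pullN _ _ _ ((mk_lt_iff ha (hy.trans_le l1) hb (hx.trans_le l1)).2 hc),
        swp_mk ha (hy.trans_le l1) hb (hx.trans_le l1),
        getD_pullN _ _ _ ((mk_lt_iff ha (hx.trans_le l1) hb (hy.trans_le l1)).2 hc),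
        (key' ha hx hb hy).2, ← swp_mk ha hy hb hx]
      rfl
  · rintro ⟨loX, lo, L⟩ N ⟨h1, h2, h3, h4, h5⟩ i hi
    simp only at h1 h2 h3 h4 h5 ⊢
    have hX0 : 0 < loX := Nat.pos_of_ne_zero (by rintro rfl; simp at h4; omega)
    exact setf_lt h1 (fld_lt h2) (h3.trans ((dvd_mul_right _ _).trans h4))
      (setf_lt hX0 (fld_lt h2) h4 hi)

end Crest.Agent.H9.IM.SW
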