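import Crest.Agent.H9.IMI
import Crest.Agent.H3.IMBridge

set_option autoImplicit false

/-! The machine statement of row 326. -/

namespace Crest.Agent.H9.IM
open Crest.Agent.H3.Ptime Crest.LogicCS.IntMul Crest.DTime

theorem tmStmt : TMStmt := by
  intro f S g hf hS
  obtain ⟨p, c, hp⟩ := hf
  have hlen : ∀ x : EqLenPair, (EqLenPair.enc x).length = 2 * x.1.1.length := by
    intro x
    have := x.2
    simp [EqLenPair.enc, Crest.Complexity.pairEnc, Computability.encodingProd,
      Computability.encodingList]
    omega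
  obtain ⟨M, hM⟩ := timeBound_of_run p (fun N => c * (g (N / 2) + 4 * N + 4)) (fun x => by
    have h := hp x.1 _ (hS x).1
    rw [(hS x).2] at h
    refine R.mono h (Nat.mul_le_mul_left _ ?_)
    have h1 := sz_bits_le x.1.1
    have h2 := sz_bits_le x.1.2
    have h3 := x.2
    have h4 : sz x.1 = sz x.1.1 + sz x.1.2 + 1 := sz_pair _ _
    rw [Nat.mul_div_cancel_left _ (by omega : 0 < 2)]
    omega)
  refine ⟨8 * c + 42, fun t ht => ⟨{ M with
    time := t
    outputsFun := fun x => { M.outputsFun x with
      steps_le_m := (M.outputsFun x).steps_le_m.trans ((hM _).trans ?_) } }, fun _ => le_rfl⟩⟩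
  rw [hlen]
  refine le_trans ?_ (ht x.1.1.length)
  simp only
  rw [Nat.mul_div_cancel_left _ (by omega : 0 < 2)]
  nlinarith [Nat.zero_le (c * g x.1.1.length), Nat.zero_le c, Nat.zero_le (g x.1.1.length)]

end Crest.Agent.H9.IM
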