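import Crest.Agent.H3.PGPsi

/-! The tilting weight of one block. -/

set_option autoImplicit false

namespace Crest.Agent.H3.PG

open Finset

variable {α : Type} [DecidableEq α]

noncomputable def phi0 (L n : ℕ) : ℝ := if n ≤ 2 ^ L then 1 else 0

noncomputable def phi1 (L J n : ℕ) : ℝ :=
  phi0 L n + ∑ l ∈ Ico (L - J) L, (-(1 / (J : ℝ))) * phi0 L (n + 2 ^ l)

theorem phi0_abs (L n : ℕ) : |phi0 L n| ≤ 1 := by
  unfold phi0; split_ifs <;> simp

theorem phi1_facts {L J : ℕ} (hJ : 1 ≤ J) (hJL : J ≤ L) (n : ℕ) :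
    |phi1 L J n| ≤ 1 ∧ (2 ^ L < n → phi1 L J n = 0) ∧ (2 * n ≤ 2 ^ L → phi1 L J n = 0) := by
  have hJ0 : (0 : ℝ) < J := by exact_mod_cast hJ
  have hcard : ((Ico (L - J) L).card : ℝ) = J := by
    rw [Nat.card_Ico]; congr 1; omega
  refine ⟨?_, fun h => ?_, fun h => ?_⟩
  · unfold phi1
    rw [← mul_sum]
    have h1 : 0 ≤ ∑ l ∈ Ico (L - J) L, phi0 L (n + 2 ^ l) :=
      sum_nonneg fun l _ => by unfold phi0; split_ifs <;> norm_num
    have h2 : ∑ l ∈ Ico (L - J) L, phi0 L (n + 2 ^ l) ≤ J := by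
      rw [← hcard]
      refine (sum_le_card_nsmul _ _ 1 fun l _ => ?_).trans (by simp)
      exact (abs_le.1 (phi0_abs _ _)).2
    have h3 : 0 ≤ 1 / (J : ℝ) * ∑ l ∈ Ico (L - J) L, phi0 L (n + 2 ^ l) := by positivity
    have h4 : 1 / (J : ℝ) * ∑ l ∈ Ico (L - J) L, phi0 L (n + 2 ^ l) ≤ 1 := by
      rw [one_div_mul_eq_div, div_le_one hJ0]; exact h2
    have h5 : 0 ≤ phi0 L n := by unfold phi0; split_ifs <;> norm_num
    have h6 := (abs_le.1 (phi0_abs L n)).2
    rw [abs_le]; constructor <;> linarith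
  · unfold phi1 phi0
    rw [if_neg (by omega), sum_eq_zero, add_zero]
    intro l _
    rw [if_neg (by have := Nat.two_pow_pos l; omega), mul_zero]
  · unfold phi1 phi0
    rw [if_pos (by omega), sum_congr rfl (g := fun _ => -(1 / (J : ℝ))), sum_const, nsmul_eq_mul,
      hcard]
    · field_simp; ring
    · intro l hl
      have h1 := (mem_Ico.1 hl).2
      have h2 : 2 ^ (l + 1) ≤ 2 ^ L := Nat.pow_le_pow_right (by norm_num) h1
      rw [pow_succ] at h2
      rw [if_pos (by omega), mul_one]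

theorem block {q : α → ℝ} {S : Finset α} (hq : ∀ c ∈ S, 0 ≤ q c ∧ q c ≤ 1)
    (A : ℕ → Set α) (hA : ∀ i j, i ≠ j → Disjoint (A i) (A j))
    (nh : ℕ → Finset α → Prop) (z : ℕ → ℕ → Finset α → ℝ) (θ : ℕ → Finset α → ℝ)
    {L J : ℕ} (hJ : 1 ≤ J) (hJL : J ≤ L) (ρ : ℕ → ℝ) (I : Finset ℕ)
    (hI : ∀ i ∈ I, OnePos q S (A i) (nh i) (Ico (L - J) L) ρ L (z i) (θ i))
    {D : ℝ} (hD0 : 0 ≤ D) (hD : ∀ l ≤ L, (I.card : ℝ) * ρ l * 2 ^ l ≤ D * 2 ^ L)
    (hJD : 2 * Cs * D ≤ J) (hIc : I.card ≤ Y (L - J)) :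
    ∃ w Φ : Finset α → ℝ, (∀ ω, 0 ≤ w ω) ∧ (∀ ω, 0 ≤ Φ ω) ∧ Dep (⋃ i ∈ I, A i) w ∧
      Ex q S w = 1 ∧ Ex q S (fun ω => w ω * w ω) ≤ 4 * Real.exp (Cs * D * 2 ^ J) ∧
      Ex q S Φ ≤ 4 * Cs ^ 2 * D ^ 2 / J ∧ Lev (18 * (Y L : ℝ) ^ 16) w ∧
      Lev (I.card * (18 * (Y L : ℝ) ^ 24)) Φ ∧ ∀ ω, ∀ i ∈ I, nh i ω → w ω ≤ Φ ω := by
  have hJ0 : (0 : ℝ) < J := by exact_mod_cast hJ
  have hCs := one_le_Cs
  set Ls := Ico (L - J) L with hLs
  have hcard : (Ls.card : ℝ) = J := by
    rw [hLs, Nat.card_Ico]; congr 1; omega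
  set om : ℕ → ℕ := fun l => 2 ^ l with hom
  set u : ℕ → ℕ → Finset α → ℝ := fun i l ω => (-(1 / (J : ℝ))) * z i l ω with hu
  set v : ℕ → ℕ → ℝ := fun i l => Ex q S (fun ω => u i l ω * u i l ω) with hv
  set P : Finset ℕ → (ℕ → ℝ) → Finset α → ℝ :=
    fun I φ ω => Psi om Ls (fun i l => u i l ω) I φ with hP
  have hudep : ∀ i ∈ I, ∀ l ∈ Ls, Dep (A i) (u i l) := fun i hi l hl =>
    ((hI i hi).dep_z l hl).comp fun t => (-(1 / (J : ℝ))) * t
  have huu : ∀ i l l', Ex q S (fun ω => u i l ω * u i l' ω)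
      = 1 / (J : ℝ) ^ 2 * Ex q S (fun ω => z i l ω * z i l' ω) := by
    intro i l l'
    rw [← Ex_mul_left]
    exact Ex_congr q S fun ω _ => by simp only [hu]; field_simp
  have hv0 : ∀ i l, 0 ≤ v i l := fun i l => Ex_nonneg hq fun ω _ => mul_self_nonneg _
  have hv1 : ∀ i ∈ I, ∀ l ∈ Ls, v i l ≤ 1 / (J : ℝ) ^ 2 * (Cs * ρ l) := fun i hi l hl => by
    simp only [hv]
    rw [huu]
    exact mul_le_mul_of_nonneg_left ((hI i hi).sq l hl) (by positivity)
  have horth : ∀ I' ⊆ I, ∀ φ ψ : ℕ → ℝ, Ex q S (fun ω => P I' φ ω * P I' ψ ω)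
      = Psi om Ls v I' (fun n => φ n * ψ n) := by
    intro I' hI' φ ψ
    refine Psi_orth om Ls q S u A hA I' (fun i hi => hudep i (hI' hi)) (fun i hi l hl => ?_)
      (fun i hi l hl l' hl' hne => ?_) φ ψ
    · simp only [hu]
      rw [Ex_mul_left, (hI i (hI' hi)).mean0 l hl, mul_zero]
    · rw [huu, (hI i (hI' hi)).orth l hl l' hl' hne, mul_zero]
  have hPdep : ∀ I' ⊆ I, ∀ φ, Dep (⋃ i ∈ I', A i) (P I' φ) := fun I' hI' φ =>
    Psi_dep om Ls u I' (fun i hi l hl => (hudep i (hI' hi) l hl).mono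
      (Set.subset_biUnion_of_mem (u := A) (show i ∈ (I' : Set ℕ) from hi))) φ
  -- the level cost
  set K := ∏ i ∈ I, (1 + ∑ l ∈ Ls, v i l) with hK
  have hK1 : 1 ≤ K := one_le_prod fun i _ => by
    have := sum_nonneg fun l (_ : l ∈ Ls) => hv0 i l; linarith
  have hη : ∑ i ∈ I, ∑ l ∈ Ls, (om l : ℝ) * v i l ≤ Cs * D / J * 2 ^ L := by
    rw [sum_comm]
    calc _ ≤ ∑ l ∈ Ls, (1 / (J : ℝ) ^ 2 * Cs * (D * 2 ^ L)) := by
          refine sum_le_sum fun l hl => ?_
          calc _ ≤ ∑ i ∈ I, (2 : ℝ) ^ l * (1 / (J : ℝ) ^ 2 * (Cs * ρ l)) := by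
                refine sum_le_sum fun i hi => ?_
                simp only [hom, Nat.cast_pow, Nat.cast_ofNat]
                exact mul_le_mul_of_nonneg_left (hv1 i hi l hl) (by positivity)
            _ = 1 / (J : ℝ) ^ 2 * Cs * ((I.card : ℝ) * ρ l * 2 ^ l) := by
                rw [sum_const, nsmul_eq_mul]; ring
            _ ≤ _ := mul_le_mul_of_nonneg_left (hD l (mem_Ico.1 hl).2.le) (by positivity)
      _ = _ := by rw [sum_const, nsmul_eq_mul, hcard]; field_simp
  have hid : ∀ I' ⊆ I, Psi om Ls v I' (fun n => (n : ℝ)) ≤ Cs * D / J * 2 ^ L * K := by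
    intro I' hI'
    refine (Psi_id om Ls v I' fun i _ l _ => hv0 i l).trans (mul_le_mul (le_trans ?_ hη) ?_ ?_ ?_)
    · exact sum_le_sum_of_subset_of_nonneg hI' fun i _ _ =>
        sum_nonneg fun l _ => mul_nonneg (by positivity) (hv0 i l)
    · refine prod_le_prod_of_subset_of_one_le hI' (fun i _ => ?_) fun i _ _ => ?_
      · have := sum_nonneg fun l (_ : l ∈ Ls) => hv0 i l; linarith
      · have := sum_nonneg fun l (_ : l ∈ Ls) => hv0 i l; linarith
    · exact prod_nonneg fun i _ => by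
        have := sum_nonneg fun l (_ : l ∈ Ls) => hv0 i l; linarith
    · positivity
  have hhalf : Cs * D / J ≤ 1 / 2 := by rw [div_le_iff₀ hJ0]; linarith
  have h2L : (0 : ℝ) < 2 ^ L := by positivity
  set V := Ex q S (fun ω => P I (phi0 L) ω * P I (phi0 L) ω) with hV
  have hVK : K / 2 ≤ V := by
    rw [hV, horth I subset_rfl]
    have h1 : Psi om Ls v I (fun n => 1 + (-(1 / 2 ^ L)) * (n : ℝ))
        ≤ Psi om Ls v I (fun n => phi0 L n * phi0 L n) := by
      refine Psi_mono om Ls v I (fun i _ l _ => hv0 i l) _ _ fun n => ?_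
      unfold phi0
      split_ifs with h
      · have : (0 : ℝ) ≤ 1 / 2 ^ L * n := by positivity
        linarith
      · have h' : (2 : ℝ) ^ L ≤ n := by exact_mod_cast (not_le.1 h).le
        have : 1 ≤ 1 / 2 ^ L * (n : ℝ) := by
          rw [one_div_mul_eq_div, one_le_div h2L]; exact h'
        linarith
    rw [Psi_add, Psi_mul, Psi_one, ← hK] at h1
    have h2 : 1 / 2 ^ L * Psi om Ls v I (fun n => (n : ℝ)) ≤ 1 / 2 * K := by
      rw [one_div_mul_eq_div, div_le_iff₀ h2L]
      refine (hid I subset_rfl).trans ?_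
      nlinarith [mul_le_mul_of_nonneg_right hhalf (mul_nonneg h2L.le (zero_le_one.trans hK1))]
    linarith
  have hV0 : 1 / 2 ≤ V := by linarith
  have hVpos : 0 < V := by linarith
  have hVinv : |1 / V| ≤ 2 := by
    rw [abs_of_nonneg (by positivity), div_le_iff₀ hVpos]; linarith
  -- levels
  have hY0 : ∀ m, (0 : ℝ) < Y m := fun m => by have := two_le_Y m; positivity
  have hY8 : ∀ m, (256 : ℝ) ^ (2 ^ m) = (Y m : ℝ) ^ 8 := fun m => by
    simp only [Y, Nat.cast_pow, Nat.cast_ofNat]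
    rw [← pow_mul, mul_comm, pow_mul]; norm_num
  have hPlev : ∀ I' ⊆ I, ∀ φ : ℕ → ℝ, (∀ n, |φ n| ≤ 1) → (∀ n, 2 ^ L < n → φ n = 0) →
      Lev (3 * (Y L : ℝ) ^ 8) (P I' φ) := by
    intro I' hI' φ h1 h2
    have h := Psi_lev om Ls u I' (R := 256) (ε := 1 / (J * Y (L - J))) (by norm_num)
      (fun i hi l hl => ?_) φ ((Y L : ℝ) ^ 8) (fun n => ?_)
    · refine h.weaken ?_
      rw [mul_comm]
      refine mul_le_mul_of_nonneg_right ?_ (by positivity)
      rw [hcard]
      have e : (J : ℝ) * (1 / (J * Y (L - J))) = 1 / Y (L - J) := by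
        have := hY0 (L - J); field_simp
      rw [e]
      have h3 : (1 + 1 / (Y (L - J) : ℝ)) ≤ Real.exp (1 / Y (L - J)) := by
        rw [add_comm]; exact Real.add_one_le_exp _
      refine (pow_le_pow_left₀ (by have := hY0 (L - J); positivity) h3 _).trans ?_
      rw [← Real.exp_nat_mul]
      refine le_trans (Real.exp_le_exp.2 ?_) Real.exp_one_lt_three.le
      rw [mul_one_div, div_le_one (hY0 _)]
      exact_mod_cast (card_le_card hI').trans hIc
    · refine (((hI i (hI' hi)).lev_z l hl).smul (-(1 / (J : ℝ)))).weaken ?_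
      simp only [hom]
      rw [hY8, abs_neg, abs_of_nonneg (by positivity)]
      have h3 : (Y (L - J) : ℝ) ≤ Y l := by exact_mod_cast Y_mono (mem_Ico.1 hl).1
      have h4 := hY0 (L - J)
      have h5 := hY0 l
      rw [div_mul_eq_mul_div, div_mul_eq_mul_div, div_le_div_iff₀ (by positivity) (by positivity)]
      have : (0 : ℝ) ≤ (Y l : ℝ) ^ 7 * J := by positivity
      nlinarith [mul_le_mul_of_nonneg_left h3 this]
    · by_cases hn : 2 ^ L < n
      · rw [h2 n hn]; simp
      · rw [← hY8]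
        calc _ ≤ 1 * (256 : ℝ) ^ (2 ^ L) :=
              mul_le_mul (h1 n) (pow_le_pow_right₀ (by norm_num) (not_lt.1 hn)) (by positivity)
                zero_le_one
          _ = _ := one_mul _
  have hphi := phi1_facts hJ hJL
  refine ⟨fun ω => 1 / V * (P I (phi0 L) ω * P I (phi0 L) ω),
    fun ω => ∑ i ∈ I, θ i ω * (1 / V * (P (I.erase i) (phi1 L J) ω * P (I.erase i) (phi1 L J) ω)),
    fun ω => mul_nonneg (by positivity) (mul_self_nonneg _),
    fun ω => sum_nonneg fun i hi => mul_nonneg ((hI i hi).θ_nonneg ω)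
      (mul_nonneg (by positivity) (mul_self_nonneg _)), ?_, ?_, ?_, ?_, ?_, ?_, ?_⟩
  · exact (hPdep I subset_rfl _).comp fun t => 1 / V * (t * t)
  · rw [Ex_mul_left, ← hV]; field_simp
  · calc _ ≤ Ex q S (fun ω => 4 * ∏ i ∈ I, (1 + ∑ l ∈ Ls, |u i l ω|) ^ 4) := by
          refine Ex_mono hq fun ω _ => ?_
          have h1 := Psi_abs_le om Ls (fun i l => u i l ω) I (phi0 L) (phi0_abs L)
          have h2 := pow_le_pow_left₀ (abs_nonneg _) h1 4
          rw [← prod_pow, Even.pow_abs (by decide)] at h2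
          have h3 : (1 / V) ^ 2 ≤ 4 := by
            have := pow_le_pow_left₀ (abs_nonneg _) hVinv 2
            rw [sq_abs] at this; linarith
          calc _ = (1 / V) ^ 2 * P I (phi0 L) ω ^ 4 := by ring
            _ ≤ _ := mul_le_mul h3 h2 (by positivity) (by norm_num)
      _ = 4 * ∏ i ∈ I, Ex q S (fun ω => (1 + ∑ l ∈ Ls, |u i l ω|) ^ 4) := by
          rw [Ex_mul_left, Ex_prod_indep q S I A (fun i _ j _ h => hA i j h)]
          intro i hi
          exact (Dep.sum Ls fun l hl => (hudep i hi l hl).comp fun t => |t|).comp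
            fun t => (1 + t) ^ 4
      _ ≤ 4 * ∏ i ∈ I, Real.exp (1 / J * ∑ l ∈ Ls, Cs * ρ l) := by
          refine mul_le_mul_of_nonneg_left (prod_le_prod
            (fun i _ => Ex_nonneg hq fun ω _ => by positivity) fun i hi => ?_) (by norm_num)
          calc _ ≤ Ex q S (fun ω => 1 / J * ∑ l ∈ Ls, (1 + |z i l ω|) ^ 4) := by
                refine Ex_mono hq fun ω _ => ?_
                have h1 := pow_sum_le_card_mul_sum_pow (s := Ls) (f := fun l => 1 + |z i l ω|)
                  (fun l _ => by positivity) 3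
                rw [hcard] at h1
                have e : 1 + ∑ l ∈ Ls, |u i l ω| = 1 / J * ∑ l ∈ Ls, (1 + |z i l ω|) := by
                  rw [sum_add_distrib, sum_const, nsmul_eq_mul, hcard, mul_add, mul_sum]
                  congr 1
                  · field_simp
                  · refine sum_congr rfl fun l _ => ?_
                    simp only [hu]
                    rw [abs_mul, abs_neg, abs_of_nonneg (by positivity)]
                rw [e, mul_pow]
                calc _ ≤ (1 / (J : ℝ)) ^ 4 * ((J : ℝ) ^ 3 * ∑ l ∈ Ls, (1 + |z i l ω|) ^ (3 + 1)) :=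
                      mul_le_mul_of_nonneg_left h1 (by positivity)
                  _ = _ := by field_simp
            _ ≤ 1 / J * ∑ l ∈ Ls, (1 + Cs * ρ l) := by
                rw [Ex_mul_left, Ex_sum]
                exact mul_le_mul_of_nonneg_left (sum_le_sum fun l hl => (hI i hi).four l hl)
                  (by positivity)
            _ = 1 / J * (∑ l ∈ Ls, Cs * ρ l) + 1 := by
                rw [sum_add_distrib, sum_const, nsmul_eq_mul, hcard]; field_simp; ring
            _ ≤ _ := Real.add_one_le_exp _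
      _ ≤ _ := by
          rw [prod_const, ← Real.exp_nat_mul]
          refine mul_le_mul_of_nonneg_left (Real.exp_le_exp.2 ?_) (by norm_num)
          rw [mul_left_comm, mul_sum, one_div_mul_eq_div, div_le_iff₀ hJ0, ← hcard, mul_comm _ (Ls.card : ℝ),
            ← nsmul_eq_mul]
          refine sum_le_card_nsmul _ _ _ fun l hl => ?_
          have h1 := hD l (mem_Ico.1 hl).2.le
          have h2 : (2 : ℝ) ^ L ≤ 2 ^ J * 2 ^ l := by
            rw [← pow_add]
            exact pow_le_pow_right₀ (by norm_num) (by have := (mem_Ico.1 hl).1; omega)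
          have h3 : (I.card : ℝ) * ρ l ≤ D * 2 ^ J := by
            have h4 : (0 : ℝ) < 2 ^ l := by positivity
            refine le_of_mul_le_mul_right (h1.trans ?_) h4
            rw [mul_assoc]
            exact mul_le_mul_of_nonneg_left h2 hD0
          calc _ = Cs * ((I.card : ℝ) * ρ l) := by ring
            _ ≤ Cs * (D * 2 ^ J) := mul_le_mul_of_nonneg_left h3 (by linarith)
            _ = _ := by ring
  · rw [Ex_sum]
    calc _ ≤ ∑ i ∈ I, Cs * ρ L * (4 * (Cs * D / J)) := by
          refine sum_le_sum fun i hi => ?_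
          have hdis : Disjoint (A i) (⋃ j ∈ I.erase i, A j) := by
            simp only [Set.disjoint_iUnion_right]
            exact fun j hj => hA i j (ne_of_mem_erase hj).symm
          rw [Ex_mul_indep q S hdis (hI i hi).dep_θ
            ((hPdep _ (erase_subset i I) _).comp fun t => 1 / V * (t * t)), Ex_mul_left,
            horth _ (erase_subset i I)]
          have h1 : Psi om Ls v (I.erase i) (fun n => phi1 L J n * phi1 L J n)
              ≤ Psi om Ls v (I.erase i) (fun n => 2 / 2 ^ L * (n : ℝ)) := by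
            refine Psi_mono om Ls v _ (fun i _ l _ => hv0 i l) _ _ fun n => ?_
            by_cases hn : 2 * n ≤ 2 ^ L
            · rw [(hphi n).2.2 hn, zero_mul]; positivity
            · have h2 : (2 : ℝ) ^ L ≤ 2 * n := by exact_mod_cast (not_le.1 hn).le
              have h3 : 1 ≤ 2 / 2 ^ L * (n : ℝ) := by
                rw [div_mul_eq_mul_div, one_le_div h2L]; exact h2
              have h4 := (hphi n).1
              have := abs_mul_abs_self (phi1 L J n)
              nlinarith [abs_nonneg (phi1 L J n)]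
          rw [Psi_mul] at h1
          have h2 := hid _ (erase_subset i I)
          have h3 : Psi om Ls v (I.erase i) (fun n => phi1 L J n * phi1 L J n)
              ≤ 2 * (Cs * D / J) * K := by
            refine h1.trans ((mul_le_mul_of_nonneg_left h2 (by positivity)).trans (le_of_eq ?_))
            field_simp
          have h4 : 1 / V * Psi om Ls v (I.erase i) (fun n => phi1 L J n * phi1 L J n)
              ≤ 4 * (Cs * D / J) := by
            rw [one_div_mul_eq_div, div_le_iff₀ hVpos]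
            have : 0 ≤ Cs * D / J := by positivity
            nlinarith
          have h5 : 0 ≤ Ex q S (θ i) := Ex_nonneg hq fun ω _ => (hI i hi).θ_nonneg ω
          exact (mul_le_mul_of_nonneg_left h4 h5).trans
            (mul_le_mul_of_nonneg_right (hI i hi).Eθ (by positivity))
      _ = 4 * Cs ^ 2 * D / J * ((I.card : ℝ) * ρ L) := by rw [sum_const, nsmul_eq_mul]; ring
      _ ≤ 4 * Cs ^ 2 * D / J * D :=
          mul_le_mul_of_nonneg_left (le_of_mul_le_mul_right (hD L le_rfl) h2L) (by positivity)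
      _ = _ := by ring
  · have h := hPlev I subset_rfl (phi0 L) (phi0_abs L) fun n hn => by
      unfold phi0; rw [if_neg (by omega)]
    refine ((h.mul h).smul (1 / V)).weaken ?_
    have : (0 : ℝ) ≤ (Y L : ℝ) ^ 16 := by positivity
    nlinarith [mul_le_mul_of_nonneg_right hVinv this]
  · rw [← nsmul_eq_mul, ← sum_const]
    refine Lev.sum I fun i hi => ?_
    have h := hPlev _ (erase_subset i I) (phi1 L J) (fun n => (hphi n).1) fun n => (hphi n).2.1
    refine ((hI i hi).lev_θ.mul ((h.mul h).smul (1 / V))).weaken ?_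
    have : (0 : ℝ) ≤ (Y L : ℝ) ^ 24 := by positivity
    nlinarith [mul_le_mul_of_nonneg_right hVinv this]
  · intro ω i hi hω
    refine le_trans (le_of_eq ?_) (single_le_sum (f := fun i => θ i ω *
      (1 / V * (P (I.erase i) (phi1 L J) ω * P (I.erase i) (phi1 L J) ω)))
      (fun j hj => mul_nonneg ((hI j hj).θ_nonneg ω)
        (mul_nonneg (by positivity) (mul_self_nonneg _))) hi)
    have : P I (phi0 L) ω = P (I.erase i) (phi1 L J) ω := by
      simp only [hP]
      conv_lhs => rw [← insert_erase hi, Psi_insert om Ls _ (notMem_erase i I)]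
      unfold phi1
      rw [Psi_add, Psi_sum]
      congr 1
      refine sum_congr rfl fun l hl => ?_
      rw [Psi_mul]
      simp only [hu, (hI i hi).nh_z ω hω l hl, mul_one, hom]
    simp only [(hI i hi).nh_θ ω hω, this, one_mul]

end Crest.Agent.H3.PG
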