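import Crest.Agent.H3.PGMain

/-! Choice of parameters. -/

set_option autoImplicit false

namespace Crest.Agent.H3.PG

open Finset

theorem log_Y (L : ℕ) : Real.log (Y L) = 2 ^ L * Real.log 2 := by
  simp only [Y, Nat.cast_pow, Nat.cast_ofNat, Real.log_pow]

theorem pi_lower {L x : ℕ} (h1 : 16 ≤ x) (h2 : x ≤ Y L ^ 100) :
    (x : ℝ) / (200 * 2 ^ L) ≤ x.primeCounting := by
  refine le_trans ?_ (Chebyshev.pi_ge x)
  have hx : (16 : ℝ) ≤ x := by exact_mod_cast h1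
  have hl2 := Real.log_two_gt_d9
  have hl2' := Real.log_two_lt_d9
  have hlx : 0 < Real.log x := Real.log_pos (by linarith)
  have h3 : Real.log x ≤ 100 * (2 ^ L * Real.log 2) := by
    rw [← log_Y]
    have : (x : ℝ) ≤ (Y L : ℝ) ^ 100 := by exact_mod_cast h2
    refine (Real.log_le_log (by linarith) this).trans (le_of_eq ?_)
    rw [Real.log_pow]; norm_num
  have h4 : Real.log (x + 1) ≤ x * Real.log 2 / 2 := by
    have h5 := Real.log_le_sub_one_of_pos (show (0 : ℝ) < (x + 1) / 2 ^ 4 by positivity)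
    rw [Real.log_div (by positivity) (by positivity), Real.log_pow] at h5
    push_cast at h5
    nlinarith
  rw [div_le_div_iff₀ (by positivity) hlx]
  have h6 : (0 : ℝ) < 2 ^ L := by positivity
  nlinarith [mul_le_mul_of_nonneg_left h3 (by linarith : (0 : ℝ) ≤ x),
    mul_le_mul_of_nonneg_left h4 h6.le]

theorem main_count (B : ℕ) (hB : 1 ≤ B) : ∃ c : ℝ, 0 < c ∧ ∃ L0 : ℕ, ∀ L, L0 ≤ L → ∀ x : ℕ,
    Y L ^ 50 ≤ x → x ≤ Y L ^ 100 → c * x / 2 ^ L ≤ (GP (B * 2 ^ L) (2 * x)).card := by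
  have hCs := one_le_Cs
  have hB0 : (1 : ℝ) ≤ B := by exact_mod_cast hB
  obtain ⟨D, hD⟩ : ∃ D : ℝ, D = 18 * Real.exp 28 * (Cs + 1) * B := ⟨_, rfl⟩
  have hD0 : 0 < D := by rw [hD]; positivity
  obtain ⟨t, ht⟩ : ∃ t : ℝ, t = (1 / 400) / (72 * (Cs * D) ^ 2 + 1) := ⟨_, rfl⟩
  have ht0 : 0 < t := by rw [ht]; positivity
  have ht2 : t * (72 * (Cs * D) ^ 2 + 1) = 1 / 400 := by rw [ht]; field_simp
  have hM : 0 ≤ t * (Cs * D) ^ 2 := by positivity
  have ht1 : t ≤ 1 := by linarith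
  have ht3 : 9 * (t ^ 2 * (Cs * D) ^ 2) ≤ t / 3200 := by
    have h1 : t * (Cs * D) ^ 2 ≤ 1 / 28800 := by linarith
    have h2 := mul_le_mul_of_nonneg_left h1 ht0.le
    linarith
  obtain ⟨δ, hδ⟩ : ∃ δ : ℝ, δ = t / 3200 := ⟨_, rfl⟩
  have hδ0 : 0 < δ := by rw [hδ]; positivity
  obtain ⟨J, hJ⟩ := exists_nat_ge (2 * Cs * D + 36 * Cs ^ 2 * D ^ 2 / δ + 1)
  have hJa : 0 ≤ 2 * Cs * D := by positivity
  have hJb : 0 ≤ 36 * Cs ^ 2 * D ^ 2 / δ := by positivity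
  have hJ1 : 1 ≤ J := by exact_mod_cast (show (1 : ℝ) ≤ J by linarith)
  have hJ0 : (0 : ℝ) < J := by linarith
  obtain ⟨T, hT⟩ := exists_nat_ge (36 * Real.exp (Cs * D * 2 ^ J) / δ ^ 2 + 1)
  have hTa : 0 ≤ 36 * Real.exp (Cs * D * 2 ^ J) / δ ^ 2 := by positivity
  have hT1 : 1 ≤ T := by exact_mod_cast (show (1 : ℝ) ≤ T by linarith)
  have hT0 : (0 : ℝ) < T := by linarith
  obtain ⟨L1, hL1⟩ := exists_nat_ge ((19 + 361 / δ) / δ)
  refine ⟨3 * δ / ((T + 1) * B), by positivity, (T + 1) * B + 2 * (7 + J) + L1 + 9,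
    fun L hL x hx1 hx2 => ?_⟩
  set l' := Nat.log 2 (L / 9) with hl'
  have hL9 : L / 9 ≠ 0 := by omega
  have hl1 : 2 ^ l' ≤ L / 9 := Nat.pow_log_le_self 2 hL9
  have hl2 : L / 9 < 2 ^ (l' + 1) := Nat.lt_pow_succ_log_self (by norm_num) _
  have hl3 : l' < 2 ^ l' := Nat.lt_two_pow_self
  have hL2 : L < 2 ^ L := Nat.lt_two_pow_self
  have hTB : (T + 1) * B ≤ 2 ^ L := by omega
  have hH : (T + 1) * (B * 2 ^ L) ≤ 2 ^ (2 * L) := by
    rw [← mul_assoc, two_mul, pow_add]; exact Nat.mul_le_mul_right _ hTB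
  have h2L : 2 * L ≤ 2 ^ L := by
    obtain ⟨k, rfl⟩ : ∃ k, L = k + 1 := ⟨L - 1, by omega⟩
    have : k < 2 ^ k := Nat.lt_two_pow_self
    rw [pow_succ]; omega
  have hHY : (T + 1) * (B * 2 ^ L) ≤ Y L := hH.trans (Nat.pow_le_pow_right (by norm_num) h2L)
  have hhY : B * 2 ^ L ≤ Y L := le_trans (Nat.le_mul_of_pos_left _ (by omega)) hHY
  have key := GW_card_ge (B := B) (J := J) (T := T) (L := L) (l' := l') x hB hJ1 hT1
    (by
      rw [Y, ← pow_mul]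
      exact Nat.pow_le_pow_right (by norm_num) (by omega))
    (by
      refine (Nat.pow_le_pow_left hH 2).trans ?_
      rw [Y, ← pow_mul]
      refine Nat.pow_le_pow_right (by norm_num) ?_
      rw [pow_succ] at hl2
      rw [pow_add]; omega)
    (by omega) (D := D) hD.ge (by linarith) ht0.le ht1 hδ0
  have hY2 := two_le_Y L
  have hY : (2 : ℝ) ≤ Y L := by exact_mod_cast hY2
  have hx : (Y L : ℝ) ^ 50 ≤ x := by exact_mod_cast hx1
  have hx0 : (0 : ℝ) ≤ x := by positivity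
  have hY48 : (1200 : ℝ) ≤ (Y L : ℝ) ^ 48 :=
    le_trans (by norm_num) (pow_le_pow_left₀ (by norm_num) hY 48)
  have hx3 : 1200 * (Y L : ℝ) ^ 2 ≤ x := by
    refine le_trans ?_ hx
    rw [show (Y L : ℝ) ^ 50 = (Y L : ℝ) ^ 48 * (Y L : ℝ) ^ 2 by ring]
    exact mul_le_mul_of_nonneg_right hY48 (by positivity)
  have hYY : 2 * (Y L : ℝ) ≤ (Y L : ℝ) ^ 2 := by
    rw [pow_two]; exact mul_le_mul_of_nonneg_right hY (by positivity)
  have hx16 : 16 ≤ x := by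
    have : (16 : ℝ) ≤ x := by linarith
    exact_mod_cast this
  have hpi := pi_lower hx16 hx2
  have h2L0 : (0 : ℝ) < 2 ^ L := by positivity
  have hhY' : ((B * 2 ^ L : ℕ) : ℝ) ≤ Y L := by exact_mod_cast hhY
  have e1 : (x : ℝ) / 400 ≤ (B * 2 ^ L : ℕ) * ((x.primeCounting : ℝ)
      - ((Y L + 1 : ℕ) + (B * 2 ^ L : ℕ))) := by
    have h1 : (x : ℝ) / 200 ≤ (B * 2 ^ L : ℕ) * (x.primeCounting : ℝ) := by
      calc (x : ℝ) / 200 = (1 * 2 ^ L) * (x / (200 * 2 ^ L)) := by field_simp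
        _ ≤ _ := by push_cast; gcongr
    have h2 : ((B * 2 ^ L : ℕ) : ℝ) * (((Y L + 1 : ℕ) : ℝ) + (B * 2 ^ L : ℕ)) ≤ Y L * (3 * Y L) := by
      refine mul_le_mul hhY' ?_ (by positivity) (by positivity)
      rw [Nat.cast_add, Nat.cast_one]; linarith
    rw [mul_sub]; linarith
  have e2 : 9 * (4 * Cs ^ 2 * D ^ 2 / J + 4 * Real.exp (Cs * D * 2 ^ J) / (T * δ)
      + t ^ 2 * (Cs * D) ^ 2) ≤ 3 * δ := by
    have h1 : 36 * Cs ^ 2 * D ^ 2 / J ≤ δ := by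
      rw [div_le_iff₀ hJ0, mul_comm δ, ← div_le_iff₀ hδ0]; linarith
    have h2 : 36 * Real.exp (Cs * D * 2 ^ J) / (T * δ) ≤ δ := by
      rw [div_le_iff₀ (by positivity), show δ * (T * δ) = T * δ ^ 2 by ring,
        ← div_le_iff₀ (by positivity)]
      linarith
    have h3 : 9 * (t ^ 2 * (Cs * D) ^ 2) ≤ δ := by rw [hδ]; exact ht3
    have h4 : 9 * (4 * Cs ^ 2 * D ^ 2 / J) = 36 * Cs ^ 2 * D ^ 2 / J := by ring
    have h5 : 9 * (4 * Real.exp (Cs * D * 2 ^ J) / (T * δ))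
      = 36 * Real.exp (Cs * D * 2 ^ J) / (T * δ) := by ring
    linarith
  have e3 : Y L * ((19 + 361 / δ) * (Y L : ℝ) ^ 32) ≤ δ * x := by
    have h1 : (19 + 361 / δ) ≤ Y L * δ := by
      rw [← div_le_iff₀ hδ0]
      refine hL1.trans ?_
      have : 2 ^ L < Y L := Nat.lt_two_pow_self
      exact_mod_cast (by omega : L1 ≤ Y L)
    calc _ ≤ Y L * ((Y L * δ) * (Y L : ℝ) ^ 32) := by gcongr
      _ = δ * (Y L : ℝ) ^ 34 := by ring
      _ ≤ δ * (Y L : ℝ) ^ 50 :=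
          mul_le_mul_of_nonneg_left (pow_le_pow_right₀ (by linarith) (by norm_num)) hδ0.le
      _ ≤ _ := by gcongr
  have e4 : 3 * δ * x ≤ (GW (B * 2 ^ L) T (Y L + 1) x).card := by
    have h1 := mul_le_mul_of_nonneg_left e1 ht0.le
    have h2 := mul_le_mul_of_nonneg_left e2 hx0
    have h3 : t * (x / 400) = 8 * δ * x := by rw [hδ]; ring
    linarith
  have e5 := GW_card_le (B * 2 ^ L) T (Y L + 1) x
  have e6 : (GP (B * 2 ^ L) (Y L + 1 + x + (T + 1) * (B * 2 ^ L))).card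
      ≤ (GP (B * 2 ^ L) (2 * x)).card := by
    refine card_le_card (filter_subset_filter _ (range_subset_range.2 ?_))
    have : 3 * Y L ≤ x := by
      have : 3 * (Y L : ℝ) ≤ x := by linarith
      exact_mod_cast this
    omega
  have e7 : ((GW (B * 2 ^ L) T (Y L + 1) x).card : ℝ)
      ≤ (GP (B * 2 ^ L) (2 * x)).card * ((T + 1) * (B * 2 ^ L)) := by
    exact_mod_cast e5.trans (Nat.mul_le_mul_right _ e6)
  rw [div_le_iff₀ h2L0, div_mul_eq_mul_div, div_le_iff₀ (by positivity)]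
  linarith

end Crest.Agent.H3.PG
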