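import Crest.Agent.H3.PGOne

/-! Elementary prime reciprocal estimates. -/

set_option autoImplicit false

namespace Crest.Agent.H3.PG

open Finset

/-- sum of `1/p` over primes in `(a, b]` -/
noncomputable def RS (a b : ℕ) : ℝ := ∑ p ∈ (Ioc a b).filter Nat.Prime, (1 / (p : ℝ))

theorem RS_nonneg (a b : ℕ) : 0 ≤ RS a b := sum_nonneg fun _ _ => by positivity

theorem RS_add {a b c : ℕ} (h1 : a ≤ b) (h2 : b ≤ c) : RS a b + RS b c = RS a c := by
  unfold RS
  simp only [sum_filter]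
  exact sum_Ioc_consecutive _ h1 h2

theorem theta_sub {a b : ℕ} (h : a ≤ b) :
    Chebyshev.theta b - Chebyshev.theta a = ∑ p ∈ (Ioc a b).filter Nat.Prime, Real.log p := by
  unfold Chebyshev.theta
  simp only [Nat.floor_natCast, sum_filter]
  rw [← sum_Ioc_consecutive _ (Nat.zero_le a) h]; ring

theorem RS_dyadic_le {k : ℕ} (hk : 1 ≤ k) : RS (2 ^ k) (2 ^ (k + 1)) ≤ 4 / k := by
  have hl2 : 0 < Real.log 2 := Real.log_pos (by norm_num)
  have hk0 : (0 : ℝ) < k := by exact_mod_cast hk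
  have h1 := theta_sub (a := 2 ^ k) (b := 2 ^ (k + 1)) (Nat.pow_le_pow_right (by norm_num) (by omega))
  have h2 := Chebyshev.theta_le_log4_mul_x (x := ((2 ^ (k + 1) : ℕ) : ℝ)) (by positivity)
  have h3 := Chebyshev.theta_nonneg ((2 ^ k : ℕ) : ℝ)
  have h4 : Real.log 4 = 2 * Real.log 2 := by
    rw [show (4 : ℝ) = 2 ^ 2 by norm_num, Real.log_pow]; norm_num
  have h5 : RS (2 ^ k) (2 ^ (k + 1)) ≤ 1 / (2 ^ k * (k * Real.log 2))
      * ∑ p ∈ (Ioc (2 ^ k) (2 ^ (k + 1))).filter Nat.Prime, Real.log p := by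
    unfold RS
    rw [mul_sum]
    refine sum_le_sum fun p hp => ?_
    have hp1 : (2 : ℝ) ^ k ≤ p := by exact_mod_cast (mem_Ioc.1 (mem_filter.1 hp).1).1.le
    have hp2 : k * Real.log 2 ≤ Real.log p := by
      rw [← Real.log_pow]; exact Real.log_le_log (by positivity) hp1
    have hp0 : (0 : ℝ) < p := lt_of_lt_of_le (by positivity) hp1
    rw [one_div_mul_eq_div, div_le_div_iff₀ hp0 (by positivity), one_mul, mul_comm]
    exact mul_le_mul hp2 hp1 (by positivity) (le_trans (by positivity) hp2)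
  refine h5.trans ?_
  rw [← h1, one_div_mul_eq_div, div_le_div_iff₀ (by positivity) hk0]
  push_cast at h2 h3 ⊢
  rw [h4, pow_succ] at h2
  have : (0 : ℝ) < 2 ^ k := by positivity
  rw [pow_succ]
  nlinarith

theorem lin_le_two_pow {k : ℕ} (hk : 7 ≤ k) : 10 * k + 11 ≤ 2 ^ k := by
  induction k, hk using Nat.le_induction with
  | base => norm_num
  | succ n hn ih => rw [pow_succ]; omega

theorem RS_quart_ge {k : ℕ} (hk : 7 ≤ k) : 1 / (8 * ((k : ℝ) + 1)) ≤ RS (4 ^ k) (4 ^ (k + 1)) := by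
  have hl2 : 0 < Real.log 2 := Real.log_pos (by norm_num)
  have h1 := theta_sub (a := 4 ^ k) (b := 4 ^ (k + 1)) (Nat.pow_le_pow_right (by norm_num) (by omega))
  have h2 := Chebyshev.theta_le_log4_mul_x (x := ((4 ^ k : ℕ) : ℝ)) (by positivity)
  have h3 := Chebyshev.theta_ge (4 ^ (k + 1))
  have h4 : Real.log 4 = 2 * Real.log 2 := by
    rw [show (4 : ℝ) = 2 ^ 2 by norm_num, Real.log_pow]; norm_num
  have hlog : Real.log ((4 : ℝ) ^ (k + 1)) = (2 * k + 2) * Real.log 2 := by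
    rw [Real.log_pow, h4]; push_cast; ring
  have h5 : 1 / (4 ^ (k + 1) * ((2 * k + 2) * Real.log 2))
      * ∑ p ∈ (Ioc (4 ^ k) (4 ^ (k + 1))).filter Nat.Prime, Real.log p
      ≤ RS (4 ^ k) (4 ^ (k + 1)) := by
    unfold RS
    rw [mul_sum]
    refine sum_le_sum fun p hp => ?_
    have hp1 : (p : ℝ) ≤ 4 ^ (k + 1) := by exact_mod_cast (mem_Ioc.1 (mem_filter.1 hp).1).2
    have hp0 : (0 : ℝ) < p := by exact_mod_cast (mem_filter.1 hp).2.pos
    have hp2 : Real.log p ≤ (2 * k + 2) * Real.log 2 := by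
      rw [← hlog]; exact Real.log_le_log hp0 hp1
    rw [one_div_mul_eq_div, div_le_div_iff₀ (by positivity) hp0, one_mul, mul_comm]
    exact mul_le_mul hp1 hp2 (Real.log_natCast_nonneg p) (by positivity)
  refine le_trans ?_ h5
  rw [← h1, one_div_mul_eq_div, div_le_div_iff₀ (by positivity) (by positivity)]
  push_cast at h2 h3 ⊢
  have hs : √((4 : ℝ) ^ (k + 1)) = 2 * 2 ^ k := by
    rw [show (4 : ℝ) ^ (k + 1) = (2 * 2 ^ k) ^ 2 by
      rw [mul_pow, ← pow_mul, mul_comm k 2, pow_mul, pow_succ']; norm_num]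
    exact Real.sqrt_sq (by positivity)
  have hl : Real.log ((4 : ℝ) ^ (k + 1) + 1) ≤ (2 * k + 3) * Real.log 2 := by
    have : (2 * k + 3) * Real.log 2 = Real.log (2 * 4 ^ (k + 1)) := by
      rw [Real.log_mul (by norm_num) (by positivity), hlog]; ring
    rw [this]
    refine Real.log_le_log (by positivity) ?_
    have : (1 : ℝ) ≤ 4 ^ (k + 1) := one_le_pow₀ (by norm_num)
    linarith
  have hk2 : 10 * k + 11 ≤ 2 ^ k := lin_le_two_pow hk
  have hk3 : 10 * (k : ℝ) + 11 ≤ 2 ^ k := by exact_mod_cast hk2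
  have h44 : (4 : ℝ) ^ k = 2 ^ k * 2 ^ k := by rw [← mul_pow]; norm_num
  have h2k : (1 : ℝ) ≤ 2 ^ k := one_le_pow₀ (by norm_num)
  have hk0 : (0 : ℝ) ≤ k := by positivity
  rw [hs, hlog] at h3
  rw [h4] at h2
  have key : (4 : ℝ) ^ k * Real.log 2 ≤ Chebyshev.theta (4 ^ (k + 1)) - Chebyshev.theta (4 ^ k) := by
    have h6 : (2 * k + 3) + 4 * 2 ^ k * (2 * k + 2) ≤ (4 : ℝ) ^ k := by
      rw [h44]; nlinarith
    have h7 := mul_le_mul_of_nonneg_right h6 hl2.le
    rw [pow_succ] at h3 hl ⊢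
    nlinarith
  rw [pow_succ] at key ⊢
  nlinarith

/-- primes of scale `m` -/
def QP (m : ℕ) : Finset ℕ := (Ioc (Y m) (Y (m + 1))).filter Nat.Prime

noncomputable def lam (m : ℕ) : ℝ := ∑ p ∈ QP m, (1 / (p : ℝ))

theorem lam_eq (m : ℕ) : lam m = RS (Y m) (Y (m + 1)) := rfl

theorem lam_nonneg (m : ℕ) : 0 ≤ lam m := RS_nonneg _ _

theorem lam_le (m : ℕ) : lam m ≤ 4 := by
  have h : ∀ a j : ℕ, 1 ≤ a → RS (2 ^ a) (2 ^ (a + j)) ≤ 4 * j / a := by
    intro a j ha
    induction j with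
    | zero => simp [RS]
    | succ j ih =>
      rw [← RS_add (b := 2 ^ (a + j)) (Nat.pow_le_pow_right (by norm_num) (by omega))
        (Nat.pow_le_pow_right (by norm_num) (by omega))]
      have h1 := RS_dyadic_le (k := a + j) (by omega)
      have ha0 : (0 : ℝ) < a := by exact_mod_cast ha
      have h2 : (4 : ℝ) / ((a + j : ℕ) : ℝ) ≤ 4 / a := by
        apply div_le_div_of_nonneg_left (by norm_num) ha0
        push_cast; linarith [(Nat.cast_nonneg j : (0 : ℝ) ≤ j)]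
      rw [← add_assoc]
      push_cast at h1 h2 ⊢
      rw [mul_add, add_div]
      linarith
  have := h (2 ^ m) (2 ^ m) Nat.one_le_two_pow
  rw [lam_eq, Y, Y, pow_succ, mul_two]
  refine this.trans (le_of_eq ?_)
  field_simp

theorem lam_ge {m : ℕ} (hm : 4 ≤ m) : 1 / 16 ≤ lam m := by
  have h : ∀ a j : ℕ, 7 ≤ a → j ≤ a → (j : ℝ) / (16 * a) ≤ RS (4 ^ a) (4 ^ (a + j)) := by
    intro a j ha hj
    induction j with
    | zero => simp [RS]
    | succ j ih =>
      rw [← RS_add (b := 4 ^ (a + j)) (Nat.pow_le_pow_right (by norm_num) (by omega))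
        (Nat.pow_le_pow_right (by norm_num) (by omega))]
      have h1 := RS_quart_ge (k := a + j) (by omega)
      have ha0 : (0 : ℝ) < a := by exact_mod_cast (by omega : 0 < a)
      have h2 : (1 : ℝ) / (16 * a) ≤ 1 / (8 * (((a + j : ℕ) : ℝ) + 1)) := by
        apply div_le_div_of_nonneg_left (by norm_num) (by positivity)
        have : ((j + 1 : ℕ) : ℝ) ≤ a := by exact_mod_cast hj
        push_cast at this ⊢; linarith
      have h3 := ih (by omega)
      rw [← add_assoc]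
      push_cast at h1 h2 ⊢
      rw [add_div]
      linarith
  obtain ⟨k, rfl⟩ : ∃ k, m = k + 1 := ⟨m - 1, by omega⟩
  have h8 : 8 ≤ 2 ^ k := by
    calc 8 = 2 ^ 3 := by norm_num
      _ ≤ 2 ^ k := Nat.pow_le_pow_right (by norm_num) (by omega)
  have := h (2 ^ k) (2 ^ k) (by omega) le_rfl
  have e1 : Y (k + 1) = 4 ^ 2 ^ k := by
    rw [Y, pow_succ, mul_comm, pow_mul]; norm_num
  have e2 : Y (k + 1 + 1) = 4 ^ (2 ^ k + 2 ^ k) := by
    rw [Y_succ, e1, ← pow_mul, mul_two]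
  rw [lam_eq, e1, e2]
  refine le_trans (le_of_eq ?_) this
  field_simp

theorem sum_lam (l : ℕ) : ∑ m ∈ range l, lam m = RS 2 (Y l) := by
  induction l with
  | zero => simp [RS, Y]
  | succ l ih => rw [sum_range_succ, ih, lam_eq, RS_add (two_le_Y l) (Y_mono (by omega))]

theorem log_le_exp_RS (N : ℕ) : Real.log N ≤ Real.exp (RS 0 N + 1) := by
  let f : ℕ →* ℝ := ⟨⟨fun n => (n : ℝ)⁻¹, by simp⟩, fun a b => by push_cast; rw [mul_inv]⟩
  have hf : ∀ n, f n = (n : ℝ)⁻¹ := fun _ => rfl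
  have h := (EulerProduct.summable_and_hasSum_factoredNumbers_prod_filter_prime_geometric
    (f := f) (fun {p} hp => by
      rw [hf, Real.norm_eq_abs, abs_of_nonneg (by positivity)]
      exact inv_lt_one_of_one_lt₀ (by exact_mod_cast hp.one_lt)) (Ioc 0 N)).2
  have h1 : Real.log N ≤ ∑ n ∈ Icc 1 N, (n : ℝ)⁻¹ := by
    have := log_add_one_le_harmonic N
    rw [harmonic_eq_sum_Icc] at this
    push_cast at this
    rcases Nat.eq_zero_or_pos N with rfl | hN
    · simp
    · exact (Real.log_le_log (by exact_mod_cast hN) (by linarith)).trans this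
  have h2 : ∑ n ∈ Icc 1 N, (n : ℝ)⁻¹ ≤ ∏ p ∈ (Ioc 0 N).filter Nat.Prime, (1 - f p)⁻¹ := by
    have hmem : ∀ n ∈ Icc 1 N, n ∈ Nat.factoredNumbers (Ioc 0 N) := by
      intro n hn
      have hn' := mem_Icc.1 hn
      refine ⟨by omega, fun p hp => mem_Ioc.2 ⟨(Nat.prime_of_mem_primeFactorsList hp).pos,
        (Nat.le_of_mem_primeFactorsList hp).trans hn'.2⟩⟩
    have := sum_le_hasSum ((Icc 1 N).subtype (· ∈ Nat.factoredNumbers (Ioc 0 N)))
      (fun i _ => by rw [hf]; positivity) h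
    rw [sum_subtype_of_mem (f := fun n => f n) hmem] at this
    exact this
  refine h1.trans (h2.trans ?_)
  have h3 : ∀ M : ℕ, ∑ n ∈ Ioc 1 (M + 1), (1 / ((n : ℝ) - 1) - 1 / n) ≤ 1 - 1 / ((M : ℝ) + 1) := by
    intro M
    induction M with
    | zero => simp
    | succ M ih =>
      rw [sum_Ioc_succ_top (by omega)]
      push_cast at ih ⊢
      have : (M : ℝ) + 1 + 1 - 1 = M + 1 := by ring
      rw [this]; linarith
  calc _ ≤ ∏ p ∈ (Ioc 0 N).filter Nat.Prime, Real.exp (1 / p + (1 / ((p : ℝ) - 1) - 1 / p)) := by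
        refine prod_le_prod (fun p hp => ?_) fun p hp => ?_
        · have : (2 : ℝ) ≤ p := by exact_mod_cast (mem_filter.1 hp).2.two_le
          rw [hf, inv_nonneg, sub_nonneg]
          exact inv_le_one_of_one_le₀ (by linarith)
        · have : (2 : ℝ) ≤ p := by exact_mod_cast (mem_filter.1 hp).2.two_le
          refine le_trans (le_of_eq ?_) (Real.add_one_le_exp _)
          have h5 : (p : ℝ) - 1 ≠ 0 := by linarith
          rw [hf]; field_simp; ring
    _ = Real.exp (RS 0 N + ∑ p ∈ (Ioc 0 N).filter Nat.Prime, (1 / ((p : ℝ) - 1) - 1 / p)) := by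
        rw [← Real.exp_sum, sum_add_distrib]; rfl
    _ ≤ _ := by
        refine Real.exp_le_exp.2 (add_le_add le_rfl ?_)
        have h4 : (0 : ℝ) ≤ 1 / ((N : ℝ) + 1) := by positivity
        refine le_trans (sum_le_sum_of_subset_of_nonneg (fun p hp => ?_) fun n hn _ => ?_)
          ((h3 N).trans (by linarith))
        · have := mem_filter.1 hp
          exact mem_Ioc.2 ⟨this.2.one_lt, (mem_Ioc.1 this.1).2.trans (by omega)⟩
        · have : (2 : ℝ) ≤ n := by exact_mod_cast (mem_Ioc.1 hn).1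
          rw [sub_nonneg]
          exact one_div_le_one_div_of_le (by linarith) (by linarith)

theorem exp_neg_sum_lam (l : ℕ) : Real.exp (-∑ m ∈ range l, lam m) * 2 ^ l ≤ 18 := by
  have h1 := log_le_exp_RS (Y l)
  have h2 : RS 0 2 = 1 / 2 := by
    have : (Ioc 0 2).filter Nat.Prime = {2} := by decide
    simp [RS, this]
  rw [← RS_add (Nat.zero_le 2) (two_le_Y l), h2, ← sum_lam] at h1
  have h3 : Real.log (Y l) = 2 ^ l * Real.log 2 := by
    simp only [Y, Nat.cast_pow, Nat.cast_ofNat, Real.log_pow]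
  have h4 := Real.log_two_gt_d9
  have h5 : Real.exp 2 ≤ 9 := by
    have := Real.exp_one_lt_three
    have h0 := Real.exp_pos 1
    rw [show (2 : ℝ) = 1 + 1 by norm_num, Real.exp_add]; nlinarith
  have h6 : Real.exp (1 / 2 + ∑ m ∈ range l, lam m + 1) ≤ 9 * Real.exp (∑ m ∈ range l, lam m) := by
    refine le_trans (Real.exp_le_exp.2 (show _ ≤ 2 + ∑ m ∈ range l, lam m by linarith)) ?_
    rw [Real.exp_add]
    exact mul_le_mul_of_nonneg_right h5 (Real.exp_pos _).le
  rw [Real.exp_neg, inv_mul_le_iff₀ (Real.exp_pos _)]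
  have : (0 : ℝ) < 2 ^ l := by positivity
  nlinarith

end Crest.Agent.H3.PG
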