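import Crest.Agent.H3.PGLev

/-! Transfer from integers in a residue class to the independent model. -/

set_option autoImplicit false

namespace Crest.Agent.H3.PG

open Finset

theorem cnt_erase {α : Type} [DecidableEq α] {Q : Finset α} {c : α} (hc : c ∈ Q) (ω : Finset α) :
    cnt Q ω = cnt (Q.erase c) ω + if c ∈ ω then 1 else 0 := by
  have h := cnt_eq_sum Q ω
  rw [← add_sum_erase Q _ hc, ← cnt_eq_sum] at h
  unfold X at h
  split_ifs at h ⊢
  · have : (cnt Q ω : ℝ) = ((cnt (Q.erase c) ω + 1 : ℕ) : ℝ) := by push_cast; linarith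
    exact_mod_cast this
  · have : (cnt Q ω : ℝ) = ((cnt (Q.erase c) ω + 0 : ℕ) : ℝ) := by push_cast; linarith
    exact_mod_cast this

/-- coordinates: (prime, position) -/
def SS (P : Finset ℕ) (H : ℕ) : Finset (ℕ × ℕ) := P ×ˢ range H

/-- the hits of the integer `m` -/
def hits (P : Finset ℕ) (H m : ℕ) : Finset (ℕ × ℕ) := (SS P H).filter (fun c => c.1 ∣ m + c.2)

/-- the model probabilities -/
noncomputable def qq (H : ℕ) (c : ℕ × ℕ) : ℝ := 1 / ((c.1 : ℝ) - H + 1)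

noncomputable def zz (H p : ℕ) : ℝ := (1 - (H : ℝ) / p) / (1 - 1 / ((p : ℝ) - H + 1)) ^ H

def RR (H p : ℕ) : Finset (ℕ × ℕ) := {p} ×ˢ range H

def DD (H p : ℕ) (ω : Finset (ℕ × ℕ)) : ℝ := if cnt (RR H p) ω ≤ 1 then 1 else 0

theorem RR_subset {P : Finset ℕ} {H p : ℕ} (hp : p ∈ P) : RR H p ⊆ SS P H :=
  product_subset_product_left (by simpa using hp)

theorem mem_RR {H p : ℕ} {c : ℕ × ℕ} : c ∈ RR H p ↔ c.1 = p ∧ c.2 < H := by
  simp only [RR, mem_product, mem_singleton, mem_range]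

theorem card_RR (H p : ℕ) : (RR H p).card = H := by simp [RR]

theorem qq_bounds {H : ℕ} {c : ℕ × ℕ} (h : H < c.1) : 0 ≤ qq H c ∧ qq H c ≤ 1 := by
  have : (H : ℝ) + 1 ≤ c.1 := by exact_mod_cast h
  unfold qq
  constructor
  · apply div_nonneg <;> linarith
  · rw [div_le_one] <;> linarith

theorem Ex_X_DD {P : Finset ℕ} {H p : ℕ} (hp : p ∈ P) {c : ℕ × ℕ} (hc : c ∈ RR H p) :
    Ex (qq H) (SS P H) (fun ω => X c ω * DD H p ω)
      = 1 / ((p : ℝ) - H + 1) * (1 - 1 / ((p : ℝ) - H + 1)) ^ (H - 1) := by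
  have e : ∀ ω, X c ω * DD H p ω = X c ω * (0 : ℝ) ^ cnt ((RR H p).erase c) ω := by
    intro ω
    unfold X DD
    by_cases h : c ∈ ω
    · rw [cnt_erase hc ω]
      simp only [h, if_true, one_mul]
      rcases Nat.eq_zero_or_pos (cnt ((RR H p).erase c) ω) with h0 | h0
      · simp [h0]
      · rw [if_neg (by omega), zero_pow (by omega)]
    · simp [h]
  simp only [e]
  rw [Ex_mul_indep (qq H) (SS P H) (A := {c}) (B := (((RR H p).erase c : Finset _) : Set _))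
    (by simp) (X_dep c) (cnt_dep _ (fun n => (0 : ℝ) ^ n)), Ex_X _ (RR_subset hp hc),
    Ex_pow_cnt _ ((erase_subset _ _).trans (RR_subset hp))]
  have h1 : c.1 = p := (mem_RR.1 hc).1
  congr 1
  · simp [qq, h1]
  · rw [prod_congr rfl (g := fun _ => 1 - 1 / ((p : ℝ) - H + 1)), prod_const,
      card_erase_of_mem hc, card_RR]
    intro d hd
    have : d.1 = p := (mem_RR.1 (mem_of_mem_erase hd)).1
    simp only [qq, this]; ring

theorem Ex_DD {P : Finset ℕ} {H p : ℕ} (hp : p ∈ P) :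
    Ex (qq H) (SS P H) (DD H p) = (1 - 1 / ((p : ℝ) - H + 1)) ^ H
      + H * (1 / ((p : ℝ) - H + 1) * (1 - 1 / ((p : ℝ) - H + 1)) ^ (H - 1)) := by
  have e : DD H p = fun ω => (0 : ℝ) ^ cnt (RR H p) ω + ∑ c ∈ RR H p, X c ω * DD H p ω := by
    funext ω
    rw [← sum_mul, ← cnt_eq_sum]
    unfold DD
    rcases Nat.eq_zero_or_pos (cnt (RR H p) ω) with h0 | h0
    · simp [h0]
    · rw [zero_pow (by omega)]
      split_ifs with h
      · have : cnt (RR H p) ω = 1 := by omega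
        simp [this]
      · simp
  rw [e, Ex_add, Ex_sum, Ex_pow_cnt _ (RR_subset hp),
    sum_congr rfl (fun c hc => Ex_X_DD hp hc), sum_const, card_RR, nsmul_eq_mul]
  congr 1
  rw [prod_congr rfl (g := fun _ => 1 - 1 / ((p : ℝ) - H + 1)), prod_const, card_RR]
  intro d hd
  have : d.1 = p := (mem_RR.1 hd).1
  simp only [qq, this]; ring

theorem zz_Ex_X_DD {P : Finset ℕ} {H p : ℕ} (hp : p ∈ P) (hH : H < p) {c : ℕ × ℕ}
    (hc : c ∈ RR H p) :
    zz H p * Ex (qq H) (SS P H) (fun ω => X c ω * DD H p ω) = 1 / p := by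
  rw [Ex_X_DD hp hc]
  have hH1 : 1 ≤ H := by have := (mem_RR.1 hc).2; omega
  obtain ⟨k, rfl⟩ : ∃ k, H = k + 1 := ⟨H - 1, by omega⟩
  have h1 : ((k + 1 : ℕ) : ℝ) + 1 ≤ p := by exact_mod_cast hH
  unfold zz
  simp only [Nat.add_sub_cancel]
  set t : ℝ := (p : ℝ) - ((k + 1 : ℕ) : ℝ) with ht
  have ht1 : 1 ≤ t := by linarith
  have hp0 : (0 : ℝ) < p := by have : (0 : ℝ) ≤ ((k + 1 : ℕ) : ℝ) := by positivity
                               linarith
  have h2 : 1 - 1 / (t + 1) = t / (t + 1) := by field_simp; ring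
  have h3 : 1 - ((k + 1 : ℕ) : ℝ) / p = t / p := by rw [ht]; field_simp
  rw [h2, h3, pow_succ]
  have : t / (t + 1) ≠ 0 := by positivity
  field_simp

theorem zz_Ex_DD {P : Finset ℕ} {H p : ℕ} (hp : p ∈ P) (hH : H < p) :
    zz H p * Ex (qq H) (SS P H) (DD H p) = 1 := by
  rw [Ex_DD hp]
  rcases Nat.eq_zero_or_pos H with rfl | hH1
  · simp [zz]
  obtain ⟨k, rfl⟩ : ∃ k, H = k + 1 := ⟨H - 1, by omega⟩
  have h1 : ((k + 1 : ℕ) : ℝ) + 1 ≤ p := by exact_mod_cast hH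
  unfold zz
  simp only [Nat.add_sub_cancel]
  set t : ℝ := (p : ℝ) - ((k + 1 : ℕ) : ℝ) with ht
  have ht1 : 1 ≤ t := by linarith
  have hp0 : (0 : ℝ) < p := by have : (0 : ℝ) ≤ ((k + 1 : ℕ) : ℝ) := by positivity
                               linarith
  have h2 : 1 - 1 / (t + 1) = t / (t + 1) := by field_simp; ring
  have h3 : 1 - ((k + 1 : ℕ) : ℝ) / p = t / p := by rw [ht]; field_simp
  have h4 : ((k + 1 : ℕ) : ℝ) = p - t := by rw [ht]; ring
  rw [h2, h3, pow_succ, h4]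
  have : t / (t + 1) ≠ 0 := by positivity
  field_simp
  ring

theorem zz_nonneg {H p : ℕ} (hH : H < p) : 0 ≤ zz H p := by
  have h1 : (H : ℝ) + 1 ≤ p := by exact_mod_cast hH
  have hp0 : (0 : ℝ) < p := by have : (0 : ℝ) ≤ H := by positivity
                               linarith
  unfold zz
  apply div_nonneg
  · rw [sub_nonneg, div_le_one hp0]; linarith
  · apply pow_nonneg
    rw [sub_nonneg, div_le_one] <;> linarith

/-- the conditioned model -/
noncomputable def Emu (P : Finset ℕ) (H : ℕ) (F : Finset (ℕ × ℕ) → ℝ) : ℝ :=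
  (∏ p ∈ P, zz H p) * Ex (qq H) (SS P H) (fun ω => F ω * ∏ p ∈ P, DD H p ω)

theorem DD_dep (H p : ℕ) : Dep {c : ℕ × ℕ | c.1 = p} (DD H p) :=
  (cnt_dep (RR H p) (fun n => if n ≤ 1 then 1 else 0)).mono fun _ hc => (mem_RR.1 hc).1

theorem Emu_ind_inj {P : Finset ℕ} {H : ℕ} (hH : ∀ p ∈ P, H < p) {U : Finset (ℕ × ℕ)}
    (hU : U ⊆ SS P H) (hinj : Set.InjOn Prod.fst (U : Set (ℕ × ℕ))) :
    Emu P H (ind U) = ∏ c ∈ U, (1 / (c.1 : ℝ)) := by
  have hmaps : ∀ c ∈ U, c.1 ∈ P := fun c hc => (mem_product.1 (hU hc)).1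
  unfold Emu
  have e : ∀ ω, ind U ω * ∏ p ∈ P, DD H p ω
      = ∏ p ∈ P, ((∏ c ∈ U.filter (fun c => c.1 = p), X c ω) * DD H p ω) := by
    intro ω
    rw [prod_mul_distrib, prod_fiberwise_of_maps_to hmaps, ind_eq_prod]
  simp only [e]
  rw [Ex_prod_indep (qq H) (SS P H) P (fun p => {c : ℕ × ℕ | c.1 = p}), ← prod_mul_distrib,
    ← prod_fiberwise_of_maps_to hmaps]
  · refine prod_congr rfl fun p hp => ?_
    rcases (U.filter (fun c => c.1 = p)).eq_empty_or_nonempty with h0 | ⟨c, hc⟩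
    · simp only [h0, prod_empty, one_mul]
      exact zz_Ex_DD hp (hH p hp)
    · have hc' := mem_filter.1 hc
      have h1 : U.filter (fun c => c.1 = p) = {c} := by
        refine eq_singleton_iff_unique_mem.2 ⟨hc, fun d hd => ?_⟩
        have hd' := mem_filter.1 hd
        exact hinj hd'.1 hc'.1 (hd'.2.trans hc'.2.symm)
      simp only [h1, prod_singleton]
      rw [zz_Ex_X_DD hp (hH p hp) (mem_RR.2 ⟨hc'.2, mem_range.1 (mem_product.1 (hU hc'.1)).2⟩),
        hc'.2]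
  · intro i _ j _ hij
    rw [Set.disjoint_left]
    intro c h1 h2
    exact hij ((show c.1 = i from h1).symm.trans h2)
  · intro p _
    refine Dep.mul (Dep.prod _ fun c hc => (X_dep c).mono ?_) (DD_dep H p)
    simpa using (mem_filter.1 hc).2

theorem Emu_ind_zero {P : Finset ℕ} {H : ℕ} {U : Finset (ℕ × ℕ)}
    (h : ¬ (U ⊆ SS P H ∧ Set.InjOn Prod.fst (U : Set (ℕ × ℕ)))) : Emu P H (ind U) = 0 := by
  unfold Emu
  rw [Ex_congr _ _ (G := fun _ => 0), Ex_const, mul_zero]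
  intro ω hω
  by_cases hUω : U ⊆ ω
  · have hU : U ⊆ SS P H := hUω.trans hω
    have hn : ¬ Set.InjOn Prod.fst (U : Set (ℕ × ℕ)) := fun h' => h ⟨hU, h'⟩
    unfold Set.InjOn at hn
    push Not at hn
    obtain ⟨c, hc, d, hd, h1, h2⟩ := hn
    have hcS := mem_product.1 (hU hc)
    have hdS := mem_product.1 (hU hd)
    rw [prod_eq_zero hcS.1, mul_zero]
    unfold DD
    rw [if_neg]
    rw [not_le]
    refine one_lt_card.2 ⟨c, ?_, d, ?_, h2⟩
    · exact mem_filter.2 ⟨mem_RR.2 ⟨rfl, mem_range.1 hcS.2⟩, hUω hc⟩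
    · exact mem_filter.2 ⟨mem_RR.2 ⟨h1.symm, mem_range.1 hdS.2⟩, hUω hd⟩
  · simp [ind, hUω]

theorem transfer_ind {P : Finset ℕ} {H W : ℕ} (hP : ∀ p ∈ P, p.Prime) (hH : ∀ p ∈ P, H < p)
    (hW0 : 0 < W) (hW : ∀ p ∈ P, Nat.Coprime W p) (a x b : ℕ) (U : Finset (ℕ × ℕ)) :
    |∑ m ∈ (Ico a (a + x)).filter (fun m => m ≡ b [MOD W]), ind U (hits P H m)
      - (x : ℝ) / W * Emu P H (ind U)| ≤ 1 := by
  by_cases h : U ⊆ SS P H ∧ Set.InjOn Prod.fst (U : Set (ℕ × ℕ))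
  · have hmaps : ∀ c ∈ U, c.1 ∈ P := fun c hc => (mem_product.1 (h.1 hc)).1
    obtain ⟨r, hr⟩ := crt_hits W b U (fun c hc => hP _ (hmaps c hc))
      (fun c hc => hW _ (hmaps c hc)) h.2
    have hM : 0 < W * ∏ c ∈ U, c.1 :=
      Nat.mul_pos hW0 (prod_pos fun c hc => (hP _ (hmaps c hc)).pos)
    have := count_modEq_err a x _ r hM
    rw [Emu_ind_inj hH h.1 h.2]
    convert this using 3
    · unfold ind
      rw [sum_boole, filter_filter]
      congr 2
      refine filter_congr fun m _ => ?_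
      rw [← hr m]
      refine and_congr_right fun _ => ⟨fun h1 c hc => (mem_filter.1 (h1 hc)).2, fun h1 c hc => ?_⟩
      exact mem_filter.2 ⟨h.1 hc, h1 c hc⟩
    · push_cast
      rw [prod_div_distrib, prod_const_one]
      ring
  · rw [Emu_ind_zero h, sum_eq_zero]
    · simp
    · intro m _
      unfold ind
      rw [if_neg]
      intro hU
      apply h
      refine ⟨hU.trans (filter_subset _ _), fun c hc d hd hcd => ?_⟩
      have h1 := mem_filter.1 (hU hc)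
      have h2 := mem_filter.1 (hU hd)
      have h3 := mem_product.1 h1.1
      have h4 := mem_product.1 h2.1
      have h5 := hH _ h3.1
      have h6 := mem_range.1 h3.2
      have h7 := mem_range.1 h4.2
      have hcd' : c.1 = d.1 := hcd
      have h8 : c.2 ≡ d.2 [MOD c.1] := by
        have e1 := Nat.modEq_zero_iff_dvd.2 h1.2
        have e2 := Nat.modEq_zero_iff_dvd.2 (hcd' ▸ h2.2 : c.1 ∣ m + d.2)
        exact Nat.ModEq.add_left_cancel' m (e1.trans e2.symm)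
      exact Prod.ext hcd' (Nat.ModEq.eq_of_lt_of_lt h8 (by omega) (by omega))

theorem transfer_lev {P : Finset ℕ} {H W : ℕ} (hP : ∀ p ∈ P, p.Prime) (hH : ∀ p ∈ P, H < p)
    (hW0 : 0 < W) (hW : ∀ p ∈ P, Nat.Coprime W p) (a x b : ℕ) {A : ℝ}
    {F : Finset (ℕ × ℕ) → ℝ} (hF : Lev A F) :
    |∑ m ∈ (Ico a (a + x)).filter (fun m => m ≡ b [MOD W]), F (hits P H m)
      - (x : ℝ) / W * Emu P H F| ≤ A := by
  induction hF with
  | mono U c =>
    have h := transfer_ind hP hH hW0 hW a x b U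
    have e : Emu P H (fun ω => c * ind U ω) = c * Emu P H (ind U) := by
      unfold Emu
      simp only [mul_assoc]
      rw [Ex_mul_left]; ring
    rw [e, ← mul_sum, mul_left_comm, ← mul_sub, abs_mul]
    exact mul_le_of_le_one_right (abs_nonneg c) h
  | @add A B F G _ _ h1 h2 =>
    have e : Emu P H (fun ω => F ω + G ω) = Emu P H F + Emu P H G := by
      unfold Emu
      simp only [add_mul]
      rw [Ex_add]; ring
    rw [e, sum_add_distrib]
    refine le_trans (le_of_eq ?_) ((abs_add_le _ _).trans (add_le_add h1 h2))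
    congr 1; ring
  | weaken _ h1 h2 => exact h2.trans h1

theorem qq_SS {P : Finset ℕ} {H : ℕ} (hH : ∀ p ∈ P, H < p) :
    ∀ c ∈ SS P H, 0 ≤ qq H c ∧ qq H c ≤ 1 :=
  fun _ hc => qq_bounds (hH _ (mem_product.1 hc).1)

/-- The transfer inequality. -/
theorem transfer {P : Finset ℕ} {H W : ℕ} (hP : ∀ p ∈ P, p.Prime) (hH : ∀ p ∈ P, H < p)
    (hW0 : 0 < W) (hW : ∀ p ∈ P, Nat.Coprime W p) (a x b : ℕ) {A : ℝ}
    {F : Finset (ℕ × ℕ) → ℝ} (hF : Lev A F) (hF0 : ∀ ω, 0 ≤ F ω) :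
    ∑ m ∈ (Ico a (a + x)).filter (fun m => m ≡ b [MOD W]), F (hits P H m)
      ≤ (x : ℝ) / W * ((∏ p ∈ P, zz H p) * Ex (qq H) (SS P H) F) + A := by
  have h := (abs_le.1 (transfer_lev hP hH hW0 hW a x b hF)).2
  have h2 : Emu P H F ≤ (∏ p ∈ P, zz H p) * Ex (qq H) (SS P H) F := by
    unfold Emu
    refine mul_le_mul_of_nonneg_left (Ex_mono (qq_SS hH) fun ω _ => ?_)
      (prod_nonneg fun p hp => zz_nonneg (hH p hp))
    refine mul_le_of_le_one_right (hF0 ω) (prod_le_one (fun p _ => ?_) fun p _ => ?_)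
    · unfold DD; split_ifs <;> norm_num
    · unfold DD; split_ifs <;> norm_num
  have h3 : (0 : ℝ) ≤ (x : ℝ) / W := by positivity
  nlinarith [mul_le_mul_of_nonneg_left h2 h3]

theorem zz_one {p : ℕ} (hp : 1 < p) : zz 1 p = 1 := by
  have : (1 : ℝ) < p := by exact_mod_cast hp
  unfold zz
  simp only [Nat.cast_one, sub_add_cancel, pow_one]
  apply div_self
  have : 1 / (p : ℝ) < 1 := by rw [div_lt_one] <;> linarith
  linarith

theorem zz_le {H p : ℕ} (hH : 4 * H ≤ p) (hp : 0 < p) : zz H p ≤ 1 + 2 * (H : ℝ) ^ 2 / (p : ℝ) ^ 2 := by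
  have h1 : 4 * (H : ℝ) ≤ p := by exact_mod_cast hH
  have hp0 : (1 : ℝ) ≤ p := by exact_mod_cast hp
  have hH0 : (0 : ℝ) ≤ H := by positivity
  unfold zz
  set t : ℝ := (p : ℝ) - H + 1 with ht
  have ht1 : 1 ≤ t := by linarith
  have hb : 1 + (H : ℝ) * (-(1 / t)) ≤ (1 + -(1 / t)) ^ H := by
    apply one_add_mul_le_pow
    have : 1 / t ≤ 1 := by rw [div_le_one] <;> linarith
    linarith
  have hpos : 0 < 1 + (H : ℝ) * (-(1 / t)) := by
    have : (H : ℝ) * (1 / t) < 1 := by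
      rw [mul_one_div, div_lt_one] <;> linarith
    linarith
  rw [← sub_eq_add_neg] at hb
  rw [div_le_iff₀ (hpos.trans_le hb)]
  refine le_trans ?_ (mul_le_mul_of_nonneg_left hb (by positivity))
  have e1 : 1 - (H : ℝ) / p = ((p : ℝ) - H) * p * t / (p ^ 2 * t) := by field_simp
  have e2 : (1 + 2 * (H : ℝ) ^ 2 / (p : ℝ) ^ 2) * (1 + (H : ℝ) * (-(1 / t)))
      = (p ^ 2 + 2 * H ^ 2) * (t - H) / (p ^ 2 * t) := by field_simp; ring
  rw [e1, e2]
  apply div_le_div_of_nonneg_right _ (by positivity)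
  rw [ht]
  nlinarith [mul_nonneg hH0 hH0, mul_nonneg (mul_nonneg hH0 hH0) (sub_nonneg.2 h1),
    mul_nonneg hH0 (by linarith : (0 : ℝ) ≤ p)]

end Crest.Agent.H3.PG
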