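import Crest.Agent.H3.PGWindow
import Crest.Agent.H3.PGTrans
import Crest.Agent.H3.PGNT

/-! Instantiation of the model with primes. -/

set_option autoImplicit false

namespace Crest.Agent.H3.PG

open Finset

/-- primes in `(Y l0, Y L]` -/
def PP (l0 L : ℕ) : Finset ℕ := (Ioc (Y l0) (Y L)).filter Nat.Prime

noncomputable def rho (l0 l : ℕ) : ℝ := Real.exp (-∑ m ∈ Ico l0 l, lam m)

theorem QP_subset {l0 L m : ℕ} (hm : m ∈ Ico l0 L) : QP m ⊆ PP l0 L := by
  have := mem_Ico.1 hm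
  exact filter_subset_filter _ (Ioc_subset_Ioc (Y_mono this.1) (Y_mono this.2))

theorem QP_disj {m m' : ℕ} (h : m ≠ m') : Disjoint (QP m) (QP m') := by
  rw [disjoint_left]
  intro p h1 h2
  have h3 := mem_Ioc.1 (mem_filter.1 h1).1
  have h4 := mem_Ioc.1 (mem_filter.1 h2).1
  rcases lt_or_gt_of_ne h with h | h
  · have := Y_mono (show m + 1 ≤ m' from h); omega
  · have := Y_mono (show m' + 1 ≤ m from h); omega

theorem PP_lt {l0 L H : ℕ} (hH : 2 * H ≤ Y l0) : ∀ p ∈ PP l0 L, H < p := fun p hp => by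
  have := (mem_Ioc.1 (mem_filter.1 hp).1).1; omega

theorem PP_prime {l0 L : ℕ} : ∀ p ∈ PP l0 L, p.Prime := fun _ hp => (mem_filter.1 hp).2

theorem onePos_inst {H l0 L : ℕ} (hH : 2 * H ≤ Y l0) (Ls : Finset ℕ)
    (hLs : ∀ l ∈ Ls, l0 ≤ l ∧ l < L ∧ 4 ≤ l) {i : ℕ} (hi : i < H) :
    ∃ z θ, OnePos (qq H) (SS (PP l0 L) H) {c | c.2 = i} (fun ω => ∀ c ∈ ω, c.2 ≠ i) Ls
      (rho l0) L z θ := by
  have hH1 : (1 : ℝ) ≤ H := by exact_mod_cast (by omega : 1 ≤ H)
  have hsum : ∀ m, ∑ c ∈ QP m ×ˢ ({i} : Finset ℕ), qq H c = ∑ p ∈ QP m, 1 / ((p : ℝ) - H + 1) := by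
    intro m
    rw [sum_product]
    simp [qq]
  have hlow : ∀ m, l0 ≤ m → lam m ≤ ∑ c ∈ QP m ×ˢ ({i} : Finset ℕ), qq H c := by
    intro m hm
    rw [hsum]
    refine sum_le_sum fun p hp => ?_
    have h1 := (mem_Ioc.1 (mem_filter.1 hp).1).1
    have h2 := Y_mono hm
    have h3 : 2 * (H : ℝ) ≤ p := by exact_mod_cast (by omega : 2 * H ≤ p)
    exact one_div_le_one_div_of_le (by linarith) (by linarith)
  have hup : ∀ m, l0 ≤ m → ∑ c ∈ QP m ×ˢ ({i} : Finset ℕ), qq H c ≤ 2 * lam m := by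
    intro m hm
    rw [hsum, lam, mul_sum]
    refine sum_le_sum fun p hp => ?_
    have h1 := (mem_Ioc.1 (mem_filter.1 hp).1).1
    have h2 := Y_mono hm
    have h3 : 2 * (H : ℝ) ≤ p := by exact_mod_cast (by omega : 2 * H ≤ p)
    rw [mul_one_div, div_le_div_iff₀ (by linarith) (by linarith)]
    linarith
  refine onePos (qq_SS (PP_lt hH)) (fun m => QP m ×ˢ {i}) l0 L Ls
    (fun l hl => ⟨(hLs l hl).1, (hLs l hl).2.1, by have := (hLs l hl).2.2; omega⟩)
    (fun m hm => product_subset_product (QP_subset hm) (by simpa using hi))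
    (fun m m' h => ?_) (fun m hm => ?_) (fun l hl => ?_) (fun m hm => ?_) _ (fun m hm => ?_) _
    (fun ω hω m _ c hc hcω => ?_) _ (fun l _ => ?_)
  · rw [disjoint_left]
    intro c h1 h2
    exact disjoint_left.1 (QP_disj h) (mem_product.1 h1).1 (mem_product.1 h2).1
  · have := hup m (mem_Ico.1 hm).1
    have := lam_le m
    linarith
  · exact (lam_ge (hLs l hl).2.2).trans (hlow l (hLs l hl).1)
  · rw [card_product, card_singleton, mul_one]
    have h1 : (QP m).card ≤ (Ioc (Y m) (Y (m + 1))).card := card_filter_le _ _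
    rw [Nat.card_Ioc] at h1
    have := two_le_Y m
    have := Y_mono (Nat.le_succ m)
    simp only [Nat.succ_eq_add_one] at this
    omega
  · intro c hc
    exact mem_singleton.1 (mem_product.1 hc).2
  · exact hω c hcω (mem_singleton.1 (mem_product.1 hc).2)
  · refine Real.exp_le_exp.2 (neg_le_neg (sum_le_sum fun m hm => hlow m (mem_Ico.1 hm).1))

theorem exp_sum_lam_le (l : ℕ) : Real.exp (∑ m ∈ range l, lam m) ≤ Y l := by
  have hY := two_le_Y l
  have hY0 : (0 : ℝ) < Y l := by positivity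
  rw [← Real.le_log_iff_exp_le hY0, sum_lam]
  have h1 := harmonic_le_one_add_log (Y l)
  rw [harmonic_eq_sum_Icc, ← add_sum_Ioc_eq_sum_Icc (by omega)] at h1
  push_cast at h1
  have h2 : RS 2 (Y l) ≤ ∑ n ∈ Ioc 1 (Y l), (n : ℝ)⁻¹ := by
    unfold RS
    simp only [one_div]
    refine sum_le_sum_of_subset_of_nonneg (fun p hp => ?_) fun _ _ _ => by positivity
    have := mem_Ioc.1 (mem_filter.1 hp).1
    exact mem_Ioc.2 ⟨by omega, this.2⟩
  norm_num at h1
  linarith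

/-- upper bound sieve in a short interval -/
theorem small_sieve (l a h : ℕ) (hh : Y l ^ 9 ≤ h) :
    (((Ico a (a + h)).filter (fun n => ∀ p ∈ PP 0 l, ¬ p ∣ n)).card : ℝ)
      ≤ (Cs + 1) * h * Real.exp (-∑ m ∈ range l, lam m) := by
  have hY : 2 * 1 ≤ Y 0 := by norm_num [Y]
  obtain ⟨z, θ, hθ⟩ := onePos_inst (H := 1) (l0 := 0) (L := l) hY ∅ (by simp) (i := 0) one_pos
  have h1 := transfer (P := PP 0 l) (H := 1) (W := 1) PP_prime (PP_lt hY) one_pos
    (fun p _ => Nat.coprime_one_left p) a h 0 hθ.lev_θ hθ.θ_nonneg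
  rw [prod_eq_one fun p hp => zz_one (PP_prime p hp).one_lt,
    filter_true_of_mem fun m _ => Nat.modEq_one] at h1
  have h2 : (((Ico a (a + h)).filter (fun n => ∀ p ∈ PP 0 l, ¬ p ∣ n)).card : ℝ)
      ≤ ∑ m ∈ Ico a (a + h), θ (hits (PP 0 l) 1 m) := by
    rw [card_eq_sum_ones]
    push_cast
    refine le_trans (le_of_eq (sum_congr rfl fun m hm => ?_))
      (sum_le_sum_of_subset_of_nonneg (filter_subset _ _) fun m _ _ => hθ.θ_nonneg _)
    refine (hθ.nh_θ _ fun c hc h0 => ?_).symm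
    have h3 := mem_filter.1 hc
    refine (mem_filter.1 hm).2 c.1 (mem_product.1 h3.1).1 ?_
    simpa [h0] using h3.2
  have h3 := hθ.Eθ
  have e : rho 0 l = Real.exp (-∑ m ∈ range l, lam m) := by rw [rho, range_eq_Ico]
  rw [e] at h3
  have h4 : (Y l : ℝ) ^ 8 ≤ h * Real.exp (-∑ m ∈ range l, lam m) := by
    rw [Real.exp_neg, ← div_eq_mul_inv, le_div_iff₀ (Real.exp_pos _)]
    calc _ ≤ (Y l : ℝ) ^ 8 * Y l := mul_le_mul_of_nonneg_left (exp_sum_lam_le l) (by positivity)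
      _ = ((Y l ^ 9 : ℕ) : ℝ) := by push_cast; ring
      _ ≤ h := by exact_mod_cast hh
  have h5 : (0 : ℝ) ≤ h := by positivity
  simp only [Nat.cast_one, div_one, one_mul] at h1
  nlinarith [mul_le_mul_of_nonneg_left h3 h5]

theorem rho_bound (l' l : ℕ) :
    Real.exp (-∑ m ∈ range l', lam m) * rho (l' + 7) l * 2 ^ l ≤ 18 * Real.exp 28 := by
  have h1 := exp_neg_sum_lam l
  have h2 : ∑ m ∈ range l, lam m
      ≤ ∑ m ∈ range l', lam m + 28 + ∑ m ∈ Ico (l' + 7) l, lam m := by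
    have h3 : ∑ m ∈ range (l' + 7), lam m ≤ ∑ m ∈ range l', lam m + 28 := by
      rw [sum_range_add]
      have : ∑ x ∈ range 7, lam (l' + x) ≤ (range 7).card • (4 : ℝ) :=
        sum_le_card_nsmul _ _ _ fun m _ => lam_le _
      norm_num at this ⊢
      linarith
    have h4 : ∑ m ∈ range l, lam m
        ≤ ∑ m ∈ range (l' + 7), lam m + ∑ m ∈ Ico (l' + 7) l, lam m := by
      rw [← sum_union]
      · refine sum_le_sum_of_subset_of_nonneg (fun m hm => ?_) fun _ _ _ => lam_nonneg _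
        simp only [mem_union, mem_range, mem_Ico] at hm ⊢
        omega
      · rw [disjoint_left]
        intro m h1 h2
        simp only [mem_range, mem_Ico] at h1 h2
        omega
    linarith
  have h3 : Real.exp (-∑ m ∈ range l', lam m) * rho (l' + 7) l
      ≤ Real.exp 28 * Real.exp (-∑ m ∈ range l, lam m) := by
    rw [rho, ← Real.exp_add, ← Real.exp_add]
    exact Real.exp_le_exp.2 (by linarith)
  calc _ ≤ Real.exp 28 * Real.exp (-∑ m ∈ range l, lam m) * 2 ^ l :=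
        mul_le_mul_of_nonneg_right h3 (by positivity)
    _ = Real.exp 28 * (Real.exp (-∑ m ∈ range l, lam m) * 2 ^ l) := by ring
    _ ≤ Real.exp 28 * 18 := mul_le_mul_of_nonneg_left h1 (Real.exp_pos _).le
    _ = _ := by ring

theorem prod_zz_le {H l0 L : ℕ} (hH : 4 * H ≤ Y l0) (hH2 : H ^ 2 ≤ Y l0) :
    ∏ p ∈ PP l0 L, zz H p ≤ 9 := by
  have hY := two_le_Y l0
  have hY0 : (0 : ℝ) < Y l0 := by positivity
  have h5 : Real.exp 2 ≤ 9 := by
    have := Real.exp_one_lt_three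
    have h0 := Real.exp_pos 1
    rw [show (2 : ℝ) = 1 + 1 by norm_num, Real.exp_add]; nlinarith
  calc _ ≤ ∏ p ∈ PP l0 L, Real.exp (2 * (H : ℝ) ^ 2 * ((p : ℝ) ^ 2)⁻¹) := by
        refine prod_le_prod (fun p hp => zz_nonneg (PP_lt (by omega) p hp)) fun p hp => ?_
        have h1 := (mem_Ioc.1 (mem_filter.1 hp).1).1
        refine (zz_le (by omega) (by omega)).trans ?_
        rw [add_comm, div_eq_mul_inv]
        exact Real.add_one_le_exp _
    _ = Real.exp (2 * (H : ℝ) ^ 2 * ∑ p ∈ PP l0 L, ((p : ℝ) ^ 2)⁻¹) := by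
        rw [← Real.exp_sum, mul_sum]
    _ ≤ Real.exp 2 := by
        refine Real.exp_le_exp.2 ?_
        have h1 : ∑ p ∈ PP l0 L, ((p : ℝ) ^ 2)⁻¹ ≤ (Y l0 : ℝ)⁻¹ := by
          have h2 := sum_Ioc_inv_sq_le_sub (α := ℝ) (k := Y l0) (n := max (Y l0) (Y L))
            (by omega) (le_max_left _ _)
          have h3 : (0 : ℝ) ≤ ((max (Y l0) (Y L) : ℕ) : ℝ)⁻¹ := by positivity
          refine le_trans (sum_le_sum_of_subset_of_nonneg (fun p hp => ?_)
            fun _ _ _ => by positivity) (h2.trans (by linarith))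
          have := mem_Ioc.1 (mem_filter.1 hp).1
          exact mem_Ioc.2 ⟨this.1, this.2.trans (le_max_right _ _)⟩
        have h2 : (H : ℝ) ^ 2 ≤ Y l0 := by exact_mod_cast hH2
        calc _ ≤ 2 * (Y l0 : ℝ) * (Y l0 : ℝ)⁻¹ := by gcongr
          _ = 2 := by field_simp
    _ ≤ 9 := h5

end Crest.Agent.H3.PG
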