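import Crest.Agent.H3.PGProb

/-! Polynomial level (`ℓ¹` norm of coefficients) of functions on configurations. -/

set_option autoImplicit false

namespace Crest.Agent.H3.PG

open Finset

variable {α : Type} [DecidableEq α]

/-- Monomial: indicator of `U ⊆ ω`. -/
def ind (U ω : Finset α) : ℝ := if U ⊆ ω then 1 else 0

theorem ind_union (U V ω : Finset α) : ind (U ∪ V) ω = ind U ω * ind V ω := by
  unfold ind
  by_cases h1 : U ⊆ ω <;> by_cases h2 : V ⊆ ω <;> simp [h1, h2, union_subset_iff]

theorem ind_eq_prod (U ω : Finset α) : ind U ω = ∏ c ∈ U, X c ω := by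
  unfold ind X
  rw [prod_boole]
  congr 1

/-- `Lev A F`: `F` is a combination of monomials with coefficients of total size at most `A`. -/
inductive Lev : ℝ → (Finset α → ℝ) → Prop
  | mono (U : Finset α) (c : ℝ) : Lev |c| (fun ω => c * ind U ω)
  | add {A B : ℝ} {F G : Finset α → ℝ} : Lev A F → Lev B G → Lev (A + B) (fun ω => F ω + G ω)
  | weaken {A B : ℝ} {F : Finset α → ℝ} : Lev A F → A ≤ B → Lev B F

theorem Lev.nonneg {A : ℝ} {F : Finset α → ℝ} (h : Lev A F) : 0 ≤ A := by
  induction h with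
  | mono U c => exact abs_nonneg c
  | add _ _ h1 h2 => exact add_nonneg h1 h2
  | weaken _ h1 h2 => exact h2.trans h1

theorem Lev.congr {A : ℝ} {F G : Finset α → ℝ} (h : Lev A F) (hFG : ∀ ω, F ω = G ω) :
    Lev A G := by
  have : F = G := funext hFG
  exact this ▸ h

theorem Lev.const (c : ℝ) : Lev |c| (fun _ : Finset α => c) :=
  (Lev.mono (∅ : Finset α) c).congr fun ω => by simp [ind]

theorem Lev.X (c : α) : Lev 1 (X c) := by
  have := Lev.mono ({c} : Finset α) 1
  rw [abs_one] at this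
  exact this.congr fun ω => by simp [ind, PG.X]

theorem Lev.mul {A B : ℝ} {F G : Finset α → ℝ} (hF : Lev A F) (hG : Lev B G) :
    Lev (A * B) (fun ω => F ω * G ω) := by
  induction hF with
  | mono U c =>
    induction hG with
    | mono V d =>
      rw [← abs_mul]
      exact (Lev.mono (U ∪ V) (c * d)).congr fun ω => by rw [ind_union]; ring
    | add _ _ h1 h2 =>
      rw [mul_add]
      exact (h1.add h2).congr fun ω => by ring
    | weaken _ h1 h2 => exact h2.weaken (mul_le_mul_of_nonneg_left h1 (abs_nonneg c))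
  | add _ _ h1 h2 =>
    rw [add_mul]
    exact (h1.add h2).congr fun ω => by ring
  | weaken _ h1 h2 => exact h2.weaken (mul_le_mul_of_nonneg_right h1 hG.nonneg)

theorem Lev.smul {A : ℝ} {F : Finset α → ℝ} (hF : Lev A F) (c : ℝ) :
    Lev (|c| * A) (fun ω => c * F ω) := (Lev.const c).mul hF

theorem Lev.sub {A B : ℝ} {F G : Finset α → ℝ} (hF : Lev A F) (hG : Lev B G) :
    Lev (A + B) (fun ω => F ω - G ω) := by
  have := hF.add (hG.smul (-1))
  simp only [abs_neg, abs_one, one_mul] at this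
  exact this.congr fun ω => by ring

theorem Lev.sum {ι : Type} (s : Finset ι) {A : ι → ℝ} {F : ι → Finset α → ℝ}
    (h : ∀ i ∈ s, Lev (A i) (F i)) : Lev (∑ i ∈ s, A i) (fun ω => ∑ i ∈ s, F i ω) := by
  classical
  induction s using Finset.induction_on with
  | empty => simpa using Lev.const (α := α) 0
  | insert i s hi ih =>
    simp only [sum_insert hi]
    exact (h i (mem_insert_self _ _)).add (ih fun j hj => h j (mem_insert_of_mem hj))

theorem Lev.prod {ι : Type} (s : Finset ι) {A : ι → ℝ} {F : ι → Finset α → ℝ}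
    (h : ∀ i ∈ s, Lev (A i) (F i)) : Lev (∏ i ∈ s, A i) (fun ω => ∏ i ∈ s, F i ω) := by
  classical
  induction s using Finset.induction_on with
  | empty => simpa using Lev.const (α := α) 1
  | insert i s hi ih =>
    simp only [prod_insert hi]
    exact (h i (mem_insert_self _ _)).mul (ih fun j hj => h j (mem_insert_of_mem hj))

theorem Lev.sq {A : ℝ} {F : Finset α → ℝ} (hF : Lev A F) :
    Lev (A ^ 2) (fun ω => F ω ^ 2) := by
  simpa only [pow_two] using hF.mul hF

theorem Lev.cnt (Q : Finset α) : Lev (Q.card : ℝ) (fun ω => (cnt Q ω : ℝ)) := by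
  have := Lev.sum Q (A := fun _ => (1 : ℝ)) (F := fun c => PG.X c) fun c _ => Lev.X c
  simp only [sum_const, nsmul_eq_mul, mul_one] at this
  exact this.congr fun ω => (cnt_eq_sum Q ω).symm

/-! ### counting in residue classes -/

theorem count_modEq_err (a x M r : ℕ) (hM : 0 < M) :
    |(((Ico a (a + x)).filter (fun m => m ≡ r [MOD M])).card : ℝ) - (x : ℝ) / M| ≤ 1 := by
  have h := Nat.Ico_filter_modEq_card a (a + x) hM r
  set t : ℚ := ((a : ℚ) - r) / M with ht
  have hMq : (0 : ℚ) < M := by exact_mod_cast hM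
  have e : (((a + x : ℕ) : ℚ) - r) / M = t + x / M := by rw [ht]; push_cast; ring
  rw [e] at h
  have hx : (0 : ℚ) ≤ x / M := by positivity
  have hle : ⌈t⌉ ≤ ⌈t + x / M⌉ := Int.ceil_mono (by linarith)
  rw [max_eq_left (by omega)] at h
  have h1 := Int.le_ceil (t + x / M)
  have h2 := Int.ceil_lt_add_one (t + x / M)
  have h3 := Int.le_ceil t
  have h4 := Int.ceil_lt_add_one t
  have hq : (((Ico a (a + x)).filter (fun m => m ≡ r [MOD M])).card : ℚ)
      = (⌈t + x / M⌉ : ℚ) - (⌈t⌉ : ℚ) := by exact_mod_cast h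
  have : |(((Ico a (a + x)).filter (fun m => m ≡ r [MOD M])).card : ℚ) - (x : ℚ) / M| ≤ 1 := by
    rw [hq, abs_le]; constructor <;> linarith
  have h5 := (Rat.cast_le (K := ℝ)).2 this
  simpa using h5

theorem crt_hits (W b : ℕ) (U : Finset (ℕ × ℕ)) (hp : ∀ c ∈ U, c.1.Prime)
    (hW : ∀ c ∈ U, Nat.Coprime W c.1) (hinj : Set.InjOn Prod.fst (U : Set (ℕ × ℕ))) :
    ∃ r : ℕ, ∀ m : ℕ, (m ≡ b [MOD W] ∧ ∀ c ∈ U, c.1 ∣ m + c.2) ↔
      m ≡ r [MOD W * ∏ c ∈ U, c.1] := by
  induction U using Finset.induction_on with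
  | empty => exact ⟨b, fun m => by simp⟩
  | insert c U hc ih =>
    obtain ⟨r, hr⟩ := ih (fun d hd => hp d (mem_insert_of_mem hd))
      (fun d hd => hW d (mem_insert_of_mem hd))
      (hinj.mono (by simp only [coe_insert]; exact Set.subset_insert _ _))
    have hpc := hp c (mem_insert_self _ _)
    have hco : Nat.Coprime (W * ∏ d ∈ U, d.1) c.1 := by
      refine Nat.Coprime.mul_left (hW c (mem_insert_self _ _)) ?_
      refine Nat.Coprime.prod_left fun d hd => ?_
      refine (Nat.coprime_primes (hp d (mem_insert_of_mem hd)) hpc).2 fun h => hc ?_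
      have := hinj (by simp [hd]) (by simp) h
      exact this ▸ hd
    -- `s ≡ -c.2 mod c.1`
    set s := (c.1 - 1) * c.2 with hs
    have hs' : ∀ m : ℕ, c.1 ∣ m + c.2 ↔ m ≡ s [MOD c.1] := by
      intro m
      have h0 : s + c.2 ≡ 0 [MOD c.1] := by
        have : s + c.2 = c.1 * c.2 := by
          have := hpc.one_le
          rw [hs]; zify [this]; ring
        rw [this]; exact Nat.modEq_zero_iff_dvd.2 (dvd_mul_right _ _)
      rw [← Nat.modEq_zero_iff_dvd]
      constructor
      · intro h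
        exact Nat.ModEq.add_right_cancel' c.2 (h.trans h0.symm)
      · intro h
        exact (h.add_right c.2).trans h0
    obtain ⟨k, hk1, hk2⟩ := Nat.chineseRemainder hco r s
    refine ⟨k, fun m => ?_⟩
    rw [prod_insert hc, show W * (c.1 * ∏ d ∈ U, d.1) = (W * ∏ d ∈ U, d.1) * c.1 by ring,
      ← Nat.modEq_and_modEq_iff_modEq_mul hco]
    simp only [mem_insert, forall_eq_or_imp]
    constructor
    · rintro ⟨h1, h2, h3⟩
      exact ⟨((hr m).1 ⟨h1, h3⟩).trans hk1.symm, ((hs' m).1 h2).trans hk2.symm⟩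
    · rintro ⟨h1, h2⟩
      have := (hr m).2 (h1.trans hk1)
      exact ⟨this.1, (hs' m).2 (h2.trans hk2), this.2⟩

end Crest.Agent.H3.PG
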