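import Crest.Agent.H3.PGInst

/-! Counting windows and primes followed by a long gap. -/

set_option autoImplicit false

namespace Crest.Agent.H3.PG

open Finset

/-- good windows -/
def GW (h T a x : ℕ) : Finset ℕ :=
  (Ico a (a + x)).filter fun m => (∃ i ∈ range h, (m + i).Prime) ∧
    ∃ k ∈ Icc 1 T, ∀ i ∈ Ico (k * h) ((k + 1) * h), ¬ (m + i).Prime

/-- primes followed by a gap longer than `h` -/
def GP (h n : ℕ) : Finset ℕ :=
  (range n).filter fun p => p.Prime ∧ ∀ r ∈ Ioc p (p + h), ¬ r.Prime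

theorem GW_card_le (h T a x : ℕ) :
    (GW h T a x).card ≤ (GP h (a + x + (T + 1) * h)).card * ((T + 1) * h) := by
  have : GW h T a x ⊆ (GP h (a + x + (T + 1) * h)).biUnion
      fun p => Icc (p + 1 - (T + 1) * h) p := by
    intro m hm
    obtain ⟨hm1, ⟨i, hi, hpi⟩, k, hk, hk'⟩ := mem_filter.1 hm
    have hm2 := mem_Ico.1 hm1
    have hi' := mem_range.1 hi
    have hk1 := mem_Icc.1 hk
    have hkh : h ≤ k * h := Nat.le_mul_of_pos_left h hk1.1
    have hkT : k * h ≤ T * h := Nat.mul_le_mul_right h hk1.2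
    have hT : (T + 1) * h = T * h + h := by ring
    have hK : (k + 1) * h = k * h + h := by ring
    set s := (Ico m (m + k * h)).filter Nat.Prime with hs
    have hne : s.Nonempty := ⟨m + i, mem_filter.2 ⟨mem_Ico.2 ⟨by omega, by omega⟩, hpi⟩⟩
    have hp := mem_filter.1 (s.max'_mem hne)
    have hp1 := mem_Ico.1 hp.1
    refine mem_biUnion.2 ⟨s.max' hne, mem_filter.2 ⟨mem_range.2 (by omega), hp.2, ?_⟩,
      mem_Icc.2 ⟨by omega, hp1.1⟩⟩
    intro r hr hrp
    have hr1 := mem_Ioc.1 hr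
    by_cases h1 : r < m + k * h
    · have := s.le_max' r (mem_filter.2 ⟨mem_Ico.2 ⟨by omega, h1⟩, hrp⟩)
      omega
    · refine hk' (r - m) (mem_Ico.2 ⟨by omega, by omega⟩) ?_
      rwa [show m + (r - m) = r by omega]
  refine (card_le_card this).trans (card_biUnion_le_card_mul _ _ _ fun p _ => ?_)
  rw [Nat.card_Icc]; omega

theorem sum_primes_ge (h a x : ℕ) (ha : 1 ≤ a) :
    (h : ℝ) * ((x.primeCounting : ℝ) - (a + h))
      ≤ ∑ m ∈ Ico a (a + x), (((Ico 0 h).filter fun i => (m + i).Prime).card : ℝ) := by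
  simp only [card_filter]
  push_cast
  rw [sum_comm]
  have : (h : ℝ) = ((Ico 0 h).card : ℝ) := by simp
  nth_rewrite 1 [this]
  rw [← nsmul_eq_mul]
  refine card_nsmul_le_sum _ _ _ fun i hi => ?_
  have hi' := (mem_Ico.1 hi).2
  rw [sum_boole]
  have h1 : x.primeCounting ≤ ((Ico a (a + x)).filter fun m => (m + i).Prime).card + (a + h) := by
    rw [Nat.primeCounting, Nat.primeCounting', Nat.count_eq_card_filter_range]
    have h2 : (range (x + 1)).filter Nat.Prime ⊆
        (((Ico a (a + x)).filter fun m => (m + i).Prime).image (· + i)) ∪ range (a + h) := by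
      intro p hp
      have hp' := mem_filter.1 hp
      have := mem_range.1 hp'.1
      by_cases h3 : p < a + h
      · exact mem_union_right _ (mem_range.2 h3)
      · refine mem_union_left _ (mem_image.2 ⟨p - i, mem_filter.2 ⟨mem_Ico.2 ⟨by omega, by omega⟩,
          ?_⟩, by omega⟩)
        rw [show p - i + i = p by omega]; exact hp'.2
    refine (card_le_card h2).trans ((card_union_le _ _).trans ?_)
    rw [card_range]
    exact Nat.add_le_add_right card_image_le _
  have h2 : (x.primeCounting : ℝ)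
      ≤ (((Ico a (a + x)).filter fun m => (m + i).Prime).card : ℝ) + (a + h) := by
    exact_mod_cast h1
  linarith

theorem GW_card_ge {B J T L l' : ℕ} (x : ℕ) (hB : 1 ≤ B) (hJ : 1 ≤ J) (hT : 1 ≤ T)
    (hl' : Y l' ^ 9 ≤ 2 ^ L) (hH : ((T + 1) * (B * 2 ^ L)) ^ 2 ≤ Y (l' + 7))
    (hL : l' + 7 + J ≤ L) {D : ℝ} (hD : 18 * Real.exp 28 * (Cs + 1) * B ≤ D)
    (hJD : 2 * Cs * D ≤ J) {t δ : ℝ} (ht0 : 0 ≤ t) (ht1 : t ≤ 1) (hδ : 0 < δ) :
    t * ((B * 2 ^ L : ℕ) * ((x.primeCounting : ℝ) - ((Y L + 1 : ℕ) + (B * 2 ^ L : ℕ)))) - δ * x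
      - (x * (9 * (4 * Cs ^ 2 * D ^ 2 / J + 4 * Real.exp (Cs * D * 2 ^ J) / (T * δ)
        + t ^ 2 * (Cs * D) ^ 2)) + Y L * ((19 + 361 / δ) * (Y L : ℝ) ^ 32))
      ≤ (GW (B * 2 ^ L) T (Y L + 1) x).card := by
  set h := B * 2 ^ L with hh
  set H := (T + 1) * h with hHdef
  set l0 := l' + 7 with hl0
  set a := Y L + 1 with ha
  have hCs := one_le_Cs
  have h2L : 2 ^ L ≤ h := Nat.le_mul_of_pos_left _ hB
  have hhH : h ≤ H := Nat.le_mul_of_pos_left _ (by omega)
  have h4 : 4 ≤ 2 ^ L := by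
    calc 4 = 2 ^ 2 := by norm_num
      _ ≤ 2 ^ L := Nat.pow_le_pow_right (by norm_num) (by omega)
  have hH4 : 4 * H ≤ Y l0 := by
    refine le_trans ?_ hH
    rw [pow_two]; exact Nat.mul_le_mul_right H (by omega)
  have hH2 : 2 * H ≤ Y l0 := by omega
  set W := ∏ p ∈ PP 0 l', p with hW
  have hW0 : 0 < W := prod_pos fun p hp => (PP_prime p hp).pos
  have hWco : ∀ p ∈ PP l0 L, Nat.Coprime W p := by
    intro p hp
    refine Nat.Coprime.prod_left fun r hr => ?_
    refine (Nat.coprime_primes (PP_prime r hr) (PP_prime p hp)).2 fun e => ?_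
    have h1 := (mem_Ioc.1 (mem_filter.1 hp).1).1
    have h2 := (mem_Ioc.1 (mem_filter.1 hr).1).2
    have := Y_mono (show l' ≤ l0 by omega)
    omega
  have hWY : W ≤ Y L := by
    have h1 : W ≤ primorial (Y l') := by
      refine prod_le_prod_of_subset_of_one_le' (fun p hp => ?_) fun p hp _ => ?_
      · exact mem_filter.2 ⟨mem_range.2 (by have := (mem_Ioc.1 (mem_filter.1 hp).1).2; omega),
          PP_prime p hp⟩
      · exact (mem_filter.1 hp).2.one_le
    refine h1.trans ((primorial_le_four_pow _).trans ?_)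
    rw [show 4 = 2 ^ 2 by norm_num, ← pow_mul]
    refine Nat.pow_le_pow_right (by norm_num) (le_trans ?_ hl')
    have h2 := two_le_Y l'
    calc 2 * Y l' ≤ Y l' ^ 2 := by rw [pow_two]; exact Nat.mul_le_mul_right _ h2
      _ ≤ Y l' ^ 9 := Nat.pow_le_pow_right (by omega) (by norm_num)
  -- one-position data
  have hone : ∀ i : ℕ, ∃ z θ, i < H → OnePos (qq H) (SS (PP l0 L) H) {c | c.2 = i}
      (fun ω => ∀ c ∈ ω, c.2 ≠ i) (Ico (L - J) L) (rho l0) L z θ := by
    intro i
    by_cases hi : i < H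
    · obtain ⟨z, θ, h⟩ := onePos_inst (L := L) hH2 (Ico (L - J) L) (fun l hl => by
        have := mem_Ico.1 hl; omega) hi
      exact ⟨z, θ, fun _ => h⟩
    · exact ⟨fun _ _ => 0, fun _ => 0, fun h => absurd h hi⟩
  choose z θ hzθ using hone
  set I : ℕ → ℕ → Finset ℕ := fun b k =>
    (Ico (k * h) ((k + 1) * h)).filter fun i => ∀ p ∈ PP 0 l', ¬ p ∣ b + i with hI
  have hblock : ∀ k ≤ T, ∀ i ∈ Ico (k * h) ((k + 1) * h), i < H := by
    intro k hk i hi
    exact (mem_Ico.1 hi).2.trans_le (Nat.mul_le_mul_right h (by omega))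
  have hIcard : ∀ b k, ((I b k).card : ℝ) ≤ (Cs + 1) * h * Real.exp (-∑ m ∈ range l', lam m) := by
    intro b k
    refine le_trans ?_ (small_sieve l' (b + k * h) h (hl'.trans h2L))
    refine Nat.cast_le.2 (card_le_card_of_injOn (fun i => b + i) (fun i hi => ?_)
      fun i _ j _ hij => Nat.add_left_cancel hij)
    have hi' := mem_filter.1 hi
    have hi2 := mem_Ico.1 hi'.1
    have hK : (k + 1) * h = k * h + h := by ring
    exact mem_filter.2 ⟨mem_Ico.2 ⟨by simp only; omega, by simp only; omega⟩, hi'.2⟩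
  have hD0 : 0 ≤ D := le_trans (by positivity) hD
  have hwin := fun b : ℕ => window (qq_SS (PP_lt (L := L) hH2)) (fun i => {c : ℕ × ℕ | c.2 = i})
    (fun i j hij => by
      rw [Set.disjoint_left]
      intro c h1 h2
      exact hij ((show c.2 = i from h1).symm.trans h2))
    (fun i ω => ∀ c ∈ ω, c.2 ≠ i) z θ hJ (by omega) hT (rho l0) (I b)
    (fun k k' hkk => by
      rw [disjoint_left]
      intro i h1 h2
      have h3 := mem_Ico.1 (mem_filter.1 h1).1
      have h4 := mem_Ico.1 (mem_filter.1 h2).1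
      rcases lt_or_gt_of_ne hkk with h5 | h5
      · have := Nat.mul_le_mul_right h (show k + 1 ≤ k' from h5); omega
      · have := Nat.mul_le_mul_right h (show k' + 1 ≤ k from h5); omega)
    (fun k hk i hi => hzθ i (hblock k hk i (mem_filter.1 hi).1)) hD0
    (fun k _ l _ => by
      have h1 := rho_bound l' l
      have h2 : 0 ≤ rho l0 l := (Real.exp_pos _).le
      calc _ ≤ (Cs + 1) * h * Real.exp (-∑ m ∈ range l', lam m) * rho l0 l * 2 ^ l := by
            gcongr; exact hIcard b k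
        _ = (Cs + 1) * h * (Real.exp (-∑ m ∈ range l', lam m) * rho l0 l * 2 ^ l) := by ring
        _ ≤ (Cs + 1) * h * (18 * Real.exp 28) := by gcongr
        _ = 18 * Real.exp 28 * (Cs + 1) * B * 2 ^ L := by rw [hh]; push_cast; ring
        _ ≤ _ := by gcongr)
    hJD
    (fun k _ => by
      refine (card_filter_le _ _).trans ?_
      rw [Nat.card_Ico]
      have hK : (k + 1) * h = k * h + h := by ring
      have := Y_mono (show l0 ≤ L - J by omega)
      omega) ht0 ht1 hδ
  choose F hF0 hFlev hFE hFpt using hwin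
  set E := 4 * Cs ^ 2 * D ^ 2 / J + 4 * Real.exp (Cs * D * 2 ^ J) / (T * δ)
    + t ^ 2 * (Cs * D) ^ 2 with hE
  set A := (19 + 361 / δ) * (Y L : ℝ) ^ 32 with hA
  have hE0 : 0 ≤ E := by positivity
  have hA0 : 0 ≤ A := by positivity
  have hsumF : ∑ m ∈ Ico a (a + x), F (m % W) (hits (PP l0 L) H m) ≤ x * (9 * E) + Y L * A := by
    rw [← sum_fiberwise_of_maps_to (t := range W) (g := fun m => m % W)
      fun m _ => mem_range.2 (Nat.mod_lt _ hW0)]
    have hWr : (0 : ℝ) < W := by exact_mod_cast hW0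
    calc _ ≤ ∑ b ∈ range W, ((x : ℝ) / W * (9 * E) + A) := by
          refine sum_le_sum fun b hb => ?_
          have h1 := transfer PP_prime (PP_lt (L := L) hH2) hW0 hWco a x b (hFlev b) (hF0 b)
          have e : (Ico a (a + x)).filter (fun m => m % W = b)
              = (Ico a (a + x)).filter (fun m => m ≡ b [MOD W]) := by
            refine filter_congr fun m _ => ?_
            rw [Nat.ModEq, Nat.mod_eq_of_lt (mem_range.1 hb)]
          rw [sum_congr rfl (g := fun m => F b (hits (PP l0 L) H m))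
            (fun m hm => by rw [(mem_filter.1 hm).2]), e]
          refine h1.trans (add_le_add (mul_le_mul_of_nonneg_left ?_ (by positivity)) le_rfl)
          exact mul_le_mul (prod_zz_le hH4 hH) (hFE b)
            (Ex_nonneg (qq_SS (PP_lt hH2)) fun ω _ => hF0 b ω) (by norm_num)
      _ = x * (9 * E) + W * A := by
          rw [sum_const, card_range, nsmul_eq_mul]; field_simp
      _ ≤ _ := by
          have : (W : ℝ) ≤ Y L := by exact_mod_cast hWY
          gcongr
  have hpt : ∀ m ∈ Ico a (a + x),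
      t * (((Ico 0 h).filter fun i => (m + i).Prime).card : ℝ) - δ - F (m % W) (hits (PP l0 L) H m)
        ≤ if m ∈ GW h T a x then 1 else 0 := by
    intro m hm
    have hm' := mem_Ico.1 hm
    have hnd : ∀ i p : ℕ, (m + i).Prime → p.Prime → p ≤ Y L → ¬ p ∣ m + i := by
      intro i p h1 h2 h3 h4
      have := (Nat.prime_dvd_prime_iff_eq h2 h1).1 h4
      omega
    have h1 := hFpt (m % W) (hits (PP l0 L) H m)
      (fun k => (Ico (k * h) ((k + 1) * h)).filter fun i => (m + i).Prime)
      (fun k _ i hi => by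
        have hi' := mem_filter.1 hi
        refine mem_filter.2 ⟨hi'.1, fun p hp hdvd => ?_⟩
        refine hnd i p hi'.2 (PP_prime p hp)
          ((mem_Ioc.1 (mem_filter.1 hp).1).2.trans (Y_mono (by omega))) ?_
        have h2 : p ∣ W := dvd_prod_of_mem _ hp
        have h3 : m + i = (m % W + i) + W * (m / W) := by
          have := Nat.mod_add_div m W; omega
        rw [h3]
        exact dvd_add hdvd (h2.mul_right _))
      (fun k _ i hi c hc hci => by
        have hc' := mem_filter.1 hc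
        have hp := (mem_product.1 hc'.1).1
        refine hnd i c.1 (mem_filter.1 hi).2 (PP_prime _ hp) (mem_Ioc.1 (mem_filter.1 hp).1).2 ?_
        rw [← hci]; exact hc'.2)
    simp only [zero_mul, zero_add, one_mul] at h1
    split_ifs with hG
    · exact h1.1
    · refine h1.2 fun hc => hG ?_
      obtain ⟨⟨i, hi⟩, k, hk, hk'⟩ := hc
      have hi' := mem_filter.1 hi
      refine mem_filter.2 ⟨hm, ⟨i, mem_range.2 (mem_Ico.1 hi'.1).2, hi'.2⟩, k, hk, ?_⟩
      exact filter_eq_empty_iff.1 hk'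
  have h1 := sum_le_sum hpt
  rw [sum_sub_distrib, sum_sub_distrib, ← mul_sum, sum_const, Nat.card_Ico, sum_boole,
    filter_mem_eq_inter, inter_eq_right.2 (show GW h T a x ⊆ Ico a (a + x) from filter_subset _ _),
    nsmul_eq_mul,
    Nat.add_sub_cancel_left] at h1
  have h2 := mul_le_mul_of_nonneg_left (sum_primes_ge h a x (by omega)) ht0
  linarith

end Crest.Agent.H3.PG
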