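import Crest.Agent.H3.PGLev

/-! One-position sieve weights. -/

set_option autoImplicit false

namespace Crest.Agent.H3.PG

open Finset

variable {α : Type} [DecidableEq α]

/-- doubly exponential scales -/
def Y (m : ℕ) : ℕ := 2 ^ (2 ^ m)

theorem Y_succ (m : ℕ) : Y (m + 1) = Y m ^ 2 := by
  unfold Y; rw [← pow_mul, pow_succ]

theorem Y_add (m k : ℕ) : Y (m + k) = Y m ^ (2 ^ k) := by
  unfold Y; rw [← pow_mul, pow_add]

theorem Y_mono {m n : ℕ} (h : m ≤ n) : Y m ≤ Y n :=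
  Nat.pow_le_pow_right (by norm_num) (Nat.pow_le_pow_right (by norm_num) h)

theorem two_le_Y (m : ℕ) : 2 ≤ Y m := by
  have := Y_mono (Nat.zero_le m); simpa [Y] using this

noncomputable def sv (d : ℕ) (t : ℝ) : ℝ := ∏ k ∈ range d, (1 - t / ((k : ℝ) + 1))

noncomputable def gv (d n : ℕ) : ℝ := if n = 0 then 1 else if d < n then Real.exp n else 0

theorem sv_zero (d : ℕ) : sv d 0 = 1 := by simp [sv]

theorem abs_sv_le (d n : ℕ) : |sv d n| ≤ gv d n := by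
  unfold gv
  split_ifs with h0 h1
  · simp [h0, sv_zero]
  · unfold sv
    rw [abs_prod]
    calc ∏ k ∈ range d, |1 - (n : ℝ) / ((k : ℝ) + 1)| ≤ ∏ k ∈ range d, ((n : ℝ) / ((k : ℝ) + 1)) := by
          refine prod_le_prod (fun k _ => abs_nonneg _) fun k hk => ?_
          have hk' : k + 1 ≤ n := by have := mem_range.1 hk; omega
          have h2 : (k : ℝ) + 1 ≤ n := by exact_mod_cast hk'
          have h3 : 1 ≤ (n : ℝ) / ((k : ℝ) + 1) := by
            rw [le_div_iff₀ (by positivity)]; linarith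
          rw [abs_le]; constructor <;> linarith
      _ = (n : ℝ) ^ d / d.factorial := by
          rw [prod_div_distrib, prod_const, card_range, ← prod_range_add_one_eq_factorial]
          push_cast; rfl
      _ ≤ Real.exp n := Real.pow_div_factorial_le_exp _ (by positivity) d
  · unfold sv
    obtain ⟨k, rfl⟩ : ∃ k, n = k + 1 := ⟨n - 1, by omega⟩
    rw [prod_eq_zero (i := k) (mem_range.2 (by omega))]
    · simp
    · push_cast
      rw [div_self (by positivity), sub_self]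

theorem gv_cases (d n : ℕ) : gv d n = 0 ∨ 1 ≤ gv d n := by
  unfold gv
  split_ifs
  · simp
  · exact Or.inr (Real.one_le_exp (by positivity))
  · simp

theorem gv_pow_le (d n : ℕ) :
    gv d n ^ 4 ≤ (0 : ℝ) ^ n + (1 / 2) ^ d * (2 * Real.exp 4) ^ n := by
  unfold gv
  split_ifs with h0 h1
  · subst h0; simp
  · rw [zero_pow h0, zero_add, mul_pow, ← Real.exp_nat_mul, ← Real.exp_nat_mul, ← mul_assoc]
    have : (1 : ℝ) ≤ (1 / 2) ^ d * 2 ^ n := by
      rw [one_div, inv_pow, inv_mul_eq_div, one_le_div (by positivity)]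
      exact pow_le_pow_right₀ (by norm_num) h1.le
    have e : ((4 : ℕ) : ℝ) * n = n * 4 := by push_cast; ring
    rw [e]
    exact le_mul_of_one_le_left (Real.exp_pos _).le this
  · rw [zero_pow (by norm_num)]; positivity

noncomputable def c1 : ℝ := Real.exp (8 * (2 * Real.exp 4) + 8)

noncomputable def Cs : ℝ := 18 ^ 4 * Real.exp 120 * Real.exp c1

theorem exp_c1_le_Cs : Real.exp c1 ≤ Cs := by
  unfold Cs
  have h1 : 1 ≤ Real.exp 120 := Real.one_le_exp (by norm_num)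
  have h2 := Real.exp_pos c1
  nlinarith

theorem one_le_Cs : 1 ≤ Cs :=
  (Real.one_le_exp (by unfold c1; positivity)).trans exp_c1_le_Cs

theorem Ex_gv {q : α → ℝ} {S Q : Finset α} (hq : ∀ c ∈ S, 0 ≤ q c ∧ q c ≤ 1) (hQ : Q ⊆ S)
    (hl : ∑ c ∈ Q, q c ≤ 8) (d : ℕ) :
    Ex q S (fun ω => gv d (cnt Q ω) ^ 4)
      ≤ Real.exp (-∑ c ∈ Q, q c) * Real.exp (c1 * (1 / 2) ^ d) := by
  have hl0 : 0 ≤ ∑ c ∈ Q, q c := sum_nonneg fun c hc => (hq c (hQ hc)).1
  refine (Ex_mono hq (G := fun ω => (0 : ℝ) ^ cnt Q ω + (1 / 2) ^ d * (2 * Real.exp 4) ^ cnt Q ω)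
    fun ω _ => gv_pow_le d _).trans ?_
  rw [Ex_add, Ex_mul_left]
  have h1 := Ex_pow_cnt_le hq hQ (le_refl (0 : ℝ))
  have h2 := Ex_pow_cnt_le hq hQ (s := 2 * Real.exp 4) (by positivity)
  set lam := ∑ c ∈ Q, q c
  have h3 : Real.exp ((2 * Real.exp 4 - 1) * lam) ≤ Real.exp (-lam) * c1 := by
    unfold c1
    rw [← Real.exp_add]
    apply Real.exp_le_exp.2
    have := Real.exp_pos 4
    nlinarith
  have h4 : 1 + c1 * (1 / 2) ^ d ≤ Real.exp (c1 * (1 / 2) ^ d) := by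
    rw [add_comm]; exact Real.add_one_le_exp _
  have h5 : (0 : ℝ) ≤ (1 / 2) ^ d := by positivity
  have h6 := Real.exp_pos (-lam)
  rw [zero_sub, neg_one_mul] at h1
  calc _ ≤ Real.exp (-lam) + (1 / 2) ^ d * (Real.exp (-lam) * c1) :=
        add_le_add h1 (mul_le_mul_of_nonneg_left (h2.trans h3) h5)
    _ = Real.exp (-lam) * (1 + c1 * (1 / 2) ^ d) := by ring
    _ ≤ _ := mul_le_mul_of_nonneg_left h4 h6.le

theorem sum_half_le (l : ℕ) : ∑ m ∈ range l, (1 / 2 : ℝ) ^ (l - m) ≤ 1 := by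
  induction l with
  | zero => simp
  | succ l ih =>
    rw [sum_range_succ, sum_congr rfl (g := fun m => (1 / 2 : ℝ) * (1 / 2) ^ (l - m)), ← mul_sum]
    · simp only [add_tsub_cancel_left, pow_one]; linarith
    · intro m hm
      have := mem_range.1 hm
      rw [show l + 1 - m = (l - m) + 1 by omega, pow_succ]; ring

theorem sum_lev_le (l : ℕ) : ∑ m ∈ range l, 2 ^ (m + 1) * (l - m) ≤ 4 * 2 ^ l := by
  have h2 : ∀ l : ℕ, ∑ m ∈ range l, 2 ^ (m + 1) ≤ 2 * 2 ^ l := by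
    intro l
    induction l with
    | zero => simp
    | succ l ih => rw [sum_range_succ]; rw [pow_succ]; omega
  induction l with
  | zero => simp
  | succ l ih =>
    rw [sum_range_succ, sum_congr rfl (g := fun m => 2 ^ (m + 1) * (l - m) + 2 ^ (m + 1)),
      sum_add_distrib]
    · have := h2 l
      simp only [add_tsub_cancel_left, mul_one, pow_succ] at *
      omega
    · intro m hm
      have := mem_range.1 hm
      rw [show l + 1 - m = (l - m) + 1 by omega]; ring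

noncomputable def TT (Q : ℕ → Finset α) (l0 l : ℕ) (ω : Finset α) : ℝ :=
  ∏ m ∈ Ico l0 l, sv (l - m) (cnt (Q m) ω)

noncomputable def GG (Q : ℕ → Finset α) (l0 l : ℕ) (ω : Finset α) : ℝ :=
  ∏ m ∈ Ico l0 l, gv (l - m) (cnt (Q m) ω)

theorem abs_TT_le (Q : ℕ → Finset α) (l0 l : ℕ) (ω : Finset α) :
    |TT Q l0 l ω| ≤ GG Q l0 l ω := by
  unfold TT GG
  rw [abs_prod]
  exact prod_le_prod (fun _ _ => abs_nonneg _) fun m _ => abs_sv_le _ _

theorem GG_cases (Q : ℕ → Finset α) (l0 l : ℕ) (ω : Finset α) :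
    GG Q l0 l ω = 0 ∨ 1 ≤ GG Q l0 l ω := by
  unfold GG
  by_cases h : ∃ m ∈ Ico l0 l, gv (l - m) (cnt (Q m) ω) = 0
  · obtain ⟨m, hm, h⟩ := h
    exact Or.inl (prod_eq_zero hm h)
  · push Not at h
    refine Or.inr (one_le_prod fun m hm => ?_)
    exact (gv_cases _ _).resolve_left (h m hm)

theorem TT_dep (Q : ℕ → Finset α) (l0 l : ℕ) {A : Set α}
    (hA : ∀ m ∈ Ico l0 l, (Q m : Set α) ⊆ A) : Dep A (TT Q l0 l) :=
  Dep.prod _ fun m hm => (cnt_dep (Q m) (fun n => sv (l - m) n)).mono (hA m hm)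

theorem GG_dep (Q : ℕ → Finset α) (l0 l : ℕ) {A : Set α}
    (hA : ∀ m ∈ Ico l0 l, (Q m : Set α) ⊆ A) : Dep A (GG Q l0 l) :=
  Dep.prod _ fun m hm => (cnt_dep (Q m) (fun n => gv (l - m) n)).mono (hA m hm)

theorem TT_nohit (Q : ℕ → Finset α) (l0 l : ℕ) {ω : Finset α}
    (h : ∀ m ∈ Ico l0 l, ∀ c ∈ Q m, c ∉ ω) : TT Q l0 l ω = 1 := by
  unfold TT
  refine prod_eq_one fun m hm => ?_
  rw [cnt_eq_zero (h m hm)]; simp [sv_zero]

theorem Ex_GG {q : α → ℝ} {S : Finset α} (hq : ∀ c ∈ S, 0 ≤ q c ∧ q c ≤ 1)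
    {Q : ℕ → Finset α} {l0 l : ℕ} (hQ : ∀ m ∈ Ico l0 l, Q m ⊆ S)
    (hdisj : ∀ m m', m ≠ m' → Disjoint (Q m) (Q m'))
    (hl : ∀ m ∈ Ico l0 l, ∑ c ∈ Q m, q c ≤ 8) :
    Ex q S (fun ω => GG Q l0 l ω ^ 4)
      ≤ Real.exp c1 * Real.exp (-∑ m ∈ Ico l0 l, ∑ c ∈ Q m, q c) := by
  unfold GG
  simp only [← prod_pow]
  rw [Ex_prod_indep q S (Ico l0 l) (fun m => (Q m : Set α))
    (fun i _ j _ hij => disjoint_coe.2 (hdisj i j hij))
    (fun m _ => cnt_dep (Q m) (fun n => gv (l - m) n ^ 4))]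
  calc _ ≤ ∏ m ∈ Ico l0 l, (Real.exp (-∑ c ∈ Q m, q c) * Real.exp (c1 * (1 / 2) ^ (l - m))) := by
        refine prod_le_prod (fun m _ => Ex_nonneg hq fun ω _ => by positivity) fun m hm => ?_
        exact Ex_gv hq (hQ m hm) (hl m hm) _
    _ = Real.exp (c1 * ∑ m ∈ Ico l0 l, (1 / 2) ^ (l - m))
          * Real.exp (-∑ m ∈ Ico l0 l, ∑ c ∈ Q m, q c) := by
        rw [prod_mul_distrib, ← Real.exp_sum, ← Real.exp_sum, mul_sum, sum_neg_distrib, mul_comm]
    _ ≤ _ := by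
        refine mul_le_mul_of_nonneg_right (Real.exp_le_exp.2 ?_) (Real.exp_pos _).le
        refine mul_le_of_le_one_right (by unfold c1; positivity) (le_trans ?_ (sum_half_le l))
        refine sum_le_sum_of_subset_of_nonneg (fun m hm => ?_) fun _ _ _ => by positivity
        exact mem_range.2 (mem_Ico.1 hm).2

theorem Lev_sv (Q : Finset α) (d : ℕ) :
    Lev (((Q.card : ℝ) + 1) ^ d) (fun ω => sv d (cnt Q ω)) := by
  unfold sv
  have := Lev.prod (α := α) (range d) (A := fun _ => (Q.card : ℝ) + 1)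
    (F := fun k ω => 1 - (cnt Q ω : ℝ) / ((k : ℝ) + 1)) fun k _ => by
      have h := (Lev.const (α := α) 1).sub ((Lev.cnt Q).smul (1 / ((k : ℝ) + 1)))
      refine (h.congr fun ω => by ring).weaken ?_
      have h1 : |1 / ((k : ℝ) + 1)| ≤ 1 := by
        rw [abs_of_nonneg (by positivity), div_le_one (by positivity)]
        have : (0 : ℝ) ≤ k := by positivity
        linarith
      have h2 : (0 : ℝ) ≤ Q.card := by positivity
      rw [abs_one]
      nlinarith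
  simpa only [prod_const, card_range] using this

theorem Lev_TT {Q : ℕ → Finset α} {l0 l : ℕ}
    (hc : ∀ m ∈ Ico l0 l, (Q m).card + 1 ≤ Y (m + 1)) : Lev ((Y l : ℝ) ^ 4) (TT Q l0 l) := by
  refine (Lev.prod (Ico l0 l) fun m _ => Lev_sv (Q m) (l - m)).weaken ?_
  have : ∏ m ∈ Ico l0 l, ((Q m).card + 1) ^ (l - m) ≤ Y l ^ 4 := by
    calc _ ≤ ∏ m ∈ Ico l0 l, 2 ^ (2 ^ (m + 1) * (l - m)) := by
          refine prod_le_prod' fun m hm => ?_
          rw [pow_mul]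
          exact Nat.pow_le_pow_left (hc m hm) _
      _ = 2 ^ ∑ m ∈ Ico l0 l, 2 ^ (m + 1) * (l - m) := prod_pow_eq_pow_sum _ _ _
      _ ≤ 2 ^ (2 ^ l * 4) := by
          refine Nat.pow_le_pow_right (by norm_num) ?_
          rw [mul_comm]
          refine le_trans (sum_le_sum_of_subset fun m hm => ?_) (sum_lev_le l)
          exact mem_range.2 (mem_Ico.1 hm).2
      _ = Y l ^ 4 := by rw [pow_mul]; rfl
  exact_mod_cast this

/-- The properties of the one-position weights. -/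
structure OnePos (q : α → ℝ) (S : Finset α) (A : Set α) (nh : Finset α → Prop) (Ls : Finset ℕ)
    (ρ : ℕ → ℝ) (L : ℕ) (z : ℕ → Finset α → ℝ) (θ : Finset α → ℝ) : Prop where
  dep_z : ∀ l ∈ Ls, Dep A (z l)
  dep_θ : Dep A θ
  mean0 : ∀ l ∈ Ls, Ex q S (z l) = 0
  orth : ∀ l ∈ Ls, ∀ l' ∈ Ls, l ≠ l' → Ex q S (fun ω => z l ω * z l' ω) = 0
  sq : ∀ l ∈ Ls, Ex q S (fun ω => z l ω * z l ω) ≤ Cs * ρ l
  four : ∀ l ∈ Ls, Ex q S (fun ω => (1 + |z l ω|) ^ 4) ≤ 1 + Cs * ρ l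
  nh_z : ∀ ω, nh ω → ∀ l ∈ Ls, z l ω = 1
  nh_θ : ∀ ω, nh ω → θ ω = 1
  θ_nonneg : ∀ ω, 0 ≤ θ ω
  Eθ : Ex q S θ ≤ Cs * ρ L
  lev_z : ∀ l ∈ Ls, Lev ((Y l : ℝ) ^ 7) (z l)
  lev_θ : Lev ((Y L : ℝ) ^ 8) θ

theorem onePos {q : α → ℝ} {S : Finset α} (hq : ∀ c ∈ S, 0 ≤ q c ∧ q c ≤ 1)
    (Q : ℕ → Finset α) (l0 L : ℕ) (Ls : Finset ℕ) (hLs : ∀ l ∈ Ls, l0 ≤ l ∧ l < L ∧ 2 ≤ l)
    (hQ : ∀ m ∈ Ico l0 L, Q m ⊆ S) (hdisj : ∀ m m', m ≠ m' → Disjoint (Q m) (Q m'))
    (hl : ∀ m ∈ Ico l0 L, ∑ c ∈ Q m, q c ≤ 8) (hl1 : ∀ l ∈ Ls, 1 / 16 ≤ ∑ c ∈ Q l, q c)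
    (hc : ∀ m ∈ Ico l0 L, (Q m).card + 1 ≤ Y (m + 1))
    (A : Set α) (hA : ∀ m ∈ Ico l0 L, (Q m : Set α) ⊆ A)
    (nh : Finset α → Prop) (hnh : ∀ ω, nh ω → ∀ m ∈ Ico l0 L, ∀ c ∈ Q m, c ∉ ω)
    (ρ : ℕ → ℝ) (hρ : ∀ l ≤ L, Real.exp (-∑ m ∈ Ico l0 l, ∑ c ∈ Q m, q c) ≤ ρ l) :
    ∃ z θ, OnePos q S A nh Ls ρ L z θ := by
  have hsub : ∀ l ∈ Ls, ∀ m ∈ Ico l0 l, m ∈ Ico l0 L := fun l hl m hm =>
    mem_Ico.2 ⟨(mem_Ico.1 hm).1, (mem_Ico.1 hm).2.trans (hLs l hl).2.1⟩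
  have hmem : ∀ l ∈ Ls, l ∈ Ico l0 L := fun l hl => mem_Ico.2 ⟨(hLs l hl).1, (hLs l hl).2.1⟩
  set a : ℕ → Finset α → ℝ := fun l ω => 1 - (cnt (Q l) ω : ℝ) / ∑ c ∈ Q l, q c with ha
  have ha_dep : ∀ l, Dep (Q l : Set α) (a l) := fun l =>
    cnt_dep (Q l) (fun n => 1 - (n : ℝ) / ∑ c ∈ Q l, q c)
  have ha0 : ∀ l ∈ Ls, Ex q S (a l) = 0 := by
    intro l hl
    rw [ha]; simp only
    rw [Ex_sub, Ex_const, Ex_div, Ex_cnt q (hQ l (hmem l hl)), div_self, sub_self]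
    have := hl1 l hl; positivity
  -- below scale `l`
  have hbelow : ∀ l : ℕ, Disjoint (Q l : Set α) (⋃ m ∈ range l, (Q m : Set α)) := by
    intro l
    simp only [Set.disjoint_iUnion_right]
    exact fun m hm => disjoint_coe.2 (hdisj l m (by have := mem_range.1 hm; omega))
  have hsubU : ∀ l m : ℕ, m < l → (Q m : Set α) ⊆ ⋃ m ∈ range l, (Q m : Set α) := fun l m hm =>
    Set.subset_biUnion_of_mem (u := fun m => (Q m : Set α))
      (show m ∈ ((range l : Finset ℕ) : Set ℕ) from by simpa using hm)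
  have hTb : ∀ l l' : ℕ, l ≤ l' → Dep (⋃ m ∈ range l', (Q m : Set α)) (TT Q l0 l) :=
    fun l l' h => TT_dep Q l0 l fun m hm => hsubU l' m ((mem_Ico.1 hm).2.trans_le h)
  have hGb : ∀ l : ℕ, Dep (⋃ m ∈ range l, (Q m : Set α)) (GG Q l0 l) :=
    fun l => GG_dep Q l0 l fun m hm => hsubU l m (mem_Ico.1 hm).2
  have horth : ∀ l' ∈ Ls, ∀ l < l',
      Ex q S (fun ω => (a l ω * TT Q l0 l ω) * (a l' ω * TT Q l0 l' ω)) = 0 := by
    intro l' hl' l hll
    have : ∀ ω, (a l ω * TT Q l0 l ω) * (a l' ω * TT Q l0 l' ω)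
        = a l' ω * (a l ω * TT Q l0 l ω * TT Q l0 l' ω) := fun ω => by ring
    simp only [this]
    rw [Ex_mul_indep q S (hbelow l') (ha_dep l')
      ((((ha_dep l).mono (hsubU l' l hll)).mul (hTb l l' hll.le)).mul (hTb l' l' le_rfl)),
      ha0 l' hl', zero_mul]
  have hΓ : ∀ l ∈ Ls, Ex q S (fun ω => ((1 + |a l ω|) * GG Q l0 l ω) ^ 4) ≤ Cs * ρ l := by
    intro l hl'
    simp only [mul_pow]
    rw [Ex_mul_indep q S (hbelow l) ((ha_dep l).comp fun t => (1 + |t|) ^ 4)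
      ((hGb l).comp fun t => t ^ 4)]
    have h1 : Ex q S (fun ω => (1 + |a l ω|) ^ 4) ≤ 18 ^ 4 * Real.exp 120 := by
      refine (Ex_mono hq (G := fun ω => 18 ^ 4 * (16 : ℝ) ^ cnt (Q l) ω) fun ω _ => ?_).trans ?_
      · have e : (18 : ℝ) ^ 4 * 16 ^ cnt (Q l) ω = (18 * 2 ^ cnt (Q l) ω) ^ 4 := by
          rw [mul_pow, ← pow_mul, mul_comm (cnt (Q l) ω) 4, pow_mul]; norm_num
        rw [e]
        refine pow_le_pow_left₀ (by positivity) ?_ 4
        have h2 := hl1 l hl'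
        have h3 : (cnt (Q l) ω : ℝ) / ∑ c ∈ Q l, q c ≤ 16 * cnt (Q l) ω := by
          rw [div_le_iff₀ (by linarith)]
          have : (0 : ℝ) ≤ cnt (Q l) ω := by positivity
          nlinarith
        have h4 : (0 : ℝ) ≤ (cnt (Q l) ω : ℝ) / ∑ c ∈ Q l, q c := by positivity
        have h5 : (cnt (Q l) ω : ℝ) ≤ 2 ^ cnt (Q l) ω := by
          exact_mod_cast (Nat.lt_two_pow_self).le
        have h6 : (1 : ℝ) ≤ 2 ^ cnt (Q l) ω := one_le_pow₀ (by norm_num)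
        have h7 : |a l ω| ≤ 1 + 16 * cnt (Q l) ω := by
          rw [ha, abs_le]; constructor <;> linarith
        linarith
      · rw [Ex_mul_left]
        refine mul_le_mul_of_nonneg_left ((Ex_pow_cnt_le hq (hQ l (hmem l hl'))
          (by norm_num)).trans (Real.exp_le_exp.2 ?_)) (by norm_num)
        have := hl l (hmem l hl')
        linarith
    have h2 := Ex_GG hq (l0 := l0) (l := l) (fun m hm => hQ m (hsub l hl' m hm)) hdisj
      (fun m hm => hl m (hsub l hl' m hm))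
    have h3 := hρ l (hLs l hl').2.1.le
    calc _ ≤ (18 ^ 4 * Real.exp 120) * (Real.exp c1 * ρ l) := by
          refine mul_le_mul h1 (h2.trans ?_) (Ex_nonneg hq fun ω _ => by positivity) (by positivity)
          exact mul_le_mul_of_nonneg_left h3 (Real.exp_pos _).le
      _ = _ := by unfold Cs; ring
  refine ⟨fun l ω => a l ω * TT Q l0 l ω, fun ω => TT Q l0 L ω ^ 2, ?_⟩
  constructor
  · intro l hl
    exact ((ha_dep l).mono (hA l (hmem l hl))).mul
      (TT_dep Q l0 l fun m hm => hA m (hsub l hl m hm))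
  · exact (TT_dep Q l0 L hA).comp fun t => t ^ 2
  · intro l hl
    rw [Ex_mul_indep q S (hbelow l) (ha_dep l) (hTb l l le_rfl), ha0 l hl, zero_mul]
  · intro l hl l' hl' hne
    rcases lt_or_gt_of_ne hne with h | h
    · exact horth l' hl' l h
    · simpa only [mul_comm] using horth l hl l' h
  · intro l hl
    refine le_trans (Ex_mono hq fun ω _ => ?_) (hΓ l hl)
    have h1 := abs_TT_le Q l0 l ω
    have h2 : |a l ω * TT Q l0 l ω| ≤ (1 + |a l ω|) * GG Q l0 l ω := by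
      rw [abs_mul]
      exact mul_le_mul (by linarith) h1 (abs_nonneg _) (by positivity)
    rw [← abs_mul_abs_self, ← pow_two]
    refine (pow_le_pow_left₀ (abs_nonneg _) h2 2).trans ?_
    rcases GG_cases Q l0 l ω with h | h
    · simp [h]
    · refine pow_le_pow_right₀ ?_ (by norm_num)
      nlinarith [abs_nonneg (a l ω)]
  · intro l hl
    have := hΓ l hl
    refine le_trans (Ex_mono hq (G := fun ω => 1 + ((1 + |a l ω|) * GG Q l0 l ω) ^ 4)
      fun ω _ => ?_) (by rw [Ex_add, Ex_const]; linarith)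
    have h1 := abs_TT_le Q l0 l ω
    rcases GG_cases Q l0 l ω with h | h
    · rw [h] at h1
      have : TT Q l0 l ω = 0 := abs_nonpos_iff.1 h1
      simp [h, this]
    · have h2 : 1 + |a l ω * TT Q l0 l ω| ≤ (1 + |a l ω|) * GG Q l0 l ω := by
        rw [abs_mul]
        nlinarith [abs_nonneg (a l ω), mul_le_mul_of_nonneg_left h1 (abs_nonneg (a l ω))]
      have := pow_le_pow_left₀ (by positivity) h2 4
      linarith
  · intro ω hω l hl
    rw [TT_nohit Q l0 l fun m hm => hnh ω hω m (hsub l hl m hm), ha]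
    simp [cnt_eq_zero (hnh ω hω l (hmem l hl))]
  · intro ω hω
    rw [TT_nohit Q l0 L (hnh ω hω)]; norm_num
  · intro ω; positivity
  · have h2 := Ex_GG hq hQ hdisj hl
    refine le_trans (Ex_mono hq fun ω _ => ?_) (h2.trans ?_)
    · have h1 := abs_TT_le Q l0 L ω
      rw [← sq_abs]
      refine (pow_le_pow_left₀ (abs_nonneg _) h1 2).trans ?_
      rcases GG_cases Q l0 L ω with h | h
      · simp [h]
      · exact pow_le_pow_right₀ h (by norm_num)
    · exact mul_le_mul exp_c1_le_Cs (hρ L le_rfl) (Real.exp_pos _).le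
        (zero_le_one.trans one_le_Cs)
  · intro l hl
    have h1 : Lev ((Y l : ℝ) ^ 3) (a l) := by
      have h := (Lev.const (α := α) 1).sub ((Lev.cnt (Q l)).smul (1 / ∑ c ∈ Q l, q c))
      refine (h.congr fun ω => by rw [ha]; ring).weaken ?_
      have h2 := hl1 l hl
      have h3 : |1 / ∑ c ∈ Q l, q c| ≤ 16 := by
        rw [abs_of_nonneg (by positivity), div_le_iff₀ (by linarith)]; linarith
      have h4 : ((Q l).card : ℝ) + 1 ≤ (Y l : ℝ) ^ 2 := by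
        have := hc l (hmem l hl)
        rw [Y_succ] at this
        exact_mod_cast this
      have h5 : (16 : ℝ) ≤ Y l := by
        have := Y_mono (hLs l hl).2.2
        have e : Y 2 = 16 := by norm_num [Y]
        rw [e] at this
        exact_mod_cast this
      have h6 : (0 : ℝ) ≤ (Q l).card := by positivity
      rw [abs_one]
      nlinarith
    have := h1.mul (Lev_TT (l0 := l0) (l := l) fun m hm => hc m (hsub l hl m hm))
    rwa [← pow_add] at this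
  · have := (Lev_TT hc).sq
    rwa [← pow_mul] at this

end Crest.Agent.H3.PG
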