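import Mathlib

/-! Finite product-Bernoulli expectation on configurations `ω : Finset α`. -/

set_option autoImplicit false

namespace Crest.Agent.H3.PG

open Finset

variable {α : Type} [DecidableEq α]

/-- Expectation of `F` when every `c ∈ S` is put in `ω` independently with probability `q c`. -/
noncomputable def Ex (q : α → ℝ) (S : Finset α) (F : Finset α → ℝ) : ℝ :=
  ∑ ω ∈ S.powerset, (∏ c ∈ ω, q c) * (∏ c ∈ S \ ω, (1 - q c)) * F ω

theorem Ex_empty (q : α → ℝ) (F : Finset α → ℝ) : Ex q ∅ F = F ∅ := by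
  simp [Ex]

theorem Ex_insert (q : α → ℝ) {S : Finset α} {c : α} (hc : c ∉ S) (F : Finset α → ℝ) :
    Ex q (insert c S) F = q c * Ex q S (fun ω => F (insert c ω)) + (1 - q c) * Ex q S F := by
  unfold Ex
  rw [sum_powerset_insert hc, add_comm, mul_sum, mul_sum]
  congr 1
  · refine sum_congr rfl fun t ht => ?_
    have hts : t ⊆ S := mem_powerset.1 ht
    have hct : c ∉ t := fun h => hc (hts h)
    have : insert c S \ insert c t = S \ t := by
      ext y; simp only [mem_sdiff, mem_insert]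
      constructor
      · rintro ⟨h1 | h1, h2⟩
        · exact absurd (Or.inl h1) h2
        · exact ⟨h1, fun h => h2 (Or.inr h)⟩
      · rintro ⟨h1, h2⟩
        refine ⟨Or.inr h1, ?_⟩
        rintro (h | h)
        · exact hc (h ▸ h1)
        · exact h2 h
    rw [this, prod_insert hct]; ring
  · refine sum_congr rfl fun t ht => ?_
    have hts : t ⊆ S := mem_powerset.1 ht
    have hct : c ∉ t := fun h => hc (hts h)
    have : insert c S \ t = insert c (S \ t) := by
      ext y; simp only [mem_sdiff, mem_insert]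
      constructor
      · rintro ⟨h1 | h1, h2⟩
        · exact Or.inl h1
        · exact Or.inr ⟨h1, h2⟩
      · rintro (h | ⟨h1, h2⟩)
        · exact ⟨Or.inl h, h ▸ hct⟩
        · exact ⟨Or.inr h1, h2⟩
    rw [this, prod_insert (by simp [hc])]; ring

theorem Ex_congr (q : α → ℝ) (S : Finset α) {F G : Finset α → ℝ} (h : ∀ ω ⊆ S, F ω = G ω) :
    Ex q S F = Ex q S G := by
  unfold Ex
  exact sum_congr rfl fun t ht => by rw [h t (mem_powerset.1 ht)]

theorem Ex_add (q : α → ℝ) (S : Finset α) (F G : Finset α → ℝ) :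
    Ex q S (fun ω => F ω + G ω) = Ex q S F + Ex q S G := by
  unfold Ex
  rw [← sum_add_distrib]
  exact sum_congr rfl fun t _ => by ring

theorem Ex_sub (q : α → ℝ) (S : Finset α) (F G : Finset α → ℝ) :
    Ex q S (fun ω => F ω - G ω) = Ex q S F - Ex q S G := by
  unfold Ex
  rw [← sum_sub_distrib]
  exact sum_congr rfl fun t _ => by ring

theorem Ex_mul_left (q : α → ℝ) (S : Finset α) (a : ℝ) (F : Finset α → ℝ) :
    Ex q S (fun ω => a * F ω) = a * Ex q S F := by
  unfold Ex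
  rw [mul_sum]
  exact sum_congr rfl fun t _ => by ring

theorem Ex_mul_right (q : α → ℝ) (S : Finset α) (a : ℝ) (F : Finset α → ℝ) :
    Ex q S (fun ω => F ω * a) = Ex q S F * a := by
  rw [mul_comm, ← Ex_mul_left]
  exact Ex_congr q S fun t _ => by ring

theorem Ex_div (q : α → ℝ) (S : Finset α) (a : ℝ) (F : Finset α → ℝ) :
    Ex q S (fun ω => F ω / a) = Ex q S F / a := by
  simp only [div_eq_mul_inv]
  exact Ex_mul_right q S _ F

theorem Ex_sum {ι : Type} (q : α → ℝ) (S : Finset α) (s : Finset ι) (F : ι → Finset α → ℝ) :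
    Ex q S (fun ω => ∑ i ∈ s, F i ω) = ∑ i ∈ s, Ex q S (F i) := by
  unfold Ex
  rw [sum_comm]
  exact sum_congr rfl fun t _ => by rw [mul_sum]

theorem Ex_const (q : α → ℝ) (S : Finset α) (a : ℝ) : Ex q S (fun _ => a) = a := by
  induction S using Finset.induction_on with
  | empty => simp [Ex_empty]
  | insert c S hc ih => rw [Ex_insert q hc, ih]; ring

theorem Ex_mono {q : α → ℝ} {S : Finset α} (hq : ∀ c ∈ S, 0 ≤ q c ∧ q c ≤ 1)
    {F G : Finset α → ℝ} (h : ∀ ω ⊆ S, F ω ≤ G ω) : Ex q S F ≤ Ex q S G := by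
  unfold Ex
  refine sum_le_sum fun t ht => ?_
  have hts : t ⊆ S := mem_powerset.1 ht
  refine mul_le_mul_of_nonneg_left (h t hts) (mul_nonneg ?_ ?_)
  · exact prod_nonneg fun c hc => (hq c (hts hc)).1
  · exact prod_nonneg fun c hc => sub_nonneg.2 (hq c (mem_sdiff.1 hc).1).2

theorem Ex_nonneg {q : α → ℝ} {S : Finset α} (hq : ∀ c ∈ S, 0 ≤ q c ∧ q c ≤ 1)
    {F : Finset α → ℝ} (h : ∀ ω ⊆ S, 0 ≤ F ω) : 0 ≤ Ex q S F := by
  have := Ex_mono hq (F := fun _ => 0) (G := F) h
  rwa [Ex_const] at this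

/-- `F` depends only on the coordinates in `A`. -/
def Dep (A : Set α) (F : Finset α → ℝ) : Prop :=
  ∀ ω ω' : Finset α, (∀ c ∈ A, c ∈ ω ↔ c ∈ ω') → F ω = F ω'

omit [DecidableEq α] in
theorem Dep.mono {A B : Set α} {F : Finset α → ℝ} (h : Dep A F) (hAB : A ⊆ B) : Dep B F :=
  fun ω ω' hh => h ω ω' fun c hc => hh c (hAB hc)

omit [DecidableEq α] in
theorem Dep.const (A : Set α) (a : ℝ) : Dep A (fun _ : Finset α => a) := fun _ _ _ => rfl

omit [DecidableEq α] in
theorem Dep.comp {A : Set α} {F : Finset α → ℝ} (h : Dep A F) (g : ℝ → ℝ) :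
    Dep A (fun ω => g (F ω)) := fun ω ω' hh => by simp only [h ω ω' hh]

omit [DecidableEq α] in
theorem Dep.comp₂ {A : Set α} {F G : Finset α → ℝ} (h : Dep A F) (h' : Dep A G)
    (g : ℝ → ℝ → ℝ) : Dep A (fun ω => g (F ω) (G ω)) :=
  fun ω ω' hh => by simp only [h ω ω' hh, h' ω ω' hh]

omit [DecidableEq α] in
theorem Dep.mul {A : Set α} {F G : Finset α → ℝ} (h : Dep A F) (h' : Dep A G) :
    Dep A (fun ω => F ω * G ω) := h.comp₂ h' (· * ·)

omit [DecidableEq α] in
theorem Dep.add {A : Set α} {F G : Finset α → ℝ} (h : Dep A F) (h' : Dep A G) :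
    Dep A (fun ω => F ω + G ω) := h.comp₂ h' (· + ·)

omit [DecidableEq α] in
theorem Dep.sum {ι : Type} {A : Set α} (s : Finset ι) {F : ι → Finset α → ℝ}
    (h : ∀ i ∈ s, Dep A (F i)) : Dep A (fun ω => ∑ i ∈ s, F i ω) :=
  fun ω ω' hh => sum_congr rfl fun i hi => h i hi ω ω' hh

omit [DecidableEq α] in
theorem Dep.prod {ι : Type} {A : Set α} (s : Finset ι) {F : ι → Finset α → ℝ}
    (h : ∀ i ∈ s, Dep A (F i)) : Dep A (fun ω => ∏ i ∈ s, F i ω) :=
  fun ω ω' hh => prod_congr rfl fun i hi => h i hi ω ω' hh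

theorem Dep.insert {A : Set α} {F : Finset α → ℝ} (h : Dep A F) (c : α) :
    Dep A (fun ω => F (insert c ω)) :=
  fun ω ω' hh => h _ _ fun y hy => by simp only [mem_insert, hh y hy]

theorem Dep.insert_eq {A : Set α} {F : Finset α → ℝ} (h : Dep A F) {c : α} (hc : c ∉ A)
    (ω : Finset α) : F (Insert.insert c ω) = F ω :=
  h _ _ fun y hy => by
    simp only [mem_insert]
    constructor
    · rintro (h1 | h1)
      · exact absurd (h1 ▸ hy) hc
      · exact h1
    · exact Or.inr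

theorem Ex_mul_indep (q : α → ℝ) (S : Finset α) {A B : Set α} (hAB : Disjoint A B)
    {F G : Finset α → ℝ} (hF : Dep A F) (hG : Dep B G) :
    Ex q S (fun ω => F ω * G ω) = Ex q S F * Ex q S G := by
  induction S using Finset.induction_on generalizing F G with
  | empty => simp [Ex_empty]
  | insert c S hc ih =>
    rw [Ex_insert q hc, Ex_insert q hc, Ex_insert q hc, ih hF hG]
    by_cases hcA : c ∈ A
    · have hcB : c ∉ B := fun h => (Set.disjoint_left.1 hAB hcA) h
      simp only [hG.insert_eq hcB]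
      rw [ih (hF.insert c) hG]; ring
    · simp only [hF.insert_eq hcA]
      rw [ih hF (hG.insert c)]; ring

theorem Ex_prod_indep {ι : Type} [DecidableEq ι] (q : α → ℝ) (S : Finset α) (s : Finset ι)
    (A : ι → Set α) (hA : ∀ i ∈ s, ∀ j ∈ s, i ≠ j → Disjoint (A i) (A j))
    {F : ι → Finset α → ℝ} (hF : ∀ i ∈ s, Dep (A i) (F i)) :
    Ex q S (fun ω => ∏ i ∈ s, F i ω) = ∏ i ∈ s, Ex q S (F i) := by
  induction s using Finset.induction_on with
  | empty => simp [Ex_const]
  | insert i s hi ih =>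
    simp only [prod_insert hi]
    rw [Ex_mul_indep q S (A := A i) (B := ⋃ j ∈ s, A j), ih]
    · exact fun a ha b hb hab => hA a (mem_insert_of_mem ha) b (mem_insert_of_mem hb) hab
    · exact fun a ha => hF a (mem_insert_of_mem ha)
    · simp only [Set.disjoint_iUnion_right]
      exact fun j hj => hA i (mem_insert_self _ _) j (mem_insert_of_mem hj)
        (fun h => hi (h ▸ hj))
    · exact hF i (mem_insert_self _ _)
    · refine Dep.prod s fun j hj => (hF j (mem_insert_of_mem hj)).mono ?_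
      exact Set.subset_biUnion_of_mem (u := A) (show j ∈ (s : Set ι) from hj)

/-- Indicator that `c` is in the configuration. -/
def X (c : α) (ω : Finset α) : ℝ := if c ∈ ω then 1 else 0

theorem X_dep (c : α) : Dep {c} (X c) := fun ω ω' h => by
  simp only [X, h c rfl]

theorem X_nonneg (c : α) (ω : Finset α) : 0 ≤ X c ω := by
  unfold X; split_ifs <;> norm_num

theorem Ex_X (q : α → ℝ) {S : Finset α} {c : α} (hc : c ∈ S) : Ex q S (X c) = q c := by
  rw [← insert_erase hc, Ex_insert q (notMem_erase c S)]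
  have h1 : Ex q (S.erase c) (fun ω => X c (insert c ω)) = 1 := by
    rw [← Ex_const q (S.erase c) 1]
    exact Ex_congr q _ fun ω _ => by simp [X]
  have h2 : Ex q (S.erase c) (X c) = 0 := by
    rw [← Ex_const q (S.erase c) 0]
    exact Ex_congr q _ fun ω hω => by
      have : c ∉ ω := fun h => notMem_erase c S (hω h)
      simp [X, this]
  rw [h1, h2]; ring

/-- Number of hits in `Q`. -/
def cnt (Q ω : Finset α) : ℕ := (Q.filter (· ∈ ω)).card

theorem cnt_eq_sum (Q ω : Finset α) : (cnt Q ω : ℝ) = ∑ c ∈ Q, X c ω := by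
  simp only [cnt, X, sum_boole]

theorem cnt_dep (Q : Finset α) (g : ℕ → ℝ) : Dep (Q : Set α) (fun ω => g (cnt Q ω)) :=
  fun ω ω' h => by
    have : Q.filter (· ∈ ω) = Q.filter (· ∈ ω') := filter_congr fun c hc => h c hc
    simp only [cnt, this]

theorem cnt_eq_zero {Q ω : Finset α} (h : ∀ c ∈ Q, c ∉ ω) : cnt Q ω = 0 := by
  simp only [cnt, card_eq_zero, filter_eq_empty_iff]
  exact fun c hc => h c hc

theorem pow_cnt (s : ℝ) (Q ω : Finset α) :
    s ^ cnt Q ω = ∏ c ∈ Q, (1 + (s - 1) * X c ω) := by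
  rw [cnt, ← prod_const, prod_filter]
  refine prod_congr rfl fun c _ => ?_
  unfold X; split_ifs <;> ring

theorem Ex_pow_cnt (q : α → ℝ) {S Q : Finset α} (hQ : Q ⊆ S) (s : ℝ) :
    Ex q S (fun ω => s ^ cnt Q ω) = ∏ c ∈ Q, (1 + (s - 1) * q c) := by
  simp only [pow_cnt]
  rw [Ex_prod_indep q S Q (fun c => {c})]
  · refine prod_congr rfl fun c hc => ?_
    rw [Ex_add, Ex_const, Ex_mul_left, Ex_X q (hQ hc)]
  · intro i _ j _ hij; simpa using hij
  · intro c _
    exact (X_dep c).comp (fun t => 1 + (s - 1) * t)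

theorem Ex_pow_cnt_le {q : α → ℝ} {S Q : Finset α} (hq : ∀ c ∈ S, 0 ≤ q c ∧ q c ≤ 1)
    (hQ : Q ⊆ S) {s : ℝ} (hs : 0 ≤ s) :
    Ex q S (fun ω => s ^ cnt Q ω) ≤ Real.exp ((s - 1) * ∑ c ∈ Q, q c) := by
  rw [Ex_pow_cnt q hQ, mul_sum, Real.exp_sum]
  refine prod_le_prod (fun c hc => ?_) fun c _ => ?_
  · have := hq c (hQ hc); nlinarith [this.1, this.2]
  · rw [add_comm]; exact Real.add_one_le_exp _

theorem Ex_cnt (q : α → ℝ) {S Q : Finset α} (hQ : Q ⊆ S) :
    Ex q S (fun ω => (cnt Q ω : ℝ)) = ∑ c ∈ Q, q c := by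
  simp only [cnt_eq_sum]
  rw [Ex_sum]
  exact sum_congr rfl fun c hc => Ex_X q (hQ hc)

end Crest.Agent.H3.PG
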