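import Crest.Agent.H3.PGOne

/-! Truncated products `Ψ`. -/

set_option autoImplicit false

namespace Crest.Agent.H3.PG

open Finset

noncomputable def Lf (φ : ℕ → ℝ) : Polynomial ℝ →ₗ[ℝ] ℝ :=
  Polynomial.lsum (fun n => φ n • (LinearMap.id : ℝ →ₗ[ℝ] ℝ))

theorem Lf_monomial (φ : ℕ → ℝ) (n : ℕ) (a : ℝ) : Lf φ (Polynomial.monomial n a) = φ n * a := by
  simp [Lf, Polynomial.lsum_apply, Polynomial.sum_monomial_index]

theorem Lf_monomial_mul (φ : ℕ → ℝ) (k : ℕ) (c : ℝ) (f : Polynomial ℝ) :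
    Lf φ (Polynomial.monomial k c * f) = c * Lf (fun n => φ (n + k)) f := by
  induction f using Polynomial.induction_on' with
  | add p r hp hr => rw [mul_add, map_add, map_add, hp, hr]; ring
  | monomial n a =>
    rw [Polynomial.monomial_mul_monomial, Lf_monomial, Lf_monomial, add_comm k n]; ring

theorem Lf_add (φ ψ : ℕ → ℝ) (f : Polynomial ℝ) :
    Lf (fun n => φ n + ψ n) f = Lf φ f + Lf ψ f := by
  induction f using Polynomial.induction_on' with
  | add p r hp hr => simp only [map_add, hp, hr]; ring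
  | monomial n a => simp only [Lf_monomial]; ring

theorem Lf_mul (c : ℝ) (φ : ℕ → ℝ) (f : Polynomial ℝ) :
    Lf (fun n => c * φ n) f = c * Lf φ f := by
  induction f using Polynomial.induction_on' with
  | add p r hp hr => simp only [map_add, hp, hr]; ring
  | monomial n a => simp only [Lf_monomial]; ring

theorem Lf_sum (s : Finset ℕ) (φ : ℕ → ℕ → ℝ) (f : Polynomial ℝ) :
    Lf (fun n => ∑ l ∈ s, φ l n) f = ∑ l ∈ s, Lf (φ l) f := by
  induction f using Polynomial.induction_on' with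
  | add p r hp hr => simp only [map_add, hp, hr, sum_add_distrib]
  | monomial n a => simp only [Lf_monomial, sum_mul]

/-- `Ψ(I, φ) = ∑_s φ(lev s) ∏_i u_{i, s i}` over labelings `s` of `I`. -/
noncomputable def Psi (om : ℕ → ℕ) (Ls : Finset ℕ) (u : ℕ → ℕ → ℝ) (I : Finset ℕ) (φ : ℕ → ℝ) :
    ℝ :=
  Lf φ (∏ i ∈ I, (1 + ∑ l ∈ Ls, Polynomial.monomial (om l) (u i l)))

section
variable (om : ℕ → ℕ) (Ls : Finset ℕ)

theorem Psi_empty (u : ℕ → ℕ → ℝ) (φ : ℕ → ℝ) : Psi om Ls u ∅ φ = φ 0 := by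
  unfold Psi
  rw [prod_empty, ← Polynomial.monomial_zero_one, Lf_monomial, mul_one]

theorem Psi_insert (u : ℕ → ℕ → ℝ) {i : ℕ} {I : Finset ℕ} (hi : i ∉ I) (φ : ℕ → ℝ) :
    Psi om Ls u (insert i I) φ
      = Psi om Ls u I φ + ∑ l ∈ Ls, u i l * Psi om Ls u I (fun n => φ (n + om l)) := by
  unfold Psi
  rw [prod_insert hi, add_mul, one_mul, map_add, sum_mul, map_sum]
  simp only [Lf_monomial_mul]

theorem Psi_add (u : ℕ → ℕ → ℝ) (I : Finset ℕ) (φ ψ : ℕ → ℝ) :
    Psi om Ls u I (fun n => φ n + ψ n) = Psi om Ls u I φ + Psi om Ls u I ψ := Lf_add _ _ _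

theorem Psi_mul (u : ℕ → ℕ → ℝ) (I : Finset ℕ) (c : ℝ) (φ : ℕ → ℝ) :
    Psi om Ls u I (fun n => c * φ n) = c * Psi om Ls u I φ := Lf_mul _ _ _

theorem Psi_sum (u : ℕ → ℕ → ℝ) (I s : Finset ℕ) (φ : ℕ → ℕ → ℝ) :
    Psi om Ls u I (fun n => ∑ l ∈ s, φ l n) = ∑ l ∈ s, Psi om Ls u I (φ l) := Lf_sum _ _ _

theorem Psi_abs_le (u : ℕ → ℕ → ℝ) (I : Finset ℕ) (φ : ℕ → ℝ) (hφ : ∀ n, |φ n| ≤ 1) :
    |Psi om Ls u I φ| ≤ ∏ i ∈ I, (1 + ∑ l ∈ Ls, |u i l|) := by
  induction I using Finset.induction_on generalizing φ with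
  | empty => simpa [Psi_empty] using hφ 0
  | insert i I hi ih =>
    rw [Psi_insert om Ls u hi, prod_insert hi, add_mul, one_mul, sum_mul]
    refine (abs_add_le _ _).trans (add_le_add (ih φ hφ) ((abs_sum_le_sum_abs _ _).trans
      (sum_le_sum fun l _ => ?_)))
    rw [abs_mul]
    exact mul_le_mul_of_nonneg_left (ih _ fun n => hφ _) (abs_nonneg _)

theorem Psi_mono (v : ℕ → ℕ → ℝ) (I : Finset ℕ) (hv : ∀ i ∈ I, ∀ l ∈ Ls, 0 ≤ v i l)
    (φ ψ : ℕ → ℝ) (h : ∀ n, φ n ≤ ψ n) : Psi om Ls v I φ ≤ Psi om Ls v I ψ := by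
  induction I using Finset.induction_on generalizing φ ψ with
  | empty => simpa [Psi_empty] using h 0
  | insert i I hi ih =>
    have hv' : ∀ j ∈ I, ∀ l ∈ Ls, 0 ≤ v j l := fun j hj => hv j (mem_insert_of_mem hj)
    rw [Psi_insert om Ls v hi, Psi_insert om Ls v hi]
    refine add_le_add (ih hv' φ ψ h) (sum_le_sum fun l hl => ?_)
    exact mul_le_mul_of_nonneg_left (ih hv' _ _ fun n => h _) (hv i (mem_insert_self _ _) l hl)

theorem Psi_one (v : ℕ → ℕ → ℝ) (I : Finset ℕ) :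
    Psi om Ls v I (fun _ => 1) = ∏ i ∈ I, (1 + ∑ l ∈ Ls, v i l) := by
  induction I using Finset.induction_on with
  | empty => simp [Psi_empty]
  | insert i I hi ih => rw [Psi_insert om Ls v hi, prod_insert hi, ih, ← sum_mul]; ring

theorem Psi_id (v : ℕ → ℕ → ℝ) (I : Finset ℕ) (hv : ∀ i ∈ I, ∀ l ∈ Ls, 0 ≤ v i l) :
    Psi om Ls v I (fun n => (n : ℝ))
      ≤ (∑ i ∈ I, ∑ l ∈ Ls, (om l : ℝ) * v i l) * ∏ i ∈ I, (1 + ∑ l ∈ Ls, v i l) := by
  induction I using Finset.induction_on with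
  | empty => simp [Psi_empty]
  | insert i I hi ih =>
    have hv' : ∀ j ∈ I, ∀ l ∈ Ls, 0 ≤ v j l := fun j hj => hv j (mem_insert_of_mem hj)
    have hvi := hv i (mem_insert_self _ _)
    have ih' := ih hv'
    rw [Psi_insert om Ls v hi, prod_insert hi, sum_insert hi]
    have e : ∀ l, Psi om Ls v I (fun n => ((n + om l : ℕ) : ℝ))
        = Psi om Ls v I (fun n => (n : ℝ)) + om l * ∏ i ∈ I, (1 + ∑ l ∈ Ls, v i l) := by
      intro l
      rw [← Psi_one om Ls v I, ← Psi_mul, ← Psi_add]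
      congr 1; funext n; push_cast; ring
    simp only [e, mul_add, sum_add_distrib, ← sum_mul, ← mul_assoc]
    set K := ∏ i ∈ I, (1 + ∑ l ∈ Ls, v i l)
    set P := Psi om Ls v I (fun n => (n : ℝ))
    set η := ∑ i ∈ I, ∑ l ∈ Ls, (om l : ℝ) * v i l
    have hK : 0 ≤ K := prod_nonneg fun j hj => by
      have := sum_nonneg (hv' j hj); linarith
    have h1 : 0 ≤ ∑ l ∈ Ls, v i l := sum_nonneg hvi
    have h2 : 0 ≤ ∑ l ∈ Ls, (om l : ℝ) * v i l :=
      sum_nonneg fun l hl => mul_nonneg (by positivity) (hvi l hl)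
    have e2 : ∑ l ∈ Ls, v i l * (om l : ℝ) = ∑ l ∈ Ls, (om l : ℝ) * v i l :=
      sum_congr rfl fun _ _ => mul_comm _ _
    rw [e2]
    nlinarith [mul_le_mul_of_nonneg_left ih' h1, mul_nonneg (mul_nonneg h2 h1) hK]

variable {α : Type} [DecidableEq α]

omit [DecidableEq α] in
theorem Psi_dep (u : ℕ → ℕ → Finset α → ℝ) (I : Finset ℕ) {B : Set α}
    (hu : ∀ i ∈ I, ∀ l ∈ Ls, Dep B (u i l)) (φ : ℕ → ℝ) :
    Dep B (fun ω => Psi om Ls (fun i l => u i l ω) I φ) := by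
  intro ω ω' h
  simp only [Psi]
  congr 1
  refine prod_congr rfl fun i hi => ?_
  congr 1
  exact sum_congr rfl fun l hl => by rw [hu i hi l hl ω ω' h]

theorem Psi_lev (u : ℕ → ℕ → Finset α → ℝ) (I : Finset ℕ) {R ε : ℝ} (hR : 0 < R)
    (hu : ∀ i ∈ I, ∀ l ∈ Ls, Lev (ε * R ^ om l) (u i l)) (φ : ℕ → ℝ) (M : ℝ)
    (hφ : ∀ n, |φ n| * R ^ n ≤ M) :
    Lev (M * (1 + Ls.card * ε) ^ I.card) (fun ω => Psi om Ls (fun i l => u i l ω) I φ) := by
  induction I using Finset.induction_on generalizing φ M with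
  | empty =>
    simp only [Psi_empty, card_empty, pow_zero, mul_one]
    exact (Lev.const (φ 0)).weaken (by simpa using hφ 0)
  | insert i I hi ih =>
    have hu' : ∀ j ∈ I, ∀ l ∈ Ls, Lev (ε * R ^ om l) (u j l) :=
      fun j hj => hu j (mem_insert_of_mem hj)
    simp only [Psi_insert om Ls _ hi]
    have h2 := Lev.sum Ls (A := fun l => (ε * R ^ om l) * (M / R ^ om l * (1 + Ls.card * ε) ^ I.card))
      (F := fun l ω => u i l ω * Psi om Ls (fun i l => u i l ω) I (fun n => φ (n + om l)))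
      fun l hl => (hu i (mem_insert_self _ _) l hl).mul (ih hu' _ _ fun n => by
        rw [le_div_iff₀ (by positivity), mul_assoc, ← pow_add]; exact hφ _)
    refine ((ih hu' φ M hφ).add h2).weaken (le_of_eq ?_)
    rw [sum_congr rfl (g := fun _ => ε * (M * (1 + Ls.card * ε) ^ I.card)), sum_const,
      card_insert_of_notMem hi, nsmul_eq_mul, pow_succ]
    · ring
    · intro l _
      have : R ^ om l ≠ 0 := by positivity
      field_simp

theorem Psi_orth (q : α → ℝ) (S : Finset α) (u : ℕ → ℕ → Finset α → ℝ) (A : ℕ → Set α)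
    (hA : ∀ i j, i ≠ j → Disjoint (A i) (A j)) (I : Finset ℕ)
    (hu : ∀ i ∈ I, ∀ l ∈ Ls, Dep (A i) (u i l))
    (h0 : ∀ i ∈ I, ∀ l ∈ Ls, Ex q S (u i l) = 0)
    (horth : ∀ i ∈ I, ∀ l ∈ Ls, ∀ l' ∈ Ls, l ≠ l' → Ex q S (fun ω => u i l ω * u i l' ω) = 0)
    (φ ψ : ℕ → ℝ) :
    Ex q S (fun ω => Psi om Ls (fun i l => u i l ω) I φ * Psi om Ls (fun i l => u i l ω) I ψ)
      = Psi om Ls (fun i l => Ex q S (fun ω => u i l ω * u i l ω)) I (fun n => φ n * ψ n) := by
  induction I using Finset.induction_on generalizing φ ψ with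
  | empty => simp [Psi_empty, Ex_const]
  | insert i I hi ih =>
    have ih' := ih (fun j hj => hu j (mem_insert_of_mem hj))
      (fun j hj => h0 j (mem_insert_of_mem hj)) (fun j hj => horth j (mem_insert_of_mem hj))
    have hui := hu i (mem_insert_self _ _)
    have h0i := h0 i (mem_insert_self _ _)
    have hoi := horth i (mem_insert_self _ _)
    have hdis : Disjoint (A i) (⋃ j ∈ I, A j) := by
      simp only [Set.disjoint_iUnion_right]
      exact fun j hj => hA i j fun h => hi (h ▸ hj)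
    have hdep : ∀ φ : ℕ → ℝ, Dep (⋃ j ∈ I, A j) (fun ω => Psi om Ls (fun i l => u i l ω) I φ) :=
      fun φ => Psi_dep om Ls u I (fun j hj l hl => (hu j (mem_insert_of_mem hj) l hl).mono
        (Set.subset_biUnion_of_mem (u := A) (show j ∈ (I : Set ℕ) from hj))) φ
    simp only [Psi_insert om Ls _ hi]
    set P : (ℕ → ℝ) → Finset α → ℝ := fun φ ω => Psi om Ls (fun i l => u i l ω) I φ with hP
    have e : ∀ ω, (P φ ω + ∑ l ∈ Ls, u i l ω * P (fun n => φ (n + om l)) ω)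
        * (P ψ ω + ∑ l ∈ Ls, u i l ω * P (fun n => ψ (n + om l)) ω)
        = P φ ω * P ψ ω + ∑ l ∈ Ls, u i l ω * (P φ ω * P (fun n => ψ (n + om l)) ω)
          + ∑ l ∈ Ls, u i l ω * (P (fun n => φ (n + om l)) ω * P ψ ω)
          + ∑ l ∈ Ls, ∑ l' ∈ Ls, (u i l ω * u i l' ω)
            * (P (fun n => φ (n + om l)) ω * P (fun n => ψ (n + om l')) ω) := by
      intro ω
      have e1 : P φ ω * ∑ l ∈ Ls, u i l ω * P (fun n => ψ (n + om l)) ω
          = ∑ l ∈ Ls, u i l ω * (P φ ω * P (fun n => ψ (n + om l)) ω) := by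
        rw [mul_sum]; exact sum_congr rfl fun _ _ => by ring
      have e2 : (∑ l ∈ Ls, u i l ω * P (fun n => φ (n + om l)) ω) * P ψ ω
          = ∑ l ∈ Ls, u i l ω * (P (fun n => φ (n + om l)) ω * P ψ ω) := by
        rw [sum_mul]; exact sum_congr rfl fun _ _ => by ring
      have e3 : (∑ l ∈ Ls, u i l ω * P (fun n => φ (n + om l)) ω)
          * (∑ l ∈ Ls, u i l ω * P (fun n => ψ (n + om l)) ω)
          = ∑ l ∈ Ls, ∑ l' ∈ Ls, (u i l ω * u i l' ω)
            * (P (fun n => φ (n + om l)) ω * P (fun n => ψ (n + om l')) ω) := by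
        rw [sum_mul_sum]; exact sum_congr rfl fun _ _ => sum_congr rfl fun _ _ => by ring
      rw [← e1, ← e2, ← e3]; ring
    change Ex q S (fun ω => (P φ ω + ∑ l ∈ Ls, u i l ω * P (fun n => φ (n + om l)) ω)
        * (P ψ ω + ∑ l ∈ Ls, u i l ω * P (fun n => ψ (n + om l)) ω)) = _
    simp only [e]
    rw [Ex_add, Ex_add, Ex_add, Ex_sum, Ex_sum, Ex_sum, ih', sum_eq_zero, sum_eq_zero, add_zero,
      add_zero]
    · congr 1
      refine sum_congr rfl fun l hl => ?_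
      rw [Ex_sum, sum_eq_single l]
      · rw [Ex_mul_indep q S hdis ((hui l hl).mul (hui l hl)) ((hdep _).mul (hdep _)), ih']
      · intro l' hl' hne
        rw [Ex_mul_indep q S hdis ((hui l hl).mul (hui l' hl')) ((hdep _).mul (hdep _)),
          hoi l hl l' hl' hne.symm, zero_mul]
      · intro h; exact absurd hl h
    · intro l hl
      rw [Ex_mul_indep q S hdis (hui l hl) ((hdep _).mul (hdep _)), h0i l hl, zero_mul]
    · intro l hl
      rw [Ex_mul_indep q S hdis (hui l hl) ((hdep _).mul (hdep _)), h0i l hl, zero_mul]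

end

end Crest.Agent.H3.PG
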