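import Crest.Agent.H3.PGBlock

/-! The test function of one window of `T + 1` blocks. -/

set_option autoImplicit false

namespace Crest.Agent.H3.PG

open Finset

variable {α : Type} [DecidableEq α]

theorem window {q : α → ℝ} {S : Finset α} (hq : ∀ c ∈ S, 0 ≤ q c ∧ q c ≤ 1)
    (A : ℕ → Set α) (hA : ∀ i j, i ≠ j → Disjoint (A i) (A j))
    (nh : ℕ → Finset α → Prop) (z : ℕ → ℕ → Finset α → ℝ) (θ : ℕ → Finset α → ℝ)
    {L J T : ℕ} (hJ : 1 ≤ J) (hJL : J ≤ L) (hT : 1 ≤ T) (ρ : ℕ → ℝ) (I : ℕ → Finset ℕ)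
    (hId : ∀ k k', k ≠ k' → Disjoint (I k) (I k'))
    (hI : ∀ k ≤ T, ∀ i ∈ I k, OnePos q S (A i) (nh i) (Ico (L - J) L) ρ L (z i) (θ i))
    {D : ℝ} (hD0 : 0 ≤ D) (hD : ∀ k ≤ T, ∀ l ≤ L, ((I k).card : ℝ) * ρ l * 2 ^ l ≤ D * 2 ^ L)
    (hJD : 2 * Cs * D ≤ J) (hIc : ∀ k ≤ T, (I k).card ≤ Y (L - J))
    {t δ : ℝ} (ht0 : 0 ≤ t) (ht1 : t ≤ 1) (hδ : 0 < δ) :
    ∃ F : Finset α → ℝ, (∀ ω, 0 ≤ F ω) ∧ Lev ((19 + 361 / δ) * (Y L : ℝ) ^ 32) F ∧
      Ex q S F ≤ 4 * Cs ^ 2 * D ^ 2 / J + 4 * Real.exp (Cs * D * 2 ^ J) / (T * δ)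
        + t ^ 2 * (Cs * D) ^ 2 ∧
      ∀ ω (Pr : ℕ → Finset ℕ), (∀ k ≤ T, Pr k ⊆ I k) → (∀ k ≤ T, ∀ i ∈ Pr k, nh i ω) →
        t * (Pr 0).card - δ - F ω ≤ 1 ∧
          (¬ ((Pr 0).Nonempty ∧ ∃ k ∈ Icc 1 T, Pr k = ∅) → t * (Pr 0).card - δ - F ω ≤ 0) := by
  have hT0 : (0 : ℝ) < T := by exact_mod_cast hT
  have hcard : ((Icc 1 T).card : ℝ) = T := by simp
  have hCs := one_le_Cs
  have hb : ∀ k : ℕ, ∃ w Φ : Finset α → ℝ, k ≤ T → ((∀ ω, 0 ≤ w ω) ∧ (∀ ω, 0 ≤ Φ ω) ∧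
      Dep (⋃ i ∈ I k, A i) w ∧
      Ex q S w = 1 ∧ Ex q S (fun ω => w ω * w ω) ≤ 4 * Real.exp (Cs * D * 2 ^ J) ∧
      Ex q S Φ ≤ 4 * Cs ^ 2 * D ^ 2 / J ∧ Lev (18 * (Y L : ℝ) ^ 16) w ∧
      Lev ((I k).card * (18 * (Y L : ℝ) ^ 24)) Φ ∧ ∀ ω, ∀ i ∈ I k, nh i ω → w ω ≤ Φ ω) := by
    intro k
    by_cases hk : k ≤ T
    · obtain ⟨w, Φ, h⟩ := block hq A hA nh z θ hJ hJL ρ (I k) (hI k hk) hD0 (hD k hk) hJD
        (hIc k hk)
      exact ⟨w, Φ, fun _ => h⟩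
    · exact ⟨fun _ => 0, fun _ => 0, fun h => absurd h hk⟩
  choose w Φ hw using hb
  have hmem : ∀ k ∈ Icc 1 T, k ≤ T := fun k hk => (mem_Icc.1 hk).2
  have hI0 := hI 0 (Nat.zero_le T)
  have hY1 : (1 : ℝ) ≤ Y L := by have := two_le_Y L; exact_mod_cast (by omega : 1 ≤ Y L)
  have hIcY : ∀ k ≤ T, ((I k).card : ℝ) ≤ Y L := fun k hk => by
    exact_mod_cast (hIc k hk).trans (Y_mono (Nat.sub_le _ _))
  refine ⟨fun ω => 1 / T * ∑ k ∈ Icc 1 T, Φ k ω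
    + 1 / δ * (1 / T * ∑ k ∈ Icc 1 T, (1 - w k ω)) ^ 2
    + t ^ 2 * ∑ i ∈ I 0, ∑ j ∈ (I 0).erase i, θ i ω * θ j ω, fun ω => ?_, ?_, ?_, ?_⟩
  · have h1 : 0 ≤ ∑ k ∈ Icc 1 T, Φ k ω := sum_nonneg fun k hk => (hw k (hmem k hk)).2.1 ω
    have h2 : 0 ≤ ∑ i ∈ I 0, ∑ j ∈ (I 0).erase i, θ i ω * θ j ω :=
      sum_nonneg fun i hi => sum_nonneg fun j hj =>
        mul_nonneg ((hI0 i hi).θ_nonneg ω) ((hI0 j (mem_of_mem_erase hj)).θ_nonneg ω)
    positivity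
  · have h1 := (Lev.sum (Icc 1 T) (A := fun _ => (Y L : ℝ) * (18 * (Y L : ℝ) ^ 24))
      (F := fun k => Φ k) fun k hk => ((hw k (hmem k hk)).2.2.2.2.2.2.2.1).weaken
        (mul_le_mul_of_nonneg_right (hIcY k (hmem k hk)) (by positivity))).smul (1 / T)
    have h2 := ((Lev.sum (Icc 1 T) (A := fun _ => |1| + 18 * (Y L : ℝ) ^ 16)
      (F := fun k ω => 1 - w k ω) fun k hk =>
        (Lev.const 1).sub (hw k (hmem k hk)).2.2.2.2.2.2.1).smul (1 / T)).sq.smul (1 / δ)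
    have h3 := (Lev.sum (I 0) (A := fun _ => (Y L : ℝ) * ((Y L : ℝ) ^ 8 * (Y L : ℝ) ^ 8))
      (F := fun i ω => ∑ j ∈ (I 0).erase i, θ i ω * θ j ω) fun i hi =>
        (Lev.sum ((I 0).erase i) (A := fun _ => (Y L : ℝ) ^ 8 * (Y L : ℝ) ^ 8)
          (F := fun j ω => θ i ω * θ j ω) fun j hj =>
            (hI0 i hi).lev_θ.mul (hI0 j (mem_of_mem_erase hj)).lev_θ).weaken (by
          rw [sum_const, nsmul_eq_mul]
          refine mul_le_mul_of_nonneg_right (le_trans ?_ (hIcY 0 (Nat.zero_le T))) (by positivity)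
          exact_mod_cast card_erase_le)).smul (t ^ 2)
    refine ((h1.add h2).add h3).weaken ?_
    simp only [sum_const, nsmul_eq_mul, hcard, abs_one]
    rw [abs_of_nonneg (show (0 : ℝ) ≤ 1 / T by positivity),
      abs_of_nonneg (show (0 : ℝ) ≤ 1 / δ by positivity),
      abs_of_nonneg (show (0 : ℝ) ≤ t ^ 2 by positivity)]
    have e1 : 1 / (T : ℝ) * (T * (Y L * (18 * (Y L : ℝ) ^ 24))) = 18 * (Y L : ℝ) ^ 25 := by
      field_simp
    have e2 : 1 / (T : ℝ) * (T * (1 + 18 * (Y L : ℝ) ^ 16)) = 1 + 18 * (Y L : ℝ) ^ 16 := by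
      field_simp
    rw [e1, e2]
    have b1 : (Y L : ℝ) ^ 25 ≤ (Y L : ℝ) ^ 32 := pow_le_pow_right₀ hY1 (by norm_num)
    have b2 : (1 + 18 * (Y L : ℝ) ^ 16) ^ 2 ≤ 361 * (Y L : ℝ) ^ 32 := by
      have : (1 : ℝ) ≤ (Y L : ℝ) ^ 16 := one_le_pow₀ hY1
      calc _ ≤ (19 * (Y L : ℝ) ^ 16) ^ 2 := pow_le_pow_left₀ (by positivity) (by linarith) 2
        _ = _ := by ring
    have b3 : t ^ 2 * (((I 0).card : ℝ) * (Y L * ((Y L : ℝ) ^ 8 * (Y L : ℝ) ^ 8)))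
        ≤ (Y L : ℝ) ^ 32 := by
      calc _ ≤ 1 * ((Y L : ℝ) * (Y L * ((Y L : ℝ) ^ 8 * (Y L : ℝ) ^ 8))) :=
            mul_le_mul (pow_le_one₀ ht0 ht1)
              (mul_le_mul_of_nonneg_right (hIcY 0 (Nat.zero_le T)) (by positivity))
              (by positivity) zero_le_one
        _ = (Y L : ℝ) ^ 18 := by ring
        _ ≤ _ := pow_le_pow_right₀ hY1 (by norm_num)
    have b4 : 1 / δ * (1 + 18 * (Y L : ℝ) ^ 16) ^ 2 ≤ 361 / δ * (Y L : ℝ) ^ 32 := by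
      calc _ ≤ 1 / δ * (361 * (Y L : ℝ) ^ 32) := mul_le_mul_of_nonneg_left b2 (by positivity)
        _ = _ := by ring
    linarith
  · rw [Ex_add, Ex_add, Ex_mul_left, Ex_mul_left, Ex_mul_left, Ex_sum, Ex_sum]
    refine add_le_add (add_le_add ?_ ?_) ?_
    · rw [one_div_mul_eq_div, div_le_iff₀ hT0, ← hcard, mul_comm, ← nsmul_eq_mul]
      exact sum_le_card_nsmul _ _ _ fun k hk => (hw k (hmem k hk)).2.2.2.2.2.1
    · have e : ∀ ω, (1 / (T : ℝ) * ∑ k ∈ Icc 1 T, (1 - w k ω)) ^ 2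
          = 1 / (T : ℝ) ^ 2 * ∑ k ∈ Icc 1 T, ∑ k' ∈ Icc 1 T, (1 - w k ω) * (1 - w k' ω) := by
        intro ω
        rw [← sum_mul_sum]; field_simp
      simp only [e]
      rw [Ex_mul_left, Ex_sum]
      have h1 : ∑ k ∈ Icc 1 T, Ex q S (fun ω => ∑ k' ∈ Icc 1 T, (1 - w k ω) * (1 - w k' ω))
          ≤ T * (4 * Real.exp (Cs * D * 2 ^ J)) := by
        rw [← hcard, ← nsmul_eq_mul]
        refine sum_le_card_nsmul _ _ _ fun k hk => ?_
        rw [Ex_sum, sum_eq_single k]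
        · have e : ∀ ω, (1 - w k ω) * (1 - w k ω) = w k ω * w k ω - 2 * w k ω + 1 :=
            fun ω => by ring
          simp only [e]
          rw [Ex_add, Ex_sub, Ex_mul_left, Ex_const, (hw k (hmem k hk)).2.2.2.1]
          have := (hw k (hmem k hk)).2.2.2.2.1
          linarith
        · intro k' hk' hne
          have hdis : Disjoint (⋃ i ∈ I k, A i) (⋃ i ∈ I k', A i) := by
            simp only [Set.disjoint_iUnion_right, Set.disjoint_iUnion_left]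
            intro j hj i hi
            refine hA i j fun h => ?_
            exact disjoint_left.1 (hId k k' hne.symm) hi (h ▸ hj)
          rw [Ex_mul_indep q S hdis ((hw k (hmem k hk)).2.2.1.comp fun t => 1 - t)
            ((hw k' (hmem k' hk')).2.2.1.comp fun t => 1 - t), Ex_sub, Ex_const,
            (hw k (hmem k hk)).2.2.2.1, sub_self, zero_mul]
        · intro h; exact absurd hk h
      calc _ ≤ 1 / δ * (1 / (T : ℝ) ^ 2 * (T * (4 * Real.exp (Cs * D * 2 ^ J)))) := by gcongr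
        _ = _ := by field_simp
    · refine mul_le_mul_of_nonneg_left ?_ (by positivity)
      have h2L : (0 : ℝ) < 2 ^ L := by positivity
      have hD' : ((I 0).card : ℝ) * ρ L ≤ D :=
        le_of_mul_le_mul_right (hD 0 (Nat.zero_le T) L le_rfl) h2L
      have hθ0 : ∀ i ∈ I 0, 0 ≤ Ex q S (θ i) := fun i hi =>
        Ex_nonneg hq fun ω _ => (hI0 i hi).θ_nonneg ω
      calc _ ≤ ∑ i ∈ I 0, ∑ j ∈ I 0, Ex q S (θ i) * Ex q S (θ j) := by
            refine sum_le_sum fun i hi => ?_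
            rw [Ex_sum]
            refine le_trans (le_of_eq (sum_congr rfl fun j hj => ?_))
              (sum_le_sum_of_subset_of_nonneg (erase_subset i (I 0))
                fun j hj _ => mul_nonneg (hθ0 i hi) (hθ0 j hj))
            exact Ex_mul_indep q S (hA i j (ne_of_mem_erase hj).symm) (hI0 i hi).dep_θ
              (hI0 j (mem_of_mem_erase hj)).dep_θ
        _ = (∑ i ∈ I 0, Ex q S (θ i)) ^ 2 := by rw [← sum_mul_sum, pow_two]
        _ ≤ _ := by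
            refine pow_le_pow_left₀ (sum_nonneg hθ0) ?_ 2
            refine (sum_le_card_nsmul _ _ _ fun i hi => (hI0 i hi).Eθ).trans ?_
            rw [nsmul_eq_mul, mul_left_comm]
            exact mul_le_mul_of_nonneg_left hD' (by linarith)
  · intro ω Pr hPr hnh
    have h1 : 0 ≤ ∑ k ∈ Icc 1 T, Φ k ω := sum_nonneg fun k hk => (hw k (hmem k hk)).2.1 ω
    have hθ : ∀ i ∈ I 0, 0 ≤ θ i ω := fun i hi => (hI0 i hi).θ_nonneg ω
    have hP0 := hPr 0 (Nat.zero_le T)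
    have hθ1 : ∀ i ∈ Pr 0, θ i ω = 1 := fun i hi =>
      (hI0 i (hP0 hi)).nh_θ ω (hnh 0 (Nat.zero_le T) i hi)
    set n : ℝ := ((Pr 0).card : ℝ) with hn
    have h2 : n * (n - 1) ≤ ∑ i ∈ I 0, ∑ j ∈ (I 0).erase i, θ i ω * θ j ω := by
      calc _ = ∑ i ∈ Pr 0, ∑ j ∈ (Pr 0).erase i, θ i ω * θ j ω := by
            rw [sum_congr rfl (g := fun _ => n - 1), sum_const, nsmul_eq_mul]
            intro i hi
            rw [sum_congr rfl (g := fun _ => (1 : ℝ)), sum_const, nsmul_eq_mul, mul_one,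
              card_erase_of_mem hi, Nat.cast_sub (card_pos.2 ⟨i, hi⟩), Nat.cast_one]
            intro j hj
            rw [hθ1 i hi, hθ1 j (mem_of_mem_erase hj), mul_one]
        _ ≤ ∑ i ∈ Pr 0, ∑ j ∈ (I 0).erase i, θ i ω * θ j ω := by
            refine sum_le_sum fun i hi => sum_le_sum_of_subset_of_nonneg
              (erase_subset_erase i hP0) fun j hj _ => ?_
            exact mul_nonneg (hθ i (hP0 hi)) (hθ j (mem_of_mem_erase hj))
        _ ≤ _ := sum_le_sum_of_subset_of_nonneg hP0 fun i hi _ => sum_nonneg fun j hj =>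
            mul_nonneg (hθ i hi) (hθ j (mem_of_mem_erase hj))
    have h3 := mul_le_mul_of_nonneg_left h2 (sq_nonneg t)
    have hn0 : 0 ≤ n := by positivity
    have h4 : t * n - t ^ 2 * (n * (n - 1)) ≤ 1 := by
      nlinarith [sq_nonneg (1 - t * n), mul_nonneg (mul_nonneg ht0 hn0) (sub_nonneg.2 ht1)]
    have h5 : 0 ≤ 1 / (T : ℝ) * ∑ k ∈ Icc 1 T, Φ k ω := by positivity
    have h6 : 0 ≤ 1 / δ * (1 / T * ∑ k ∈ Icc 1 T, (1 - w k ω)) ^ 2 := by positivity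
    beta_reduce
    refine ⟨?_, fun hG => ?_⟩
    · linarith
    · by_cases h0 : (Pr 0).Nonempty
      · have hall : ∀ k ∈ Icc 1 T, w k ω ≤ Φ k ω := by
          intro k hk
          have : (Pr k).Nonempty := by
            rw [nonempty_iff_ne_empty]
            exact fun h => hG ⟨h0, k, hk, h⟩
          obtain ⟨i, hi⟩ := this
          exact (hw k (hmem k hk)).2.2.2.2.2.2.2.2 ω i (hPr k (hmem k hk) hi)
            (hnh k (hmem k hk) i hi)
        set y := 1 / (T : ℝ) * ∑ k ∈ Icc 1 T, (1 - w k ω) with hy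
        have h7 : 1 ≤ 1 / (T : ℝ) * ∑ k ∈ Icc 1 T, Φ k ω + y := by
          rw [hy, ← mul_add, ← sum_add_distrib, one_div_mul_eq_div, le_div_iff₀ hT0, one_mul,
            ← hcard, card_eq_sum_ones]
          push_cast
          exact sum_le_sum fun k hk => by have := hall k hk; linarith
        have h8 : y ≤ δ + 1 / δ * y ^ 2 := by
          have : δ + 1 / δ * y ^ 2 - y = (δ ^ 2 + y ^ 2 - δ * y) / δ := by field_simp
          have h9 : 0 ≤ (δ ^ 2 + y ^ 2 - δ * y) / δ :=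
            div_nonneg (by nlinarith [sq_nonneg (δ - y), sq_nonneg δ, sq_nonneg y]) hδ.le
          linarith
        linarith
      · have : n = 0 := by
          rw [hn, not_nonempty_iff_eq_empty.1 h0]; simp
        rw [this] at h3 ⊢
        simp only [zero_mul, mul_zero] at h3 ⊢
        linarith

end Crest.Agent.H3.PG
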