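import Crest.Agent.H3.PTProg

set_option autoImplicit false

/-! Polynomial-time functions on tree-encoded data: the primitive closure properties. -/

namespace Crest.Agent.H3.Ptime
open Function

/-! ### macros -/

def clr (r : ℕ) : Prog := .whl r (.pop r)

theorem run_clr (r : ℕ) : ∀ (l : List Bool) (s : St), s r = l →
    R (clr r) s (2 * l.length + 1) (update s r []) := by
  intro l
  induction l with
  | nil => intro s h; exact (R.whl0 h).cast (by rw [← h]; simp)
  | cons a l ih =>
    intro s h
    have h1 := R.whlS (by simp [h]) (R.pop r s) (ih (update s r (s r).tail) (by simp [h]))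
    exact (h1.mono (by simp; omega)).cast (by simp)

def mv (a b : ℕ) : Prog :=
  .whl a (.ite a (.seq (.pop a) (.push b true)) (.seq (.pop a) (.push b false)))

theorem run_mv {a b : ℕ} (hab : a ≠ b) : ∀ (l : List Bool) (s : St), s a = l →
    R (mv a b) s (4 * l.length + 1) (update (update s a []) b (l.reverse ++ s b)) := by
  intro l
  induction l with
  | nil =>
    intro s h
    have : update s a [] = s := by rw [← h]; simp
    exact (R.whl0 h).cast (by rw [this]; simp)
  | cons x l ih =>
    intro s h
    have hb : R (.ite a (.seq (.pop a) (.push b true)) (.seq (.pop a) (.push b false))) s 3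
        (update (update s a l) b (x :: s b)) := by
      cases x
      · exact (R.iteF (by simp [h]) ((R.pop a s).seq (R.push b false _))).cast (by simp [h, hab.symm])
      · exact (R.iteT (by simp [h]) ((R.pop a s).seq (R.push b true _))).cast (by simp [h, hab.symm])
    have h1 := R.whlS (by simp [h]) hb (ih _ (by simp [hab]))
    refine (h1.mono (by simp; omega)).cast ?_
    funext k
    by_cases hk : k = b
    · subst hk; simp
    · by_cases hk' : k = a
      · subst hk'; simp [hk]
      · simp [hk, hk']

def mv2 (a b c : ℕ) : Prog :=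
  .whl a (.ite a (.seq (.pop a) (.seq (.push b true) (.push c true)))
    (.seq (.pop a) (.seq (.push b false) (.push c false))))

theorem run_mv2 {a b c : ℕ} (hab : a ≠ b) (hac : a ≠ c) (hbc : b ≠ c) :
    ∀ (l : List Bool) (s : St), s a = l → R (mv2 a b c) s (5 * l.length + 1)
      (update (update (update s a []) b (l.reverse ++ s b)) c (l.reverse ++ s c)) := by
  intro l
  induction l with
  | nil =>
    intro s h
    have : update s a [] = s := by rw [← h]; simp
    exact (R.whl0 h).cast (by rw [this]; simp)
  | cons x l ih =>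
    intro s h
    have hb : R (.ite a (.seq (.pop a) (.seq (.push b true) (.push c true)))
        (.seq (.pop a) (.seq (.push b false) (.push c false)))) s 4
        (update (update (update s a l) b (x :: s b)) c (x :: s c)) := by
      cases x
      · exact (R.iteF (by simp [h]) ((R.pop a s).seq ((R.push b false _).seq (R.push c false _)))).cast
          (by simp [h, hab.symm, hac.symm, hbc.symm])
      · exact (R.iteT (by simp [h]) ((R.pop a s).seq ((R.push b true _).seq (R.push c true _)))).cast
          (by simp [h, hab.symm, hac.symm, hbc.symm])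
    have h1 := R.whlS (by simp [h]) hb (ih _ (by simp [hab, hac]))
    refine (h1.mono (by simp; omega)).cast ?_
    funext k
    by_cases hk : k = c
    · subst hk; simp
    · by_cases hk1 : k = b
      · subst hk1; simp [hk]
      · by_cases hk' : k = a
        · subst hk'; simp [hk, hk1]
        · simp [hk, hk', hk1]

def pushL (r : ℕ) : List Bool → Prog
  | [] => .skip
  | b :: l => .seq (pushL r l) (.push r b)

theorem run_pushL (r : ℕ) (l : List Bool) (s : St) :
    R (pushL r l) s (l.length + 1) (update s r (l ++ s r)) := by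
  induction l with
  | nil => exact (R.skip s).cast (by simp)
  | cons b l ih => exact ((ih.seq (R.push r b _)).mono (by simp)).cast (by simp)

/-! ### trees -/

inductive Tr
  | leaf
  | node (l r : Tr)

def Tr.code : Tr → List Bool
  | .leaf => [false]
  | .node l r => true :: (l.code ++ r.code)

def codes (ts : List Tr) : List Bool := (ts.map Tr.code).flatten

def splitL : Prog := .whl 2 (.ite 0 (.seq (.pop 0) (.seq (.push 1 true) (.push 2 true)))
  (.seq (.pop 0) (.seq (.push 1 false) (.pop 2))))

def st3 (a b c : List Bool) : St := update (update (update (fun _ => []) 0 a) 1 b) 2 c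

theorem st3_0 (a : List Bool) : st3 a [] [] = sg a := by
  funext k
  rcases k with _ | _ | _ | k <;> simp [st3, sg]

@[simp] theorem st3_at0 (a b c : List Bool) : st3 a b c 0 = a := by simp [st3]
@[simp] theorem st3_at1 (a b c : List Bool) : st3 a b c 1 = b := by simp [st3]
@[simp] theorem st3_at2 (a b c : List Bool) : st3 a b c 2 = c := by simp [st3]
@[simp] theorem st3_up0 (a b c d : List Bool) : update (st3 a b c) 0 d = st3 d b c := by
  funext k; rcases k with _ | _ | _ | k <;> simp [st3]
@[simp] theorem st3_up1 (a b c d : List Bool) : update (st3 a b c) 1 d = st3 a d c := by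
  funext k; rcases k with _ | _ | _ | k <;> simp [st3]
@[simp] theorem st3_up2 (a b c d : List Bool) : update (st3 a b c) 2 d = st3 a b d := by
  funext k; rcases k with _ | _ | _ | k <;> simp [st3]

theorem run_splitL : ∀ (n : ℕ) (ts : List Tr) (rest u : List Bool), (codes ts).length = n →
    R splitL (st3 (codes ts ++ rest) u (List.replicate ts.length true)) (5 * n + 1)
      (st3 rest ((codes ts).reverse ++ u) []) := by
  intro n
  induction n with
  | zero =>
    intro ts rest u h
    cases ts with
    | nil => exact (R.whl0 (by simp)).cast (by simp [codes])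
    | cons t ts => cases t <;> simp [codes, Tr.code] at h
  | succ n ih =>
    intro ts rest u h
    cases ts with
    | nil => simp [codes] at h
    | cons t ts =>
      cases t with
      | leaf =>
        have hb : R (.ite 0 (.seq (.pop 0) (.seq (.push 1 true) (.push 2 true)))
            (.seq (.pop 0) (.seq (.push 1 false) (.pop 2))))
            (st3 (codes (.leaf :: ts) ++ rest) u (List.replicate (Tr.leaf :: ts).length true)) 4
            (st3 (codes ts ++ rest) (false :: u) (List.replicate ts.length true)) :=
          (R.iteF (by simp [codes, Tr.code]) ((R.pop 0 _).seq ((R.push 1 false _).seq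
            (R.pop 2 _)))).cast (by simp [codes, Tr.code, List.replicate_succ])
        have h1 := R.whlS (by simp) hb (ih ts rest (false :: u) (by simpa [codes, Tr.code] using h))
        exact (h1.mono (by omega)).cast (by simp [codes, Tr.code])
      | node l r =>
        have hb : R (.ite 0 (.seq (.pop 0) (.seq (.push 1 true) (.push 2 true)))
            (.seq (.pop 0) (.seq (.push 1 false) (.pop 2))))
            (st3 (codes (.node l r :: ts) ++ rest) u (List.replicate (Tr.node l r :: ts).length true)) 4
            (st3 (codes (l :: r :: ts) ++ rest) (true :: u)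
              (List.replicate (l :: r :: ts).length true)) :=
          (R.iteT (by simp [codes, Tr.code]) ((R.pop 0 _).seq ((R.push 1 true _).seq
            (R.push 2 true _)))).cast (by simp [codes, Tr.code, List.replicate_succ])
        have h1 := R.whlS (by simp) hb (ih (l :: r :: ts) rest (true :: u)
          (by simp [codes, Tr.code] at h ⊢; omega))
        exact (h1.mono (by omega)).cast (by simp [codes, Tr.code])

def split : Prog := .seq (.push 2 true) splitL

theorem run_split (t : Tr) (rest : List Bool) :
    R split (sg (t.code ++ rest)) (5 * t.code.length + 2) (st3 rest t.code.reverse []) := by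
  have h := run_splitL _ [t] rest [] rfl
  have e : codes [t] = t.code := by simp [codes]
  rw [e] at h
  rw [← st3_0]
  exact (((R.push 2 true _).cast (by simp)).seq h |>.mono (by omega)).cast (by simp)

def Tr.car : Tr → Tr
  | .leaf => .leaf
  | .node l _ => l
def Tr.cdr : Tr → Tr
  | .leaf => .leaf
  | .node _ r => r

def carP : Prog := .ite 0 (.seq (.pop 0) (.seq split (.seq (clr 0) (mv 1 0)))) .skip
def cdrP : Prog := .ite 0 (.seq (.pop 0) (.seq split (clr 1))) .skip

@[simp] theorem sg_0 (l : List Bool) : sg l 0 = l := by simp [sg]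
@[simp] theorem sg_up (l l' : List Bool) : update (sg l) 0 l' = sg l' := by simp [sg]

theorem run_car (t : Tr) : R carP (sg t.code) (9 * t.code.length + 6) (sg t.car.code) := by
  cases t with
  | leaf => exact (R.iteF (by simp [Tr.code]) (R.skip _)).mono (by omega)
  | node l r =>
    have h1 : R (.pop 0) (sg (Tr.node l r).code) 1 (sg (l.code ++ r.code)) :=
      (R.pop 0 _).cast (by simp [Tr.code])
    have h := R.iteT (r := 0) (q := .skip) (by simp [Tr.code]) (h1.seq ((run_split l r.code).seq
      ((run_clr 0 r.code _ (by simp)).seq (run_mv (a := 1) (b := 0) (by omega) l.code.reverse _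
        (by simp)))))
    exact (h.mono (by simp [Tr.code]; omega)).cast (by simp [Tr.car, st3_0])

theorem run_cdr (t : Tr) : R cdrP (sg t.code) (7 * t.code.length + 6) (sg t.cdr.code) := by
  cases t with
  | leaf => exact (R.iteF (by simp [Tr.code]) (R.skip _)).mono (by omega)
  | node l r =>
    have h1 : R (.pop 0) (sg (Tr.node l r).code) 1 (sg (l.code ++ r.code)) :=
      (R.pop 0 _).cast (by simp [Tr.code])
    have h := R.iteT (r := 0) (q := .skip) (by simp [Tr.code]) (h1.seq ((run_split l r.code).seq
      (run_clr 1 l.code.reverse _ (by simp))))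
    exact (h.mono (by simp [Tr.code]; omega)).cast (by simp [Tr.cdr, st3_0])

/-- selection: `node c t ↦ car t` if `c` is a node and `cdr t` otherwise -/
def selP : Prog := .seq (.pop 0) (.ite 0 (.seq split (.seq (clr 1) carP)) (.seq (.pop 0) cdrP))

def Tr.isNode : Tr → Bool
  | .leaf => false
  | .node _ _ => true

theorem run_sel (c t : Tr) : R selP (sg (Tr.node c t).code) (9 * (Tr.node c t).code.length + 12)
    (sg (bif c.isNode then t.car else t.cdr).code) := by
  have h1 : R (.pop 0) (sg (Tr.node c t).code) 1 (sg (c.code ++ t.code)) :=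
    (R.pop 0 _).cast (by simp [Tr.code])
  cases c with
  | leaf =>
    have h2 : R (.pop 0) (sg (Tr.leaf.code ++ t.code)) 1 (sg t.code) :=
      (R.pop 0 _).cast (by simp [Tr.code])
    have h := h1.seq (R.iteF (r := 0) (p := .seq split (.seq (clr 1) carP)) (by simp [Tr.code])
      (h2.seq (run_cdr t)))
    exact (h.mono (by simp [Tr.code]; omega)).cast (by simp [Tr.isNode])
  | node l r =>
    have h2 : R (clr 1) (st3 t.code (Tr.node l r).code.reverse [])
        (2 * (Tr.node l r).code.reverse.length + 1) (sg t.code) :=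
      (run_clr 1 _ _ (by simp)).cast (by simp [st3_0])
    have h := h1.seq (R.iteT (r := 0) (q := .seq (.pop 0) cdrP) (by simp [Tr.code])
      ((run_split (.node l r) t.code).seq (h2.seq (run_car t))))
    exact (h.mono (by simp [Tr.code]; omega)).cast (by simp [Tr.isNode])

/-! ### encodings and polynomial bounds -/

class Enc (α : Type) where
  enc : α → Tr

export Enc (enc)

def cd {α : Type} [Enc α] (a : α) : List Bool := (enc a).code
def sz {α : Type} [Enc α] (a : α) : ℕ := (cd a).length

instance : Enc Tr := ⟨id⟩
instance : Enc Unit := ⟨fun _ => .leaf⟩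
instance : Enc Bool := ⟨fun b => bif b then .node .leaf .leaf else .leaf⟩
instance {α β : Type} [Enc α] [Enc β] : Enc (α × β) := ⟨fun x => .node (enc x.1) (enc x.2)⟩
def encList {α : Type} [Enc α] : List α → Tr
  | [] => .leaf
  | a :: l => .node (enc a) (encList l)
instance {α : Type} [Enc α] : Enc (List α) := ⟨encList⟩

theorem eval_mono (P : Polynomial ℕ) {a b : ℕ} (h : a ≤ b) : P.eval a ≤ P.eval b := by
  induction P using Polynomial.induction_on' with
  | add p q hp hq => simp only [Polynomial.eval_add]; omega
  | monomial n c =>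
    simp only [Polynomial.eval_monomial]
    exact Nat.mul_le_mul_left _ (Nat.pow_le_pow_left h _)

variable {α β γ : Type} [Enc α] [Enc β] [Enc γ]

/-- polynomially bounded quantities -/
def PB (g : α → ℕ) : Prop := ∃ P : Polynomial ℕ, ∀ a, g a ≤ P.eval (sz a)

theorem PB.const (c : ℕ) : PB (fun _ : α => c) := ⟨Polynomial.C c, fun _ => by simp⟩
theorem PB.size : PB (fun a : α => sz a) := ⟨Polynomial.X, fun _ => by simp⟩
theorem PB.of_le {f g : α → ℕ} (h : PB g) (hle : ∀ a, f a ≤ g a) : PB f := by
  obtain ⟨P, hP⟩ := h; exact ⟨P, fun a => (hle a).trans (hP a)⟩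
theorem PB.add {f g : α → ℕ} (hf : PB f) (hg : PB g) : PB (fun a => f a + g a) := by
  obtain ⟨P, hP⟩ := hf; obtain ⟨Q, hQ⟩ := hg
  exact ⟨P + Q, fun a => by simpa using add_le_add (hP a) (hQ a)⟩
theorem PB.mul {f g : α → ℕ} (hf : PB f) (hg : PB g) : PB (fun a => f a * g a) := by
  obtain ⟨P, hP⟩ := hf; obtain ⟨Q, hQ⟩ := hg
  exact ⟨P * Q, fun a => by simpa using Nat.mul_le_mul (hP a) (hQ a)⟩
theorem PB.pow {f : α → ℕ} (hf : PB f) (k : ℕ) : PB (fun a => f a ^ k) := by
  obtain ⟨P, hP⟩ := hf
  exact ⟨P ^ k, fun a => by simpa using Nat.pow_le_pow_left (hP a) k⟩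
theorem PB.poly {f : α → ℕ} (hf : PB f) (Q : Polynomial ℕ) : PB (fun a => Q.eval (f a)) := by
  obtain ⟨P, hP⟩ := hf
  exact ⟨Q.comp P, fun a => by simpa [Polynomial.eval_comp] using eval_mono Q (hP a)⟩
theorem PB.comp' {g : β → ℕ} (hg : PB g) {f : α → β} (hf : PB (fun a => sz (f a))) :
    PB (fun a => g (f a)) := by
  obtain ⟨Q, hQ⟩ := hg
  exact (hf.poly Q).of_le (fun a => hQ _)

/-- polynomial-time functions -/
def PT (f : α → β) : Prop :=
  ∃ (p : Prog) (T : α → ℕ), PB T ∧ ∀ a, R p (sg (cd a)) (T a) (sg (cd (f a)))

theorem PT.szb {f : α → β} (h : PT f) : PB (fun a => sz (f a)) := by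
  obtain ⟨p, T, hT, h⟩ := h
  refine (PB.size.add hT).of_le (fun a => ?_)
  simpa [sz] using (h a).length_le 0

theorem PB.comp {g : β → ℕ} (hg : PB g) {f : α → β} (hf : PT f) : PB (fun a => g (f a)) :=
  hg.comp' hf.szb

theorem PT.ofEnc {α' β' : Type} [Enc α'] [Enc β'] {F : α' → β'} (hF : PT F) {f : α → β}
    (i : α → α') (hi : ∀ a, enc (i a) = enc a) (ho : ∀ a, enc (F (i a)) = enc (f a)) : PT f := by
  obtain ⟨p, T, ⟨P, hP⟩, h⟩ := hF
  refine ⟨p, fun a => T (i a), ⟨P, fun a => ?_⟩, fun a => ?_⟩
  · have := hP (i a); simpa [sz, cd, hi] using this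
  · have := h (i a); simpa [cd, hi, ho] using this

theorem PT.id' : PT (fun a : α => a) := ⟨.skip, fun _ => 1, PB.const 1, fun _ => R.skip _⟩

theorem PT.ofEq {f : α → β} (h : ∀ a, enc (f a) = enc a) : PT f :=
  (PT.id' (α := α)).ofEnc id (fun _ => rfl) (fun a => (h a).symm)

theorem PT.of_eq {f g : α → β} (h : PT f) (e : ∀ a, f a = g a) : PT g := by
  rwa [← funext e]

theorem PT.comp {g : β → γ} {f : α → β} (hg : PT g) (hf : PT f) : PT (fun a => g (f a)) := by
  have hf' := hf
  obtain ⟨p, T, hT, h⟩ := hf
  obtain ⟨q, U, hU, h'⟩ := hg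
  exact ⟨.seq p q, fun a => T a + U (f a), hT.add (hU.comp hf'), fun a => (h a).seq (h' _)⟩

theorem PT.const (c : β) : PT (fun _ : α => c) := by
  refine ⟨.seq (clr 0) (pushL 0 (cd c)), fun a => 2 * sz a + 1 + (sz c + 1),
    (((PB.const 2).mul PB.size).add (PB.const 1)).add (PB.const _), fun a => ?_⟩
  exact ((run_clr 0 _ _ (sg_0 _)).seq (run_pushL 0 _ _)).cast (by simp)

theorem PT.car : PT Tr.car :=
  ⟨carP, fun a => 9 * sz a + 6, ((PB.const 9).mul PB.size).add (PB.const 6), fun a => run_car a⟩
theorem PT.cdr : PT Tr.cdr :=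
  ⟨cdrP, fun a => 7 * sz a + 6, ((PB.const 7).mul PB.size).add (PB.const 6), fun a => run_cdr a⟩
theorem PT.sel : PT (fun x : Tr × Tr => bif x.1.isNode then x.2.car else x.2.cdr) :=
  ⟨selP, fun a => 9 * sz a + 12, ((PB.const 9).mul PB.size).add (PB.const 12),
    fun a => run_sel a.1 a.2⟩

theorem PT.pair {f : α → β} {g : α → γ} (hf : PT f) (hg : PT g) : PT (fun a => (f a, g a)) := by
  have hfs := hf.szb
  obtain ⟨p, T, hT, h⟩ := hf
  obtain ⟨q, U, hU, h'⟩ := hg
  set m := max (max p.nv q.nv) 1 with hm
  have hp : p.nv ≤ m := by omega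
  have hq : q.nv ≤ m := by omega
  have hm1 : 1 ≤ m := by omega
  refine ⟨.seq (mv2 0 m (m + 1)) (.seq (mv m 0) (.seq p (.seq (mv 0 m) (.seq (mv (m + 1) 0)
    (.seq q (.seq (mv m 0) (.push 0 true))))))),
    fun a => 5 * sz a + 1 + (4 * sz a + 1 + (T a + (4 * sz (f a) + 1 + (4 * sz a + 1 + (U a +
      (4 * sz (f a) + 1 + 1)))))), ?_, fun a => ?_⟩
  · have c4 := ((PB.const 4).mul (PB.size (α := α))).add (PB.const 1)
    have c5 := ((PB.const 4).mul hfs).add (PB.const 1)
    exact (((PB.const 5).mul PB.size).add (PB.const 1)).add (c4.add (hT.add (c5.add (c4.add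
      (hU.add (c5.add (PB.const 1)))))))
  · have e0 : ∀ (l : List Bool) (k : ℕ), k ≠ 0 → sg l k = [] := by
      intro l k hk; simp [sg, hk]
    have s1 := run_mv2 (a := 0) (b := m) (c := m + 1) (by omega) (by omega) (by omega) (cd a)
      (sg (cd a)) (sg_0 _)
    rw [e0 _ m (by omega), e0 _ (m + 1) (by omega), List.append_nil, sg_up] at s1
    have s2 : R (mv m 0) (update (update (sg []) m (cd a).reverse) (m + 1) (cd a).reverse)
        (4 * sz a + 1) (update (sg (cd a)) (m + 1) (cd a).reverse) := by
      refine ((run_mv (a := m) (b := 0) (by omega) (cd a).reverse _ (by simp)).mono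
        (by simp [sz])).cast ?_
      funext k
      by_cases h0 : k = 0
      · subst h0; simp [update, show (0 : ℕ) ≠ m by omega]
      · by_cases h1 : k = m
        · subst h1; simp [update, h0, e0 _ _ h0]
        · by_cases h2 : k = m + 1
          · subst h2; simp [update]
          · simp [update, h0, h1, h2, e0 _ _ h0]
    have s3 := (h a).frame (m + 1) (cd a).reverse (by omega)
    have s4 : R (mv 0 m) (update (sg (cd (f a))) (m + 1) (cd a).reverse) (4 * sz (f a) + 1)
        (update (update (sg []) m (cd (f a)).reverse) (m + 1) (cd a).reverse) := by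
      refine (run_mv (a := 0) (b := m) (by omega) (cd (f a)) _ (by simp)).cast ?_
      funext k
      by_cases h0 : k = 0
      · subst h0; simp [update, show (0 : ℕ) ≠ m by omega]
      · by_cases h1 : k = m
        · subst h1; simp [update, e0 _ _ h0]
        · by_cases h2 : k = m + 1
          · subst h2; simp [update]
          · simp [update, h0, h1, h2, e0 _ _ h0]
    have s5 : R (mv (m + 1) 0) (update (update (sg []) m (cd (f a)).reverse) (m + 1) (cd a).reverse)
        (4 * sz a + 1) (update (sg (cd a)) m (cd (f a)).reverse) := by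
      refine ((run_mv (a := m + 1) (b := 0) (by omega) (cd a).reverse _ (by simp)).mono
        (by simp [sz])).cast ?_
      funext k
      by_cases h0 : k = 0
      · subst h0; simp [update, show (0 : ℕ) ≠ m by omega]
      · by_cases h1 : k = m
        · subst h1; simp [update, h0]
        · by_cases h2 : k = m + 1
          · subst h2; simp [update, e0]
          · simp [update, h0, h1, h2, e0 _ _ h0]
    have s6 := (h' a).frame m (cd (f a)).reverse hq
    have s7 : R (mv m 0) (update (sg (cd (g a))) m (cd (f a)).reverse) (4 * sz (f a) + 1)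
        (sg (cd (f a) ++ cd (g a))) := by
      refine ((run_mv (a := m) (b := 0) (by omega) (cd (f a)).reverse _ (by simp)).mono
        (by simp [sz])).cast ?_
      funext k
      by_cases h0 : k = 0
      · subst h0; simp [update, show (0 : ℕ) ≠ m by omega]
      · by_cases h1 : k = m
        · subst h1; simp [update, h0, e0 _ _ h0]
        · simp [update, h0, h1, e0 _ _ h0]
    have s8 : R (.push 0 true) (sg (cd (f a) ++ cd (g a))) 1 (sg (cd (f a, g a))) :=
      (R.push 0 true _).cast (by simp [cd, enc, Tr.code])
    exact s1.seq (s2.seq (s3.seq (s4.seq (s5.seq (s6.seq (s7.seq s8))))))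

/-- strip the flag of a flagged state -/
def flagP (m : ℕ) : Prog :=
  .seq (.pop 0) (.ite 0 (.seq (.pop 0) (.seq (.pop 0) (.seq (.pop 0) (.push m true)))) (.pop 0))

theorem run_flag {m : ℕ} (hm : m ≠ 0) (b : Bool) (x : α) :
    R (flagP m) (sg (cd (b, x))) 6 (update (sg (cd x)) m (bif b then [true] else [])) := by
  have e0 : ∀ (l : List Bool) (k : ℕ), k ≠ 0 → sg l k = [] := by
    intro l k hk; simp [sg, hk]
  cases b
  · have h := (R.pop 0 (sg (cd (false, x)))).seq (R.iteF (r := 0)
      (p := .seq (.pop 0) (.seq (.pop 0) (.seq (.pop 0) (.push m true))))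
      (by simp [cd, enc, Tr.code]) (R.pop 0 _))
    refine (h.mono (by omega)).cast ?_
    have : update (sg (cd x)) m [] = sg (cd x) := by
      rw [← e0 (cd x) m hm]; simp
    simp only [cond_false, this]
    simp [cd, enc, Tr.code]
  · have h := (R.pop 0 (sg (cd (true, x)))).seq (R.iteT (r := 0) (q := .pop 0)
      (by simp [cd, enc, Tr.code]) ((R.pop 0 _).seq ((R.pop 0 _).seq ((R.pop 0 _).seq
        (R.push m true _)))))
    refine (h.mono (by omega)).cast ?_
    simp [cd, enc, Tr.code, e0 _ _ hm]

/-- the loop principle -/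
theorem PT.loop {σ : Type} [Enc σ] {step : σ → σ} {cont : σ → Bool} (hs : PT step) (hc : PT cont)
    {init : α → σ} (hi : PT init) (N : α → ℕ) (hN : PB N)
    (h1 : ∀ a, ∀ i < N a, cont (step^[i] (init a)) = true)
    (h2 : ∀ a, cont (step^[N a] (init a)) = false)
    (B : α → ℕ) (hB : PB B) (h3 : ∀ a, ∀ i ≤ N a, sz (step^[i] (init a)) ≤ B a) :
    PT (fun a => step^[N a] (init a)) := by
  obtain ⟨p0, T0, hT0, hp0⟩ := (hc.comp hi).pair hi
  obtain ⟨p1, T1, ⟨P1, hP1⟩, hp1⟩ := (hc.comp hs).pair hs
  set m := max p1.nv 1 with hm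
  have hm0 : m ≠ 0 := by omega
  have e0 : ∀ (l : List Bool), update (sg l) m [] = sg l := by
    intro l; funext k; by_cases hk : k = m
    · subst hk; simp [sg, hm0]
    · simp [hk]
  have key : ∀ (a : α) (j i : ℕ), i + j = N a →
      R (.whl m (.seq (.pop m) (.seq p1 (flagP m))))
        (update (sg (cd (step^[i] (init a)))) m (bif cont (step^[i] (init a)) then [true] else []))
        (j * (P1.eval (B a) + 8) + 1) (sg (cd (step^[N a] (init a)))) := by
    intro a j
    induction j with
    | zero =>
      intro i hi
      have : i = N a := by omega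
      subst this
      rw [h2]
      exact (R.whl0 (by simp)).mono (by omega) |>.cast (by simp [e0])
    | succ j ih =>
      intro i hi
      rw [h1 a i (by omega)]
      have a1 : R (.pop m) (update (sg (cd (step^[i] (init a)))) m [true]) 1
          (sg (cd (step^[i] (init a)))) := (R.pop m _).cast (by simp [e0])
      have a2 := (hp1 (step^[i] (init a))).mono ((hP1 _).trans (eval_mono P1 (h3 a i (by omega))))
      have a3 := run_flag hm0 (cont (step (step^[i] (init a)))) (step (step^[i] (init a)))
      have a4 := ih (i + 1) (by omega)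
      rw [iterate_succ_apply'] at a4
      exact (R.whlS (by simp) (a1.seq (a2.seq a3)) a4).mono (by ring_nf; omega)
  refine ⟨.seq p0 (.seq (flagP m) (.whl m (.seq (.pop m) (.seq p1 (flagP m))))),
    fun a => T0 a + (6 + (N a * (P1.eval (B a) + 8) + 1)),
    hT0.add ((PB.const 6).add ((hN.mul ((hB.poly P1).add (PB.const 8))).add (PB.const 1))),
    fun a => (hp0 a).seq ((run_flag hm0 _ _).seq (key a (N a) 0 (by simp)))⟩

/-! ### from tree codes to plain bit strings -/

def inP : Prog := .seq (.whl 0 (.ite 0
    (.seq (.pop 0) (pushL 1 [false, false, true, true])) (.seq (.pop 0) (pushL 1 [false, true]))))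
  (.seq (.push 1 false) (mv 1 0))

def outP : Prog := .seq (.whl 0 (.ite 0 (.seq (.pop 0) (.ite 0
    (.seq (.pop 0) (.seq (.pop 0) (.seq (.pop 0) (.push 1 true)))) (.seq (.pop 0) (.push 1 false))))
    (.pop 0))) (mv 1 0)

theorem cd_cons (a : α) (l : List α) : cd (a :: l) = true :: (cd a ++ cd l) := rfl
theorem cd_nil : cd ([] : List α) = [false] := rfl
theorem cd_true : cd true = [true, false, false] := rfl
theorem cd_false : cd false = [false] := rfl

theorem run_inL : ∀ (l : List Bool) (u : List Bool), ∃ w : List Bool, cd l = w ++ [false] ∧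
    R (.whl 0 (.ite 0 (.seq (.pop 0) (pushL 1 [false, false, true, true]))
      (.seq (.pop 0) (pushL 1 [false, true])))) (st3 l u []) (8 * l.length + 1)
      (st3 [] (w.reverse ++ u) []) := by
  intro l
  induction l with
  | nil => intro u; exact ⟨[], rfl, (R.whl0 (by simp)).cast (by simp)⟩
  | cons b l ih =>
    intro u
    cases b
    · obtain ⟨w, hw, h⟩ := ih ([false, true] ++ u)
      refine ⟨[true, false] ++ w, by simp [cd_cons, cd_false, hw], ?_⟩
      have hb := R.iteF (r := 0) (p := .seq (.pop 0) (pushL 1 [false, false, true, true]))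
        (s := st3 (false :: l) u []) (by simp) ((R.pop 0 _).seq (run_pushL 1 [false, true] _))
      have h1 := R.whlS (by simp) (hb.cast (s'' := st3 l ([false, true] ++ u) []) (by simp)) h
      exact (h1.mono (by simp; omega)).cast (by simp)
    · obtain ⟨w, hw, h⟩ := ih ([false, false, true, true] ++ u)
      refine ⟨[true, true, false, false] ++ w, by simp [cd_cons, cd_true, hw], ?_⟩
      have hb := R.iteT (r := 0) (q := .seq (.pop 0) (pushL 1 [false, true]))
        (s := st3 (true :: l) u []) (by simp)
        ((R.pop 0 _).seq (run_pushL 1 [false, false, true, true] _))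
      have h1 := R.whlS (by simp) (hb.cast (s'' := st3 l ([false, false, true, true] ++ u) [])
        (by simp)) h
      exact (h1.mono (by simp; omega)).cast (by simp)

theorem sz_bits_le (l : List Bool) : sz l ≤ 4 * l.length + 1 := by
  induction l with
  | nil => simp [sz, cd_nil]
  | cons b l ih => cases b <;> simp [sz, cd_cons, cd_true, cd_false] at ih ⊢ <;> omega

theorem run_in (l : List Bool) : R inP (sg l) (24 * l.length + 7) (sg (cd l)) := by
  obtain ⟨w, hw, h⟩ := run_inL l []
  have hl := sz_bits_le l
  rw [sz, hw] at hl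
  rw [← st3_0]
  have h2 := h.seq ((R.push 1 false _).seq (run_mv (a := 1) (b := 0) (by omega)
    (false :: w.reverse) _ (by simp)))
  exact (h2.mono (by simp at hl ⊢; omega)).cast (by simp [hw, st3_0])

theorem run_outL : ∀ (l : List Bool) (u : List Bool),
    R (.whl 0 (.ite 0 (.seq (.pop 0) (.ite 0
      (.seq (.pop 0) (.seq (.pop 0) (.seq (.pop 0) (.push 1 true)))) (.seq (.pop 0) (.push 1 false))))
      (.pop 0))) (st3 (cd l) u []) (8 * l.length + 4) (st3 [] (l.reverse ++ u) []) := by
  intro l
  induction l with
  | nil =>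
    intro u
    have hb := R.iteF (r := 0) (p := .seq (.pop 0) (.ite 0
      (.seq (.pop 0) (.seq (.pop 0) (.seq (.pop 0) (.push 1 true)))) (.seq (.pop 0) (.push 1 false))))
      (s := st3 (cd ([] : List Bool)) u []) (by simp [cd_nil]) (R.pop 0 _)
    have h1 := R.whlS (r := 0) (by simp [cd_nil]) hb (R.whl0 (by simp [cd_nil]))
    exact (h1.mono (by simp)).cast (by simp [cd_nil])
  | cons b l ih =>
    intro u
    cases b
    · have hb := R.iteT (r := 0) (q := .pop 0) (s := st3 (cd (false :: l)) u []) (by simp [cd_cons])
        ((R.pop 0 _).seq (R.iteF (r := 0)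
          (p := .seq (.pop 0) (.seq (.pop 0) (.seq (.pop 0) (.push 1 true))))
          (by simp [cd_cons, cd_false]) ((R.pop 0 _).seq (R.push 1 false _))))
      have h1 := R.whlS (by simp [cd_cons]) (hb.cast (s'' := st3 (cd l) (false :: u) [])
        (by simp [cd_cons, cd_false])) (ih _)
      exact (h1.mono (by simp; omega)).cast (by simp)
    · have hb := R.iteT (r := 0) (q := .pop 0) (s := st3 (cd (true :: l)) u []) (by simp [cd_cons])
        ((R.pop 0 _).seq (R.iteT (r := 0) (q := .seq (.pop 0) (.push 1 false))
          (by simp [cd_cons, cd_true]) ((R.pop 0 _).seq ((R.pop 0 _).seq ((R.pop 0 _).seq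
            (R.push 1 true _))))))
      have h1 := R.whlS (by simp [cd_cons]) (hb.cast (s'' := st3 (cd l) (true :: u) [])
        (by simp [cd_cons, cd_true])) (ih _)
      exact (h1.mono (by simp; omega)).cast (by simp)

theorem length_le_sz (l : List α) : l.length ≤ sz l := by
  induction l with
  | nil => simp
  | cons a l ih => simp [sz, cd_cons] at ih ⊢; omega

theorem run_out (l : List Bool) : R outP (sg (cd l)) (12 * l.length + 5) (sg l) := by
  rw [← st3_0]
  have h2 := (run_outL l []).seq (run_mv (a := 1) (b := 0) (by omega) l.reverse _ (by simp))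
  exact (h2.mono (by simp; omega)).cast (by simp [st3_0])

theorem PT.toTM {f : List Bool → List Bool} (h : PT f) :
    Nonempty (Turing.TM2ComputableInPolyTime (Computability.encodingList Bool).encode
      (Computability.encodingList Bool).encode f) := by
  obtain ⟨Q, hQ⟩ := h.szb
  obtain ⟨p, T, ⟨P, hP⟩, h⟩ := h
  let X' : Polynomial ℕ := 4 * Polynomial.X + 1
  refine tm_of_prog f (.seq inP (.seq p outP))
    (24 * Polynomial.X + 7 + (P.comp X' + (12 * Q.comp X' + 5))) (fun x => ?_)
  refine ((run_in x).seq ((h x).seq (run_out _))).mono ?_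
  have h1 := (hP x).trans (eval_mono P (sz_bits_le x))
  have h2 := (length_le_sz (f x)).trans ((hQ x).trans (eval_mono Q (sz_bits_le x)))
  simp [X', Polynomial.eval_comp]
  omega

end Crest.Agent.H3.Ptime
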