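import Crest.Agent.H3.PTCore

set_option autoImplicit false

/-! Polynomial-time functions: pairs, conditionals, lists and folds. -/

namespace Crest.Agent.H3.Ptime
open Function

variable {α β γ : Type} [Enc α] [Enc β] [Enc γ]

attribute [fun_prop] PT
attribute [fun_prop] PT.id' PT.comp PT.const PT.pair

theorem PT.enc' {f : α → β} (hf : PT f) : PT (fun a => (enc (f a) : Tr)) :=
  hf.ofEnc id (fun _ => rfl) (fun _ => rfl)

theorem PT.ofEncOut {β' : Type} [Enc β'] {F : α → β'} (hF : PT F) {f : α → β}
    (h : ∀ a, enc (F a) = enc (f a)) : PT f := hF.ofEnc id (fun _ => rfl) h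

@[fun_prop] theorem PT.fst {f : α → β × γ} (hf : PT f) : PT (fun a => (f a).1) :=
  (PT.car.comp hf.enc').ofEncOut (fun _ => rfl)

@[fun_prop] theorem PT.snd {f : α → β × γ} (hf : PT f) : PT (fun a => (f a).2) :=
  (PT.cdr.comp hf.enc').ofEncOut (fun _ => rfl)

@[fun_prop] theorem PT.cond {c : α → Bool} {f g : α → β} (hc : PT c) (hf : PT f) (hg : PT g) :
    PT (fun a => cond (c a) (f a) (g a)) := by
  refine (PT.sel.comp (hc.enc'.pair (hf.pair hg).enc')).ofEncOut (fun a => ?_)
  cases h : c a <;> simp [h] <;> rfl

@[fun_prop] theorem PT.and {f g : α → Bool} (hf : PT f) (hg : PT g) : PT (fun a => f a && g a) :=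
  (show PT (fun a => _root_.cond (f a) (g a) false) by fun_prop).of_eq fun a => by
    cases f a <;> simp
@[fun_prop] theorem PT.or {f g : α → Bool} (hf : PT f) (hg : PT g) : PT (fun a => f a || g a) :=
  (show PT (fun a => _root_.cond (f a) true (g a)) by fun_prop).of_eq fun a => by
    cases f a <;> simp
@[fun_prop] theorem PT.not {f : α → Bool} (hf : PT f) : PT (fun a => !f a) :=
  (show PT (fun a => _root_.cond (f a) false true) by fun_prop).of_eq fun a => by
    cases f a <;> simp
@[fun_prop] theorem PT.xor {f g : α → Bool} (hf : PT f) (hg : PT g) :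
    PT (fun a => Bool.xor (f a) (g a)) :=
  (show PT (fun a => _root_.cond (f a) (!g a) (g a)) by fun_prop).of_eq fun a => by
    cases f a <;> simp

@[fun_prop] theorem PT.cons {f : α → β} {l : α → List β} (hf : PT f) (hl : PT l) :
    PT (fun a => f a :: l a) := (hf.pair hl).ofEncOut (fun _ => rfl)

@[fun_prop] theorem PT.tail {l : α → List β} (hl : PT l) : PT (fun a => (l a).tail) := by
  refine (PT.cdr.comp hl.enc').ofEncOut (fun a => ?_)
  cases l a <;> rfl

@[fun_prop] theorem PT.isEmpty {l : α → List β} (hl : PT l) : PT (fun a => (l a).isEmpty) := by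
  refine (PT.sel.comp (hl.enc'.pair (PT.const (false, true)).enc')).ofEncOut (fun a => ?_)
  cases l a <;> rfl

@[fun_prop] theorem PT.headD {l : α → List β} {d : α → β} (hl : PT l) (hd : PT d) :
    PT (fun a => (l a).headD (d a)) := by
  refine (hl.isEmpty.cond hd.enc' (PT.car.comp hl.enc')).ofEncOut (fun a => ?_)
  cases l a <;> rfl

theorem sz_pair (a : α) (b : β) : sz (a, b) = sz a + sz b + 1 := by
  simp [sz, cd, enc, Tr.code]
theorem sz_cons (a : α) (l : List α) : sz (a :: l) = sz a + sz l + 1 := by
  simp [sz, cd_cons]
theorem sz_nil : sz ([] : List α) = 1 := rfl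
theorem sz_bool (b : Bool) : sz b ≤ 3 := by cases b <;> simp [sz, cd_true, cd_false]
theorem sz_unit (u : Unit) : sz u = 1 := rfl
theorem sz_tail_le (l : List α) : sz l.tail ≤ sz l := by
  cases l with
  | nil => simp
  | cons a l => simp [sz_cons]; omega
theorem sz_drop_le (l : List α) (k : ℕ) : sz (l.drop k) ≤ sz l := by
  induction k with
  | zero => simp
  | succ k ih => rw [← List.tail_drop]; exact (sz_tail_le _).trans ih
theorem sz_le_of_mem {l : List α} {a : α} (h : a ∈ l) : sz a ≤ sz l := by
  induction l with
  | nil => simp at h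
  | cons b l ih =>
    rw [sz_cons]
    rcases List.mem_cons.1 h with rfl | h
    · omega
    · have := ih h; omega

theorem PB.length {l : α → List β} (hl : PT l) : PB (fun a => (l a).length) :=
  hl.szb.of_le (fun a => length_le_sz _)

/-- one step of a left fold -/
def foldStep (f : α → γ → β → γ) (s : α × List β × γ) : α × List β × γ :=
  match s.2.1 with
  | [] => s
  | x :: l => (s.1, l, f s.1 s.2.2 x)

omit [Enc α] [Enc β] [Enc γ] in
theorem foldStep_iter (f : α → γ → β → γ) (a : α) (l : List β) (c : γ) (k : ℕ) :
    (foldStep f)^[k] (a, l, c) = (a, l.drop k, (l.take k).foldl (f a) c) := by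
  induction k generalizing l c with
  | zero => simp
  | succ k ih =>
    rw [iterate_succ_apply]
    cases l with
    | nil => simpa [foldStep] using ih [] c
    | cons x l => simpa [foldStep] using ih l (f a c x)

theorem PT.foldl {l : α → List β} {i : α → γ} {f : α → γ → β → γ} (hl : PT l) (hi : PT i)
    (hf : PT (fun p : α × γ × β => f p.1 p.2.1 p.2.2)) (B : α → ℕ) (hB : PB B)
    (hsz : ∀ a k, sz (((l a).take k).foldl (f a) (i a)) ≤ B a) :
    PT (fun a => (l a).foldl (f a) (i a)) := by
  rcases isEmpty_or_nonempty β with hβ | ⟨⟨d⟩⟩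
  · refine hi.of_eq (fun a => ?_)
    cases l a with
    | nil => rfl
    | cons x _ => exact hβ.elim x
  have hs : PT (foldStep f) := by
    have h1 : PT (fun s : α × List β × γ => f s.1 s.2.2 (s.2.1.headD d)) :=
      hf.comp (f := fun s : α × List β × γ => (s.1, s.2.2, s.2.1.headD d)) (by fun_prop)
    refine (show PT (fun s : α × List β × γ => _root_.cond s.2.1.isEmpty s
      (s.1, s.2.1.tail, f s.1 s.2.2 (s.2.1.headD d))) by fun_prop).of_eq (fun s => ?_)
    obtain ⟨a, l, c⟩ := s
    cases l <;> rfl
  have h := PT.loop (σ := α × List β × γ) (cont := fun s => !s.2.1.isEmpty) hs (by fun_prop)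
    (init := fun a => (a, l a, i a)) (by fun_prop) (fun a => (l a).length) (PB.length hl)
    (fun a k hk => by rw [foldStep_iter]; simpa using hk)
    (fun a => by rw [foldStep_iter]; simp)
    (fun a => sz a + (sz (l a) + B a + 1) + 1)
    ((PB.size.add ((hl.szb.add hB).add (PB.const 1))).add (PB.const 1))
    (fun a k _ => by
      rw [foldStep_iter, sz_pair, sz_pair]
      have := sz_drop_le (l a) k
      have := hsz a k
      omega)
  exact h.snd.snd.of_eq (fun a => by rw [foldStep_iter]; simp)

/-- folds whose accumulator grows additively in some measure -/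
theorem PT.foldl_meas {l : α → List β} {i : α → γ} {f : α → γ → β → γ} (hl : PT l) (hi : PT i)
    (hf : PT (fun p : α × γ × β => f p.1 p.2.1 p.2.2)) (μ : γ → ℕ) (K : ℕ)
    (hμ : ∀ c, sz c ≤ K * μ c + K) (hμ' : ∀ c, μ c ≤ sz c) (g : α × β → ℕ) (hg : PB g)
    (hstep : ∀ a c x, μ (f a c x) ≤ μ c + g (a, x)) :
    PT (fun a => (l a).foldl (f a) (i a)) := by
  obtain ⟨P, hP⟩ := hg
  refine PT.foldl hl hi hf
    (fun a => K * (sz (i a) + (l a).length * P.eval (sz a + sz (l a) + 1)) + K)
    (((PB.const K).mul (hi.szb.add ((PB.length hl).mul (((PB.size.add hl.szb).add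
      (PB.const 1)).poly P)))).add (PB.const K)) (fun a k => ?_)
  have key : ∀ (L : List β) (c : γ), (∀ x ∈ L, x ∈ l a) →
      μ (L.foldl (f a) c) ≤ μ c + L.length * P.eval (sz a + sz (l a) + 1) := by
    intro L
    induction L with
    | nil => intro c _; simp
    | cons x L ih =>
      intro c hL
      have h1 := ih (f a c x) (fun y hy => hL y (List.mem_cons_of_mem _ hy))
      have h2 := hstep a c x
      have h3 : g (a, x) ≤ P.eval (sz a + sz (l a) + 1) := by
        refine (hP _).trans (eval_mono P ?_)
        rw [sz_pair]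
        have := sz_le_of_mem (hL x List.mem_cons_self)
        omega
      simp only [List.foldl_cons, List.length_cons]
      nlinarith
  have h1 := key ((l a).take k) (i a) (fun x hx => List.mem_of_mem_take hx)
  have h2 : ((l a).take k).length ≤ (l a).length := by simp
  have h3 := hμ' (i a)
  refine (hμ _).trans (Nat.add_le_add_right (Nat.mul_le_mul_left _ (h1.trans ?_)) _)
  exact add_le_add h3 (Nat.mul_le_mul_right _ h2)

theorem PT.foldl_add {l : α → List β} {i : α → γ} {f : α → γ → β → γ} (hl : PT l) (hi : PT i)
    (hf : PT (fun p : α × γ × β => f p.1 p.2.1 p.2.2)) (g : α × β → ℕ) (hg : PB g)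
    (hstep : ∀ a c x, sz (f a c x) ≤ sz c + g (a, x)) :
    PT (fun a => (l a).foldl (f a) (i a)) :=
  PT.foldl_meas hl hi hf sz 1 (fun c => by omega) (fun _ => le_rfl) g hg hstep

theorem PT.iter {σ : Type} [Enc σ] {step : σ → σ} (hs : PT step) (c : ℕ)
    (hc : ∀ s, sz (step s) ≤ sz s + c) {l : α → List β} {i : α → σ} (hl : PT l) (hi : PT i) :
    PT (fun a => step^[(l a).length] (i a)) :=
  (PT.foldl_add (f := fun _ s _ => step s) hl hi (by fun_prop) (fun _ => c) (PB.const c)
    (fun _ s _ => hc s)).of_eq (fun a => by rw [List.foldl_const])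

@[fun_prop] theorem PT.reverseAux {l m : α → List β} (hl : PT l) (hm : PT m) :
    PT (fun a => (l a).reverseAux (m a)) := by
  refine (PT.foldl_add (f := fun _ c x => x :: c) hl hm (by fun_prop) (fun p => sz p.2 + 1)
    ((PT.snd PT.id').szb.add (PB.const 1)) (fun a c x => by rw [sz_cons]; simp; omega)).of_eq
    (fun a => ?_)
  generalize m a = c
  induction l a generalizing c with
  | nil => rfl
  | cons x L ih => exact ih _

@[fun_prop] theorem PT.reverse {l : α → List β} (hl : PT l) : PT (fun a => (l a).reverse) :=
  (hl.reverseAux (PT.const [])).of_eq (fun _ => rfl)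

@[fun_prop] theorem PT.append {l m : α → List β} (hl : PT l) (hm : PT m) :
    PT (fun a => l a ++ m a) :=
  (hl.reverse.reverseAux hm).of_eq (fun a => by simp [List.reverseAux_eq])

theorem sz_append (l m : List α) : sz (l ++ m) + 1 = sz l + sz m := by
  induction l with
  | nil => simp [sz_nil]; omega
  | cons x l ih => simp only [List.cons_append, sz_cons]; omega

@[fun_prop] theorem PT.flatMap {l : α → List β} {f : α → β → List γ} (hl : PT l)
    (hf : PT (fun p : α × β => f p.1 p.2)) : PT (fun a => (l a).flatMap (f a)) := by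
  have h1 : PT (fun p : α × List γ × β => f p.1 p.2.2) :=
    hf.comp (f := fun p : α × List γ × β => (p.1, p.2.2)) (by fun_prop)
  refine (PT.foldl_add (f := fun a c x => c ++ f a x) hl (PT.const []) (by fun_prop)
    (fun p => sz (f p.1 p.2)) hf.szb (fun a c x => by
      have := sz_append c (f a x); simp only; omega)).of_eq (fun a => ?_)
  have : ∀ (L : List β) (c : List γ), L.foldl (fun c x => c ++ f a x) c = c ++ L.flatMap (f a) := by
    intro L
    induction L with
    | nil => simp
    | cons x L ih => intro c; simp [ih]
  simp [this]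

@[fun_prop] theorem PT.map {l : α → List β} {f : α → β → γ} (hl : PT l)
    (hf : PT (fun p : α × β => f p.1 p.2)) : PT (fun a => (l a).map (f a)) :=
  (PT.flatMap (f := fun a x => [f a x]) hl (by fun_prop)).of_eq (fun a => by
    induction l a with
    | nil => rfl
    | cons x L ih => simp [ih])

@[fun_prop] theorem PT.flatten {l : α → List (List β)} (hl : PT l) : PT (fun a => (l a).flatten) :=
  (PT.flatMap (f := fun _ x => x) hl (by fun_prop)).of_eq (fun a => by simp [List.flatMap])

@[fun_prop] theorem PT.filter {l : α → List β} {f : α → β → Bool} (hl : PT l)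
    (hf : PT (fun p : α × β => f p.1 p.2)) : PT (fun a => (l a).filter (f a)) :=
  (PT.flatMap (f := fun a x => _root_.cond (f a x) [x] []) hl (by fun_prop)).of_eq (fun a => by
    induction l a with
    | nil => rfl
    | cons x L ih =>
      rw [List.flatMap_cons, ih, List.filter_cons]
      cases f a x <;> simp)

@[fun_prop] theorem PT.any {l : α → List β} {f : α → β → Bool} (hl : PT l)
    (hf : PT (fun p : α × β => f p.1 p.2)) : PT (fun a => (l a).any (f a)) :=
  (hl.filter hf).isEmpty.not.of_eq (fun a => by
    induction l a with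
    | nil => rfl
    | cons x L ih =>
      rw [List.filter_cons, List.any_cons, ← ih]
      cases f a x <;> simp)

@[fun_prop] theorem PT.all {l : α → List β} {f : α → β → Bool} (hl : PT l)
    (hf : PT (fun p : α × β => f p.1 p.2)) : PT (fun a => (l a).all (f a)) :=
  (hl.any (f := fun a x => !f a x) hf.not).not.of_eq (fun a => by
    induction l a with
    | nil => rfl
    | cons x L ih =>
      rw [List.any_cons, List.all_cons, ← ih]
      cases f a x <;> simp)

/-- drop as many entries as another list is long -/
def dropL (l : List β) (m : List γ) : List β := l.drop m.length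

@[fun_prop] theorem PT.dropL {l : α → List β} {m : α → List γ} (hl : PT l) (hm : PT m) :
    PT (fun a => dropL (l a) (m a)) :=
  (PT.iter (step := List.tail) (PT.tail PT.id') 0 (fun s => sz_tail_le s) hm hl).of_eq (fun a => by
    unfold Ptime.dropL
    induction (m a).length with
    | zero => rfl
    | succ k ih => rw [iterate_succ_apply', ih, List.tail_drop])

/-- the initial run of `true`s -/
def ones (l : List Bool) : List Unit :=
  (l.foldl (fun (s : Bool × List Unit) b => cond (s.1 && b) (true, () :: s.2) (false, s.2))
    (true, [])).2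

@[fun_prop] theorem PT.ones {l : α → List Bool} (hl : PT l) : PT (fun a => ones (l a)) := by
  refine PT.snd (PT.foldl_add (f := fun _ (s : Bool × List Unit) b =>
    _root_.cond (s.1 && b) (true, () :: s.2) (false, s.2)) hl (PT.const _) (by fun_prop)
    (fun _ => 5) (PB.const 5) (fun a c x => ?_))
  obtain ⟨b, u⟩ := c
  have h1 := sz_bool true
  have h2 := sz_bool false
  cases (b && x) <;> simp [sz_pair, sz_cons, sz_unit] <;> omega

theorem ones_length (n : ℕ) (l : List Bool) (hl : l.head? ≠ some true) :
    (ones (List.replicate n true ++ l)).length = n := by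
  have h1 : ∀ (l : List Bool) (u : List Unit), l.foldl (fun (s : Bool × List Unit) b =>
      cond (s.1 && b) (true, () :: s.2) (false, s.2)) (false, u) = (false, u) := by
    intro l; induction l with
    | nil => intro u; rfl
    | cons b l ih => intro u; simp [ih]
  have h2 : ∀ (n : ℕ) (u : List Unit), ((List.replicate n true ++ l).foldl
      (fun (s : Bool × List Unit) b => cond (s.1 && b) (true, () :: s.2) (false, s.2))
      (true, u)).2.length = n + u.length := by
    intro n
    induction n with
    | zero =>
      intro u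
      cases l with
      | nil => simp
      | cons b l =>
        cases b
        · simp [h1]
        · simp at hl
    | succ n ih =>
      intro u
      have := ih (() :: u)
      simp only [List.replicate_succ, List.cons_append, List.foldl_cons, Bool.and_self, cond_true]
      rw [this]; simp; omega
  simpa [ones] using h2 n []

end Crest.Agent.H3.Ptime
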