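import Crest.Agent.H3.PTNat

set_option autoImplicit false

/-! Polynomial-time functions: slicing, equality, membership, parsing of coded lists. -/

namespace Crest.Agent.H3.Ptime
open Function

variable {α β γ : Type} [Enc α] [Enc β] [Enc γ]

@[fun_prop] theorem PT.drop {l : α → List β} {n : α → ℕ} (hl : PT l) (hn : PT n) :
    PT (fun a => (l a).drop (n a)) :=
  (hl.dropL ((hn.min hl.length).range (PB.min (PB.length hl)))).of_eq (fun a => by
    unfold Ptime.dropL
    rw [List.length_range]
    rcases le_total (n a) (l a).length with h | h
    · rw [min_eq_left h]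
    · rw [min_eq_right h, List.drop_length, List.drop_of_length_le h])

@[fun_prop] theorem PT.take {l : α → List β} {n : α → ℕ} (hl : PT l) (hn : PT n) :
    PT (fun a => (l a).take (n a)) :=
  (hl.reverse.drop (hl.length.sub hn)).reverse.of_eq (fun a => by
    rw [List.drop_reverse, List.reverse_reverse]
    rcases le_total (n a) (l a).length with h | h
    · congr 1; omega
    · rw [List.take_of_length_le h, List.take_of_length_le (by omega)])

@[fun_prop] theorem PT.dropLast {l : α → List β} (hl : PT l) : PT (fun a => (l a).dropLast) :=
  hl.reverse.tail.reverse.of_eq (fun a => by simp)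

@[fun_prop] theorem PT.takeWhile {l : α → List β} {f : α → β → Bool} (hl : PT l)
    (hf : PT (fun p : α × β => f p.1 p.2)) : PT (fun a => (l a).takeWhile (f a)) := by
  have h1 : PT (fun p : α × (Bool × List β) × β => f p.1 p.2.2) :=
    hf.comp (f := fun p : α × (Bool × List β) × β => (p.1, p.2.2)) (by fun_prop)
  refine (PT.snd (PT.foldl_add (f := fun a (s : Bool × List β) x =>
    _root_.cond (s.1 && f a x) (true, s.2 ++ [x]) (false, s.2)) hl (PT.const (true, []))
    (by fun_prop) (fun p => sz p.2 + 5) ((PT.snd PT.id').szb.add (PB.const 5))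
    (fun a c x => ?_))).of_eq (fun a => ?_)
  · obtain ⟨b, u⟩ := c
    have h1 := sz_bool true
    have h2 := sz_bool false
    have h3 := sz_append u [x]
    rw [sz_cons, sz_nil] at h3
    cases (b && f a x) <;> simp [sz_pair] <;> omega
  · have h1 : ∀ (L u : List β), L.foldl (fun (s : Bool × List β) x =>
        _root_.cond (s.1 && f a x) (true, s.2 ++ [x]) (false, s.2)) (false, u) = (false, u) := by
      intro L; induction L with
      | nil => intro u; rfl
      | cons b l ih => intro u; simp [ih]
    have h2 : ∀ (L u : List β), (L.foldl (fun (s : Bool × List β) x =>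
        _root_.cond (s.1 && f a x) (true, s.2 ++ [x]) (false, s.2)) (true, u)).2 =
        u ++ L.takeWhile (f a) := by
      intro L; induction L with
      | nil => intro u; simp
      | cons b l ih =>
        intro u
        rw [List.foldl_cons, List.takeWhile_cons]
        cases f a b
        · simp [h1]
        · simp [ih]
    simpa using h2 (l a) []

@[fun_prop] theorem PT.dropWhile {l : α → List β} {f : α → β → Bool} (hl : PT l)
    (hf : PT (fun p : α × β => f p.1 p.2)) : PT (fun a => (l a).dropWhile (f a)) :=
  (hl.dropL (hl.takeWhile hf)).of_eq (fun a => by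
    unfold Ptime.dropL
    conv_lhs => arg 2; rw [← List.takeWhile_append_dropWhile (p := f a) (l := l a)]
    exact List.drop_left)

/-- types with a polynomial-time equality test -/
class EqPT (β : Type) [Enc β] : Prop where
  eq : PT (fun p : β × β => @decide (p.1 = p.2) (Classical.propDecidable _))

@[fun_prop] theorem PT.eqG [EqPT β] {f g : α → β} [∀ a, Decidable (f a = g a)] (hf : PT f)
    (hg : PT g) : PT (fun a => decide (f a = g a)) :=
  ((EqPT.eq (β := β)).comp (hf.pair hg)).of_eq (fun a => by simp)

instance : EqPT ℕ := ⟨@PT.eq _ _ _ _ (fun _ => Classical.propDecidable _) (by fun_prop) (by fun_prop)⟩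

instance [EqPT β] [EqPT γ] : EqPT (β × γ) := ⟨by
  classical
  refine (show PT (fun p : (β × γ) × (β × γ) => decide (p.1.1 = p.2.1) && decide (p.1.2 = p.2.2)) by
    fun_prop).of_eq (fun p => ?_)
  simp [Prod.ext_iff]⟩

instance [EqPT β] : EqPT (List β) := ⟨by
  classical
  have hb : PB (fun p : List β × List β => p.1.length) := PB.length (by fun_prop)
  refine (show PT (fun p : List β × List β => decide (p.1.length = p.2.length) &&
    (List.range p.1.length).all (fun i => ((p.1.drop i).take 1).all (fun x =>
      ((p.2.drop i).take 1).all (fun y => decide (x = y))))) by fun_prop).of_eq (fun p => ?_)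
  obtain ⟨l, m⟩ := p
  rw [Bool.eq_iff_iff]
  simp only [Bool.and_eq_true, decide_eq_true_eq, List.all_eq_true, List.mem_range]
  constructor
  · rintro ⟨h1, h2⟩
    refine List.ext_getElem h1 (fun i a b => h2 i a _ ?_ _ ?_)
    · rw [List.drop_eq_getElem_cons a]; exact List.mem_cons_self
    · rw [List.drop_eq_getElem_cons b]; exact List.mem_cons_self
  · rintro rfl
    refine ⟨rfl, fun i hi x hx y hy => ?_⟩
    rw [List.drop_eq_getElem_cons hi] at hx hy
    exact (List.mem_singleton.1 hx).trans (List.mem_singleton.1 hy).symm⟩

@[fun_prop] theorem PT.mem [EqPT β] {f : α → β} {l : α → List β} [∀ a, Decidable (f a ∈ l a)]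
    (hf : PT f) (hl : PT l) : PT (fun a => decide (f a ∈ l a)) := by
  classical
  refine (show PT (fun a => (l a).any (fun x => decide (x = f a))) by fun_prop).of_eq (fun a => ?_)
  rw [Bool.eq_iff_iff]; simp

@[fun_prop] theorem PT.isSuffix [EqPT β] {l m : α → List β} [∀ a, Decidable (l a <:+ m a)]
    (hl : PT l) (hm : PT m) : PT (fun a => decide (l a <:+ m a)) := by
  classical
  refine (show PT (fun a => decide (l a = (m a).drop ((m a).length - (l a).length))) by
    fun_prop).of_eq (fun a => ?_)
  simp only [List.suffix_iff_eq_drop]

@[fun_prop] theorem PT.isInfix [EqPT β] {l m : α → List β} [∀ a, Decidable (l a <:+: m a)]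
    (hl : PT l) (hm : PT m) : PT (fun a => decide (l a <:+: m a)) := by
  classical
  have hb : PB (fun a => (m a).length + 1) := (PB.length hm).add (PB.const 1)
  refine (show PT (fun a => (List.range ((m a).length + 1)).any (fun i =>
    decide (l a <:+ (m a).take i))) by fun_prop).of_eq (fun a => ?_)
  rw [Bool.eq_iff_iff]
  simp only [List.any_eq_true, List.mem_range, decide_eq_true_eq]
  constructor
  · rintro ⟨i, -, h⟩; exact h.isInfix.trans (List.take_prefix _ _).isInfix
  · rintro ⟨p, q, h⟩
    exact ⟨(p ++ l a).length, by rw [← h]; simp, by rw [← h, List.take_left]; simp⟩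

theorem sz_perm {l m : List α} (h : l.Perm m) : sz l = sz m := by
  induction h with
  | nil => rfl
  | cons _ _ ih => simp [sz_cons, ih]
  | swap => simp only [sz_cons]; omega
  | trans _ _ a b => exact a.trans b

theorem sz_sublist {l m : List α} (h : l.Sublist m) : sz l ≤ sz m := by
  induction h with
  | slnil => rfl
  | cons _ _ ih => rw [sz_cons]; omega
  | cons_cons _ _ ih => simp only [sz_cons]; omega

theorem sz_flatten (L : List (List α)) : sz L = sz L.flatten + 2 * L.length := by
  induction L with
  | nil => rfl
  | cons a L ih =>
    have := sz_append a L.flatten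
    simp only [sz_cons, List.flatten_cons, List.length_cons]; omega

theorem sz_le_mul (l : List α) (b : ℕ) (h : ∀ a ∈ l, sz a ≤ b) : sz l ≤ l.length * (b + 1) + 1 := by
  induction l with
  | nil => simp [sz_nil]
  | cons a l ih =>
    have := ih (fun x hx => h x (by simp [hx]))
    have := h a (by simp)
    rw [sz_cons, List.length_cons, add_mul]; omega

/-! ### parsing -/

def pstep (s : List Bool × List Bool × List ℕ) (b : Bool) : List Bool × List Bool × List ℕ :=
  cond s.1.isEmpty ([b], s.2) (cond (s.1.headD false) ([], b :: s.2.1, s.2.2)
    ([], [], s.2.2 ++ [ofB s.2.1]))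

/-- the numbers coded one after another in a bit string -/
def pnats (x : List Bool) : List ℕ := (x.foldl pstep ([], [], [])).2.2

theorem size_ofB (l : List Bool) : (ofB l).size ≤ l.length := Nat.size_le.2 (ofB_lt l)

@[fun_prop] theorem PT.pnats {f : α → List Bool} (hf : PT f) : PT (fun a => pnats (f a)) := by
  refine PT.snd (PT.snd (PT.foldl (f := fun _ s b => pstep s b) hf (PT.const _)
    (by unfold pstep; fun_prop) (fun a => 20 * ((f a).length + 1) ^ 2)
    ((PB.const 20).mul (((PB.length hf).add (PB.const 1)).pow 2)) (fun a k => ?_)))
  have key : ∀ (L : List Bool), let s := L.foldl pstep ([], [], [])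
      s.1.length ≤ 1 ∧ s.2.1.length ≤ L.length ∧ s.2.2.length ≤ L.length ∧
        ∀ n ∈ s.2.2, n.size ≤ L.length := by
    intro L
    induction L using List.reverseRecOn with
    | nil => simp
    | append_singleton L b ih =>
      rw [List.foldl_append]
      generalize L.foldl pstep ([], [], []) = s at ih
      obtain ⟨u, c, o⟩ := s
      obtain ⟨h1, h2, h3, h4⟩ := ih
      have h5 := size_ofB c
      simp only at h1 h2 h3 h4
      rcases u with _ | ⟨_ | _, u⟩
      · simp only [List.foldl_cons, List.foldl_nil, pstep, List.isEmpty_nil, cond_true,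
          List.length_append, List.length_cons, List.length_nil]
        exact ⟨le_rfl, by omega, by omega, fun n hn => (h4 n hn).trans (by omega)⟩
      · simp only [List.foldl_cons, List.foldl_nil, pstep, List.isEmpty_cons, cond_false,
          List.length_append, List.length_cons, List.length_nil, List.headD_cons, List.mem_append,
          List.mem_singleton]
        refine ⟨by omega, by omega, by omega, ?_⟩
        rintro n (hn | rfl)
        · exact (h4 n hn).trans (by omega)
        · omega
      · simp only [List.foldl_cons, List.foldl_nil, pstep, List.isEmpty_cons, cond_false, cond_true,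
          List.length_append, List.length_cons, List.length_nil, List.headD_cons]
        exact ⟨by omega, by omega, by omega, fun n hn => (h4 n hn).trans (by omega)⟩
  obtain ⟨h1, h2, h3, h4⟩ := key ((f a).take k)
  have h5 : ((f a).take k).length ≤ (f a).length := by simp
  generalize ((f a).take k).foldl pstep ([], [], []) = s at *
  obtain ⟨u, c, o⟩ := s
  generalize ((f a).take k).length = m at *
  generalize (f a).length = n at *
  have a1 := sz_bits_le u
  have a2 := sz_bits_le c
  have a3 := sz_le_mul o (4 * n + 4) (fun x hx => (sz_nat_le x).trans (by have := h4 x hx; omega))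
  simp only at h1 h2 h3
  have a4 : o.length * (4 * n + 4 + 1) ≤ n * (4 * n + 5) := Nat.mul_le_mul (by omega) le_rfl
  rw [sz_pair, sz_pair]
  nlinarith

theorem ofB_bits (n : ℕ) : ofB n.bits.reverse = n := by
  rw [ofB, List.foldl_reverse]
  exact foldr_bits (fun b n => Nat.bit b n) id (fun _ _ => rfl) n

theorem pstep_natCode (n : ℕ) (o : List ℕ) :
    (Crest.Enc.natCode n).foldl pstep ([], [], o) = ([], [], o ++ [n]) := by
  have key : ∀ (L c : List Bool), ((L.map fun b => [true, b]).flatten).foldl pstep ([], c, o) =
      ([], L.reverse ++ c, o) := by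
    intro L; induction L with
    | nil => intro c; rfl
    | cons b L ih => intro c; simp [pstep, ih]
  rw [Crest.Enc.natCode, List.foldl_append, key]
  simp [pstep, ofB_bits]

theorem pnats_spec (l : List ℕ) : pnats (l.map Crest.Enc.natCode).flatten = l := by
  have key : ∀ o, ((l.map Crest.Enc.natCode).flatten).foldl pstep ([], [], o) = ([], [], o ++ l) := by
    induction l with
    | nil => simp
    | cons n l ih => intro o; simp only [List.map_cons, List.flatten_cons, List.foldl_append,
        pstep_natCode, ih]; simp
  simp [pnats, key]

def lstep (s : ℕ × List (List ℕ)) (x : ℕ) : ℕ × List (List ℕ) :=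
  if s.1 = 0 then (x, [] :: s.2) else (s.1 - 1, (s.2.headD [] ++ [x]) :: s.2.tail)

/-- the lists given by their lengths followed by their entries -/
def plists (x : List ℕ) : List (List ℕ) := (x.foldl lstep (0, [])).2.reverse

@[fun_prop] theorem PT.plists {f : α → List ℕ} (hf : PT f) : PT (fun a => plists (f a)) := by
  refine PT.reverse (PT.snd (PT.foldl_meas (f := fun _ s b => lstep s b) hf (PT.const _)
    (by unfold lstep; fun_prop) (fun s => s.1.size + sz s.2) 5 (fun c => ?_) (fun c => ?_)
    (fun p => sz p.2 + 5) ((PT.snd PT.id').szb.add (PB.const 5)) (fun a c x => ?_)))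
  · obtain ⟨k, L⟩ := c
    have := sz_nat_le k
    rw [sz_pair]; simp only; omega
  · obtain ⟨k, L⟩ := c
    have := size_le_sz k
    rw [sz_pair]; simp only; omega
  · obtain ⟨k, L⟩ := c
    have h1 := size_le_sz x
    have h2 := Nat.size_le_size (Nat.sub_le k 1)
    unfold lstep
    split_ifs
    · simp only [sz_cons, sz_nil]; omega
    · have h3 := sz_append (L.headD []) [x]
      cases L <;> simp only [sz_cons, sz_nil, List.headD_nil, List.headD_cons, List.tail_nil,
        List.tail_cons] at h3 ⊢ <;> omega

theorem plists_spec (S : List (List ℕ)) : plists (S.flatMap (fun s => s.length :: s)) = S := by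
  have k1 : ∀ (s c : List ℕ) (L : List (List ℕ)), s.foldl lstep (s.length, c :: L) = (0, (c ++ s) :: L) := by
    intro s; induction s with
    | nil => simp
    | cons x s ih => intro c L; simp [lstep, ih]
  have k2 : ∀ L, (S.flatMap (fun s => s.length :: s)).foldl lstep (0, L) = (0, S.reverse ++ L) := by
    induction S with
    | nil => simp
    | cons s S ih =>
      intro L
      rw [List.flatMap_cons, List.foldl_append, List.foldl_cons,
        show lstep (0, L) s.length = (s.length, [] :: L) from rfl, k1, ih]; simp
  simp [plists, k2]

@[fun_prop] theorem PT.listCode {f : α → List ℕ} (hf : PT f) :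
    PT (fun a => Crest.Enc.listCode (f a)) := by
  unfold Crest.Enc.listCode; fun_prop

theorem parse_lists (S : List (List ℕ)) :
    plists (pnats (Crest.Enc.natCode S.length ++ (S.map Crest.Enc.listCode).flatten)).tail = S := by
  have : Crest.Enc.natCode S.length ++ (S.map Crest.Enc.listCode).flatten =
      ((S.length :: S.flatMap (fun s => s.length :: s)).map Crest.Enc.natCode).flatten := by
    rw [List.map_cons, List.flatten_cons]
    congr 1
    induction S with
    | nil => rfl
    | cons s S ih => simp [Crest.Enc.listCode, ih]
  rw [this, pnats_spec, List.tail_cons, plists_spec]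

end Crest.Agent.H3.Ptime
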