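import Crest.Agent.H3.PTList
import Crest.Prelude.Def_BitEnc

set_option autoImplicit false

/-! Polynomial-time arithmetic on binary naturals and integers. -/

namespace Crest.Agent.H3.Ptime
open Function

variable {α β γ : Type} [Enc α] [Enc β] [Enc γ]

instance : Enc ℕ := ⟨fun n => enc n.bits⟩

theorem sz_nat_le (n : ℕ) : sz n ≤ 4 * n.size + 4 := by
  have := sz_bits_le n.bits
  rw [Nat.size_eq_bits_len] at this
  exact (show sz n.bits ≤ _ by omega)
theorem size_le_sz (n : ℕ) : n.size ≤ sz n := by
  have := length_le_sz n.bits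
  rwa [Nat.size_eq_bits_len] at this

@[fun_prop] theorem PT.bits {f : α → ℕ} (hf : PT f) : PT (fun a => (f a).bits) :=
  hf.ofEncOut (fun _ => rfl)

@[fun_prop] theorem PT.bodd {f : α → ℕ} (hf : PT f) : PT (fun a => (f a).bodd) :=
  (hf.bits.headD (PT.const false)).of_eq (fun a => by
    rw [Nat.bodd_eq_bits_head]; cases (f a).bits <;> rfl)

@[fun_prop] theorem PT.div2 {f : α → ℕ} (hf : PT f) : PT (fun a => (f a).div2) :=
  hf.bits.tail.ofEncOut (fun a => by
    show enc (f a).bits.tail = enc (f a).div2.bits
    rw [Nat.div2_bits_eq_tail])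

/-- zero test -/
def isz (n : ℕ) : Bool := decide (n = 0)

@[fun_prop] theorem PT.isz {f : α → ℕ} (hf : PT f) : PT (fun a => isz (f a)) :=
  hf.bits.isEmpty.of_eq (fun a => by
    unfold Ptime.isz
    rcases Nat.eq_zero_or_pos (f a) with h | h
    · simp [h]
    · have : (f a).bits.length ≠ 0 := by
        rw [Nat.size_eq_bits_len]; simp [Nat.size_eq_zero]; omega
      cases hb : (f a).bits with
      | nil => simp [hb] at this
      | cons x l => simp; omega)

@[fun_prop] theorem PT.bit {b : α → Bool} {f : α → ℕ} (hb : PT b) (hf : PT f) :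
    PT (fun a => Nat.bit (b a) (f a)) := by
  refine (show PT (fun a => _root_.cond (Ptime.isz (f a) && !b a) [] (b a :: (f a).bits)) by
    fun_prop).ofEncOut (fun a => ?_)
  show enc _ = enc (Nat.bit (b a) (f a)).bits
  congr 1
  by_cases h : f a = 0 ∧ b a = false
  · simp [Ptime.isz, h.1, h.2]
  · rw [Nat.bits_append_bit _ _ (by intro h0; simpa [h0] using h)]
    by_cases h0 : f a = 0
    · have : b a = true := by simpa [h0] using h
      simp [this]
    · simp [Ptime.isz, h0]

theorem size_bit_le (b : Bool) (n : ℕ) : (Nat.bit b n).size ≤ n.size + 1 := by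
  by_cases h : Nat.bit b n = 0
  · simp [h]
  · rw [Nat.size_bit h]

theorem size_add_le (a b : ℕ) : (a + b).size ≤ a.size + b.size + 1 := by
  rw [Nat.size_le]
  have h1 := Nat.lt_size_self a
  have h2 := Nat.lt_size_self b
  have h3 : 2 ^ a.size ≤ 2 ^ (a.size + b.size) := Nat.pow_le_pow_right (by norm_num) (by omega)
  have h4 : 2 ^ b.size ≤ 2 ^ (a.size + b.size) := Nat.pow_le_pow_right (by norm_num) (by omega)
  rw [pow_succ]; omega

theorem size_mul_le (a b : ℕ) : (a * b).size ≤ a.size + b.size := by
  rw [Nat.size_le, pow_add]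
  exact Nat.mul_lt_mul'' (Nat.lt_size_self a) (Nat.lt_size_self b)

/-- value of a bit list, most significant bit first -/
def ofB (l : List Bool) : ℕ := l.foldl (fun n b => Nat.bit b n) 0

@[fun_prop] theorem PT.ofB {l : α → List Bool} (hl : PT l) : PT (fun a => ofB (l a)) :=
  PT.foldl_meas (f := fun _ n b => Nat.bit b n) hl (PT.const 0) (by fun_prop) Nat.size 4 sz_nat_le
    size_le_sz (fun _ => 1) (PB.const 1) (fun _ c x => size_bit_le x c)

theorem foldl_bit (l : List Bool) (c : ℕ) :
    l.foldl (fun n b => Nat.bit b n) c = c * 2 ^ l.length + ofB l := by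
  unfold ofB
  induction l generalizing c with
  | nil => simp
  | cons b l ih =>
    simp only [List.foldl_cons, List.length_cons]
    rw [ih, ih (Nat.bit b 0), Nat.bit_val, Nat.bit_val]; ring

theorem ofB_cons (b : Bool) (l : List Bool) : ofB (b :: l) = b.toNat * 2 ^ l.length + ofB l := by
  rw [ofB, List.foldl_cons, foldl_bit, Nat.bit_val]; simp

theorem ofB_lt (l : List Bool) : ofB l < 2 ^ l.length := by
  induction l with
  | nil => simp [ofB]
  | cons b l ih => rw [ofB_cons, List.length_cons, pow_succ]; cases b <;> simp <;> omega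

theorem sz_div2_le (n : ℕ) : sz n.div2 ≤ sz n := by
  show sz n.div2.bits ≤ sz n.bits
  rw [Nat.div2_bits_eq_tail]; exact sz_tail_le _

/-- one step of a two-input transducer with a carry bit -/
def tstep (δ o : Bool → Bool → Bool → Bool) (s : ℕ × ℕ × Bool × List Bool) :
    ℕ × ℕ × Bool × List Bool :=
  (s.1.div2, s.2.1.div2, δ s.1.bodd s.2.1.bodd s.2.2.1, o s.1.bodd s.2.1.bodd s.2.2.1 :: s.2.2.2)

theorem sz_tstep (δ o : Bool → Bool → Bool → Bool) (s : ℕ × ℕ × Bool × List Bool) :
    sz (tstep δ o s) ≤ sz s + 7 := by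
  obtain ⟨a, b, c, l⟩ := s
  simp only [tstep, sz_pair, sz_cons]
  have := sz_div2_le a
  have := sz_div2_le b
  have := sz_bool (δ a.bodd b.bodd c)
  have := sz_bool (o a.bodd b.bodd c)
  omega

def addδ (x y c : Bool) : Bool := (x && y) || (c && (x || y))
def subδ (x y c : Bool) : Bool := (!x && y) || (c && (!x || y))
def xor3 (x y c : Bool) : Bool := Bool.xor (Bool.xor x y) c

theorem add_iter (a b k : ℕ) : let s := (tstep addδ xor3)^[k] (a, b, false, [])
    s.2.2.2.length = k ∧ ofB s.2.2.2 + 2 ^ k * (s.1 + s.2.1 + s.2.2.1.toNat) = a + b := by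
  induction k with
  | zero => simp [ofB]
  | succ k ih =>
    rw [iterate_succ_apply']
    generalize (tstep addδ xor3)^[k] (a, b, false, []) = s at ih
    obtain ⟨x, y, c, l⟩ := s
    simp only [tstep] at ih ⊢
    refine ⟨by simp [ih.1], ?_⟩
    rw [ofB_cons, ih.1, ← ih.2]
    have hx := Nat.bodd_add_div2 x
    have hy := Nat.bodd_add_div2 y
    generalize x.div2 = x' at *
    generalize y.div2 = y' at *
    generalize x.bodd = x0 at *
    generalize y.bodd = y0 at *
    subst hx hy
    cases x0 <;> cases y0 <;> cases c <;> simp [addδ, xor3] <;> ring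

@[fun_prop] theorem PT.add {f g : α → ℕ} (hf : PT f) (hg : PT g) : PT (fun a => f a + g a) := by
  have hs : PT (tstep addδ xor3) := by unfold tstep addδ xor3; fun_prop
  have h := PT.iter hs 7 (sz_tstep _ _) (l := fun a => true :: ((f a).bits ++ (g a).bits))
    (i := fun a => (f a, g a, false, [])) (by fun_prop) (by fun_prop)
  refine h.snd.snd.snd.ofB.of_eq (fun a => ?_)
  obtain ⟨-, h2⟩ := add_iter (f a) (g a) (true :: ((f a).bits ++ (g a).bits)).length
  have h3 : f a + g a < 2 ^ (true :: ((f a).bits ++ (g a).bits)).length := by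
    rw [← Nat.size_le]
    simpa [Nat.size_eq_bits_len] using size_add_le (f a) (g a)
  generalize (tstep addδ xor3)^[(true :: ((f a).bits ++ (g a).bits)).length]
    (f a, g a, false, []) = s at h2
  generalize 2 ^ (true :: ((f a).bits ++ (g a).bits)).length = M at h2 h3
  rcases Nat.eq_zero_or_pos (s.1 + s.2.1 + s.2.2.1.toNat) with h0 | h0
  · simpa [h0] using h2
  · have := Nat.mul_le_mul_left M h0
    omega

theorem sub_iter (a b k : ℕ) : let s := (tstep subδ xor3)^[k] (a, b, false, [])
    s.2.2.2.length = k ∧ s.1 = a / 2 ^ k ∧ s.2.1 = b / 2 ^ k ∧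
      a + 2 ^ k * (s.2.1 + s.2.2.1.toNat) = b + ofB s.2.2.2 + 2 ^ k * s.1 := by
  induction k with
  | zero => simp [ofB, add_comm]
  | succ k ih =>
    rw [iterate_succ_apply']
    generalize (tstep subδ xor3)^[k] (a, b, false, []) = s at ih
    obtain ⟨x, y, c, l⟩ := s
    simp only [tstep] at ih ⊢
    obtain ⟨h1, h2, h3, h4⟩ := ih
    refine ⟨by simp [h1], by rw [Nat.div2_val, h2, Nat.div_div_eq_div_mul, pow_succ],
      by rw [Nat.div2_val, h3, Nat.div_div_eq_div_mul, pow_succ], ?_⟩
    rw [ofB_cons, h1]
    have hx := Nat.bodd_add_div2 x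
    have hy := Nat.bodd_add_div2 y
    clear h2 h3
    generalize x.div2 = x' at *
    generalize y.div2 = y' at *
    generalize x.bodd = x0 at *
    generalize y.bodd = y0 at *
    subst hx hy
    rw [pow_succ]
    generalize 2 ^ k = M at *
    cases x0 <;> cases y0 <;> cases c <;> simp [subδ, xor3] at h4 ⊢ <;> nlinarith

theorem PT.subAux {f g : α → ℕ} (hf : PT f) (hg : PT g) :
    PT (fun a => (decide (f a < g a), f a - g a)) := by
  have hs : PT (tstep subδ xor3) := by unfold tstep subδ xor3; fun_prop
  have h := PT.iter hs 7 (sz_tstep _ _) (l := fun a => (f a).bits ++ (g a).bits)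
    (i := fun a => (f a, g a, false, [])) (by fun_prop) (by fun_prop)
  refine (h.snd.snd.fst.pair (h.snd.snd.fst.cond (PT.const 0) h.snd.snd.snd.ofB)).of_eq (fun a => ?_)
  obtain ⟨h1, h2, h3, h4⟩ := sub_iter (f a) (g a) ((f a).bits ++ (g a).bits).length
  have h5 : f a < 2 ^ ((f a).bits ++ (g a).bits).length := by
    rw [← Nat.size_le]; simp [Nat.size_eq_bits_len]
  have h6 : g a < 2 ^ ((f a).bits ++ (g a).bits).length := by
    rw [← Nat.size_le]; simp [Nat.size_eq_bits_len]
  rw [Nat.div_eq_of_lt h5] at h2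
  rw [Nat.div_eq_of_lt h6] at h3
  generalize (tstep subδ xor3)^[((f a).bits ++ (g a).bits).length] (f a, g a, false, []) = s at *
  have h7 := ofB_lt s.2.2.2
  rw [h1] at h7
  rw [h2, h3] at h4
  generalize 2 ^ ((f a).bits ++ (g a).bits).length = M at *
  cases hc : s.2.2.1 <;> simp [hc] at h4 ⊢ <;> omega

@[fun_prop] theorem PT.sub {f g : α → ℕ} (hf : PT f) (hg : PT g) : PT (fun a => f a - g a) :=
  (hf.subAux hg).snd

@[fun_prop] theorem PT.lt {f g : α → ℕ} [∀ a, Decidable (f a < g a)] (hf : PT f) (hg : PT g) :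
    PT (fun a => decide (f a < g a)) := (hf.subAux hg).fst.of_eq (fun a => by simp)

@[fun_prop] theorem PT.le {f g : α → ℕ} [∀ a, Decidable (f a ≤ g a)] (hf : PT f) (hg : PT g) :
    PT (fun a => decide (f a ≤ g a)) := (hg.lt hf).not.of_eq (fun a => by
      by_cases h : f a ≤ g a <;> simp [h]; omega)

@[fun_prop] theorem PT.eq {f g : α → ℕ} [∀ a, Decidable (f a = g a)] (hf : PT f) (hg : PT g) :
    PT (fun a => decide (f a = g a)) := ((hf.le hg).and (hg.le hf)).of_eq (fun a => by
      by_cases h : f a = g a
      · simp [h]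
      · simp [h]; omega)

@[fun_prop] theorem PT.decide_and {p q : α → Prop} [∀ a, Decidable (p a)] [∀ a, Decidable (q a)]
    [∀ a, Decidable (p a ∧ q a)] (hp : PT (fun a => decide (p a))) (hq : PT (fun a => decide (q a))) :
    PT (fun a => decide (p a ∧ q a)) := (hp.and hq).of_eq (fun a => by simp)

@[fun_prop] theorem PT.decide_not {p : α → Prop} [∀ a, Decidable (p a)]
    [∀ a, Decidable (¬ p a)] (hp : PT (fun a => decide (p a))) :
    PT (fun a => decide (¬ p a)) := hp.not.of_eq (fun a => by simp)

@[fun_prop] theorem PT.ite {p : α → Prop} [∀ a, Decidable (p a)] {f g : α → β}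
    (hp : PT (fun a => decide (p a))) (hf : PT f) (hg : PT g) :
    PT (fun a => if p a then f a else g a) := (hp.cond hf hg).of_eq (fun a => by
      by_cases h : p a <;> simp [h])

theorem foldr_bits {σ : Type} (F : Bool → σ → σ) (G : ℕ → σ)
    (h : ∀ b n, F b (G n) = G (Nat.bit b n)) (n : ℕ) : n.bits.foldr F (G 0) = G n := by
  induction n using Nat.binaryRec' with
  | zero => simp
  | bit b n hn ih => rw [Nat.bits_append_bit _ _ hn, List.foldr_cons, ih, h]

@[fun_prop] theorem PT.mul {f g : α → ℕ} (hf : PT f) (hg : PT g) : PT (fun a => f a * g a) := by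
  refine (PT.foldl_meas (l := fun a => (g a).bits.reverse)
    (f := fun a c x => Nat.bit false c + _root_.cond x (f a) 0) (by fun_prop) (PT.const 0)
    (by fun_prop) Nat.size 4 sz_nat_le size_le_sz (fun p => sz (f p.1) + 2)
    ((hf.comp (PT.fst PT.id')).szb.add (PB.const 2)) (fun a c x => ?_)).of_eq (fun a => ?_)
  · have h1 := size_add_le (Nat.bit false c) (_root_.cond x (f a) 0)
    have h2 := size_bit_le false c
    have h3 := size_le_sz (f a)
    have h4 : (_root_.cond x (f a) 0).size ≤ (f a).size := by cases x <;> simp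
    simp only; omega
  · rw [List.foldl_reverse]
    have := foldr_bits (fun x c => Nat.bit false c + _root_.cond x (f a) 0) (fun n => f a * n)
      (fun b n => by cases b <;> simp [Nat.bit_val] <;> ring) (g a)
    simpa using this

theorem PT.divMod {f g : α → ℕ} (hf : PT f) (hg : PT g) :
    PT (fun a => (f a / g a, f a % g a)) := by
  have h := PT.foldl_meas (l := fun a => (f a).bits.reverse) (i := fun _ => ((0 : ℕ), (0 : ℕ)))
    (f := fun a (c : ℕ × ℕ) x => if Nat.bit x c.2 < g a then (Nat.bit false c.1, Nat.bit x c.2)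
      else (Nat.bit true c.1, Nat.bit x c.2 - g a)) (by fun_prop) (PT.const _)
    (by fun_prop) (fun c => c.1.size + c.2.size) 9
    (fun c => by
      rw [show c = (c.1, c.2) from rfl, sz_pair]
      have := sz_nat_le c.1; have := sz_nat_le c.2; simp only; omega)
    (fun c => by
      rw [show c = (c.1, c.2) from rfl, sz_pair]
      have := size_le_sz c.1; have := size_le_sz c.2; simp only; omega) (fun _ => 2)
    (PB.const 2) (fun a c x => by
      have h1 := size_bit_le false c.1
      have h2 := size_bit_le true c.1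
      have h3 := size_bit_le x c.2
      have h4 := Nat.size_le_size (Nat.sub_le (Nat.bit x c.2) (g a))
      split_ifs <;> simp only <;> omega)
  refine (((hg.eq (PT.const 0)).ite ((PT.const 0).pair hf) h)).of_eq (fun a => ?_)
  split_ifs with h0
  · simp [h0]
  · rw [List.foldl_reverse]
    have := foldr_bits (fun x (c : ℕ × ℕ) => if Nat.bit x c.2 < g a then
      (Nat.bit false c.1, Nat.bit x c.2) else (Nat.bit true c.1, Nat.bit x c.2 - g a))
      (fun n => (n / g a, n % g a)) (fun b n => ?_) (f a)
    · simpa using this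
    · have hpos : 0 < g a := Nat.pos_of_ne_zero h0
      have h1 := Nat.div_add_mod n (g a)
      have h2 := Nat.mod_lt n hpos
      have hb : b.toNat ≤ 1 := Bool.toNat_le b
      simp only [Nat.bit_val]
      generalize n / g a = q at *
      generalize n % g a = r at *
      generalize g a = d at *
      subst h1
      split_ifs with hc
      · rw [Prod.mk.injEq, eq_comm, eq_comm (b := _ % d), Nat.div_mod_unique hpos]
        refine ⟨by simp; ring, hc⟩
      · rw [Prod.mk.injEq, eq_comm, eq_comm (b := _ % d), Nat.div_mod_unique hpos]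
        refine ⟨?_, by omega⟩
        simp only [Bool.toNat_true]
        zify [not_lt.1 hc]; ring

@[fun_prop] theorem PT.div {f g : α → ℕ} (hf : PT f) (hg : PT g) : PT (fun a => f a / g a) :=
  (hf.divMod hg).fst
@[fun_prop] theorem PT.mod {f g : α → ℕ} (hf : PT f) (hg : PT g) : PT (fun a => f a % g a) :=
  (hf.divMod hg).snd
@[fun_prop] theorem PT.dvd {f g : α → ℕ} [∀ a, Decidable (f a ∣ g a)] (hf : PT f) (hg : PT g) :
    PT (fun a => decide (f a ∣ g a)) := ((hg.mod hf).eq (PT.const 0)).of_eq (fun a => by
      simp [Nat.dvd_iff_mod_eq_zero])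
@[fun_prop] theorem PT.min {f g : α → ℕ} (hf : PT f) (hg : PT g) : PT (fun a => min (f a) (g a)) :=
  ((hf.le hg).ite hf hg).of_eq (fun a => by rw [min_def])

@[fun_prop] theorem PT.length {l : α → List β} (hl : PT l) : PT (fun a => (l a).length) :=
  (PT.foldl_meas (f := fun _ (n : ℕ) _ => n + 1) hl (PT.const 0) (by fun_prop) Nat.size 4 sz_nat_le
    size_le_sz (fun _ => 2) (PB.const 2) (fun _ c _ => size_add_le c 1)).of_eq (fun a => by
      have : ∀ (L : List β) (c : ℕ), L.foldl (fun n _ => n + 1) c = c + L.length := by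
        intro L; induction L with
        | nil => simp
        | cons x L ih => intro c; simp [ih]; omega
      simp [this])

theorem sz_range_le (k : ℕ) : sz (List.range k) ≤ k * (4 * k + 5) + 1 := by
  induction k with
  | zero => simp [sz_nil]
  | succ k ih =>
    have h1 := sz_append (List.range k) [k]
    rw [sz_cons, sz_nil, ← List.range_succ] at h1
    have h2 := sz_nat_le k
    have h3 : k.size ≤ k := Nat.size_le.2 Nat.lt_two_pow_self
    nlinarith

theorem PT.rangeL {l : α → List β} (hl : PT l) : PT (fun a => List.range (l a).length) := by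
  have key : ∀ (L : List β) (c : ℕ), L.foldl (fun (u : List ℕ) _ => u ++ [u.length]) (List.range c)
      = List.range (c + L.length) := by
    intro L; induction L with
    | nil => simp
    | cons x L ih =>
      intro c
      simp only [List.foldl_cons, List.length_range, ← List.range_succ, ih, List.length_cons]
      congr 1; omega
  refine (PT.foldl (f := fun _ (u : List ℕ) _ => u ++ [u.length]) hl (PT.const (List.range 0))
    (by fun_prop) (fun a => (l a).length * (4 * (l a).length + 5) + 1)
    (((PB.length hl).mul (((PB.const 4).mul (PB.length hl)).add (PB.const 5))).add (PB.const 1))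
    (fun a k => ?_)).of_eq (fun a => by rw [key]; simp)
  rw [key]
  refine (sz_range_le _).trans ?_
  have : 0 + ((l a).take k).length ≤ (l a).length := by simp
  gcongr

theorem PT.cd' : PT (fun a : α => cd a) :=
  ⟨inP, fun a => 24 * sz a + 7, ((PB.const 24).mul PB.size).add (PB.const 7), fun a => run_in _⟩

theorem exists_unary (P : Polynomial ℕ) :
    ∃ U : α → List Unit, PT U ∧ ∀ a, P.eval (sz a) ≤ (U a).length := by
  induction P using Polynomial.induction_on with
  | C c => exact ⟨fun _ => List.replicate c (), PT.const _, fun _ => by simp⟩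
  | add p q hp hq =>
    obtain ⟨U, hU, h1⟩ := hp; obtain ⟨V, hV, h2⟩ := hq
    exact ⟨fun a => U a ++ V a, hU.append hV, fun a => by simpa using add_le_add (h1 a) (h2 a)⟩
  | monomial n c h =>
    obtain ⟨U, hU, h1⟩ := h
    refine ⟨fun a => (cd a).flatMap (fun _ => U a), PT.cd'.flatMap (hU.comp (PT.fst PT.id')),
      fun a => ?_⟩
    have := h1 a
    simp only [Polynomial.eval_mul, Polynomial.eval_C, Polynomial.eval_pow, Polynomial.eval_X] at this ⊢
    simp only [List.length_flatMap, List.map_const', List.sum_replicate, smul_eq_mul]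
    rw [pow_succ, ← mul_assoc, mul_comm]
    exact Nat.mul_le_mul_left _ this

attribute [fun_prop] PB
attribute [fun_prop] PB.const PB.comp PB.add PB.mul PB.pow PB.length

@[fun_prop] theorem PB.sub {f g : α → ℕ} (hf : PB f) : PB (fun a => f a - g a) :=
  hf.of_le (fun _ => Nat.sub_le _ _)
@[fun_prop] theorem PB.div {f g : α → ℕ} (hf : PB f) : PB (fun a => f a / g a) :=
  hf.of_le (fun _ => Nat.div_le_self _ _)
@[fun_prop] theorem PB.min {f g : α → ℕ} (hg : PB g) : PB (fun a => min (f a) (g a)) :=
  hg.of_le (fun _ => min_le_right _ _)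

@[fun_prop] theorem PT.range {e : α → ℕ} (he : PT e) (hb : PB e) :
    PT (fun a => List.range (e a)) := by
  obtain ⟨P, hP⟩ := hb
  obtain ⟨U, hU, h⟩ := exists_unary (α := α) P
  refine (PT.filter (f := fun a x => decide (x < e a)) hU.rangeL (by fun_prop)).of_eq (fun a => ?_)
  obtain ⟨k, hk⟩ := Nat.exists_eq_add_of_le ((hP a).trans (h a))
  rw [hk, List.range_add, List.filter_append, List.filter_eq_self.2 (by simp),
    List.filter_eq_nil_iff.2 (by simp)]
  simp

@[fun_prop] theorem PT.pow {f e : α → ℕ} (hf : PT f) (he : PT e) (hb : PB e) :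
    PT (fun a => f a ^ e a) :=
  (PT.foldl_meas (f := fun a (c : ℕ) (_ : ℕ) => c * f a) (he.range hb) (PT.const 1) (by fun_prop)
    Nat.size 4 sz_nat_le size_le_sz (fun p => sz (f p.1)) (hf.comp (PT.fst PT.id')).szb
    (fun a c _ => (size_mul_le c (f a)).trans (Nat.add_le_add_left (size_le_sz (f a)) _))).of_eq
    (fun a => by
      rw [List.foldl_const, List.length_range]
      induction e a with
      | zero => simp
      | succ k ih => rw [iterate_succ_apply', ih, pow_succ])

@[fun_prop] theorem PT.size {f : α → ℕ} (hf : PT f) : PT (fun a => (f a).size) :=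
  hf.bits.length.of_eq (fun _ => Nat.size_eq_bits_len _)

@[fun_prop] theorem PB.natSize {f : α → ℕ} (hf : PT f) : PB (fun a => (f a).size) :=
  hf.szb.of_le (fun _ => size_le_sz _)

@[fun_prop] theorem PB.two_pow_size {f : α → ℕ} (hf : PB f) : PB (fun a => 2 ^ (f a).size) :=
  (((PB.const 2).mul hf).add (PB.const 1)).of_le (fun a => by
    rcases Nat.eq_zero_or_pos (f a) with h | h
    · simp [h]
    · have h1 : (f a).size - 1 < (f a).size := by
        have := Nat.size_pos.2 h; omega
      have h2 := Nat.lt_size.1 h1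
      have h3 : (f a).size = (f a).size - 1 + 1 := by omega
      rw [h3, pow_succ]; omega)

@[fun_prop] theorem PT.natCode {f : α → ℕ} (hf : PT f) : PT (fun a => Crest.Enc.natCode (f a)) := by
  unfold Crest.Enc.natCode; fun_prop

/-! ### integers -/

instance : Enc ℤ := ⟨fun z => enc (z.toNat, (-z).toNat)⟩

@[fun_prop] theorem PT.toNat {f : α → ℤ} (hf : PT f) : PT (fun a => (f a).toNat) :=
  PT.fst (f := fun a => ((f a).toNat, (-f a).toNat)) (hf.ofEncOut (fun _ => rfl))

@[fun_prop] theorem PT.neg {f : α → ℤ} (hf : PT f) : PT (fun a => -f a) := by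
  have h : PT (fun a => ((f a).toNat, (-f a).toNat)) := hf.ofEncOut (fun _ => rfl)
  refine (h.snd.pair h.fst).ofEncOut (fun a => ?_)
  show _ = enc ((-f a).toNat, (-(-f a)).toNat)
  simp

theorem PT.ofSub {f g : α → ℕ} (hf : PT f) (hg : PT g) : PT (fun a => (f a : ℤ) - g a) := by
  refine ((hf.sub hg).pair (hg.sub hf)).ofEncOut (fun a => ?_)
  show _ = enc (((f a : ℤ) - g a).toNat, (-((f a : ℤ) - g a)).toNat)
  simp

@[fun_prop] theorem PT.natCast {f : α → ℕ} (hf : PT f) : PT (fun a => (f a : ℤ)) :=
  (hf.ofSub (PT.const 0)).of_eq (fun a => by simp)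

@[fun_prop] theorem PT.iadd {f g : α → ℤ} (hf : PT f) (hg : PT g) : PT (fun a => f a + g a) :=
  ((hf.toNat.add hg.toNat).ofSub (hf.neg.toNat.add hg.neg.toNat)).of_eq (fun a => by omega)

@[fun_prop] theorem PT.isub {f g : α → ℤ} (hf : PT f) (hg : PT g) : PT (fun a => f a - g a) :=
  (hf.iadd hg.neg).of_eq (fun a => by omega)

@[fun_prop] theorem PT.natAbs {f : α → ℤ} (hf : PT f) : PT (fun a => (f a).natAbs) :=
  (hf.toNat.add hf.neg.toNat).of_eq (fun a => by omega)

@[fun_prop] theorem PT.imul {f g : α → ℤ} (hf : PT f) (hg : PT g) : PT (fun a => f a * g a) :=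
  (((hf.toNat.mul hg.toNat).add (hf.neg.toNat.mul hg.neg.toNat)).ofSub
    ((hf.toNat.mul hg.neg.toNat).add (hf.neg.toNat.mul hg.toNat))).of_eq (fun a => by
      have h1 := Int.toNat_sub_toNat_neg (f a)
      have h2 := Int.toNat_sub_toNat_neg (g a)
      push_cast
      generalize ((f a).toNat : ℤ) = x at *
      generalize ((g a).toNat : ℤ) = y at *
      generalize ((-f a).toNat : ℤ) = x' at *
      generalize ((-g a).toNat : ℤ) = y' at *
      rw [← h1, ← h2]; ring)

@[fun_prop] theorem PT.ilt {f g : α → ℤ} [∀ a, Decidable (f a < g a)] (hf : PT f) (hg : PT g) :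
    PT (fun a => decide (f a < g a)) :=
  ((PT.const 0).lt (hg.isub hf).toNat).of_eq (fun a => by simp)

theorem sz_int_le (z : ℤ) : sz z ≤ 9 * z.natAbs.size + 9 := by
  show sz (z.toNat, (-z).toNat) ≤ _
  rw [sz_pair]
  have h1 := sz_nat_le z.toNat
  have h2 := sz_nat_le (-z).toNat
  have h3 := Nat.size_le_size (show z.toNat ≤ z.natAbs by omega)
  have h4 := Nat.size_le_size (show (-z).toNat ≤ z.natAbs by omega)
  omega

theorem isize_le_sz (z : ℤ) : z.natAbs.size ≤ sz z := by
  show _ ≤ sz (z.toNat, (-z).toNat)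
  rw [sz_pair]
  have h1 := size_le_sz z.toNat
  have h2 := size_le_sz (-z).toNat
  have h3 := size_add_le z.toNat (-z).toNat
  rw [show z.toNat + (-z).toNat = z.natAbs by omega] at h3
  omega

@[fun_prop] theorem PT.isum {l : α → List ℤ} (hl : PT l) : PT (fun a => (l a).sum) :=
  (PT.foldl_meas (f := fun _ (c : ℤ) x => c + x) hl (PT.const 0) (by fun_prop)
    (fun z => z.natAbs.size) 9 sz_int_le isize_le_sz (fun p => sz p.2 + 1)
    ((PT.snd PT.id').szb.add (PB.const 1)) (fun _ c x => by
      have h1 := Nat.size_le_size (Int.natAbs_add_le c x)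
      have h2 := size_add_le c.natAbs x.natAbs
      have h3 := isize_le_sz x
      simp only; omega)).of_eq (fun a => by rw [List.sum_eq_foldl])

@[fun_prop] theorem PT.iprod {l : α → List ℤ} (hl : PT l) : PT (fun a => (l a).prod) :=
  (PT.foldl_meas (f := fun _ (c : ℤ) x => c * x) hl (PT.const 1) (by fun_prop)
    (fun z => z.natAbs.size) 9 sz_int_le isize_le_sz (fun p => sz p.2)
    (PT.snd PT.id').szb (fun _ c x => by
      have h2 := size_mul_le c.natAbs x.natAbs
      have h3 := isize_le_sz x
      simp only [Int.natAbs_mul]; omega)).of_eq (fun a => by rw [List.prod_eq_foldl])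

@[fun_prop] theorem PT.finsum {e : α → ℕ} {f : α → ℕ → ℤ} (he : PT e) (hb : PB e)
    (hf : PT (fun p : α × ℕ => f p.1 p.2)) : PT (fun a => ∑ i ∈ Finset.range (e a), f a i) :=
  ((he.range hb).map hf).isum.of_eq (fun a => by
    rw [Finset.sum_eq_multiset_sum, Finset.range_val, Multiset.range]; simp)

@[fun_prop] theorem PT.finprod {e : α → ℕ} {f : α → ℕ → ℤ} (he : PT e) (hb : PB e)
    (hf : PT (fun p : α × ℕ => f p.1 p.2)) : PT (fun a => ∏ i ∈ Finset.range (e a), f a i) :=
  ((he.range hb).map hf).iprod.of_eq (fun a => by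
    rw [Finset.prod_eq_multiset_prod, Finset.range_val, Multiset.range]; simp)

@[fun_prop] theorem PT.ipow {f : α → ℤ} {e : α → ℕ} (hf : PT f) (he : PT e) (hb : PB e) :
    PT (fun a => f a ^ e a) :=
  (PT.finprod (f := fun a _ => f a) he hb (by fun_prop)).of_eq (fun a => by simp)

/-! ### parsing `… 1^n 0 1^s` -/

/-- reads the two unary numbers at the end of the input -/
def parse (x : List Bool) : List Unit × List Unit :=
  (ones (dropL x.reverse (() :: ones x.reverse)), ones x.reverse)

theorem PT.parse : PT parse := by unfold Ptime.parse; fun_prop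

theorem parse_spec (w : List Bool) (hw : w.reverse.head? ≠ some true) (n s : ℕ) :
    (parse (w ++ List.replicate n true ++ false :: List.replicate s true)).1.length = n ∧
    (parse (w ++ List.replicate n true ++ false :: List.replicate s true)).2.length = s := by
  have e : (w ++ List.replicate n true ++ false :: List.replicate s true).reverse =
      List.replicate s true ++ false :: (List.replicate n true ++ w.reverse) := by simp
  have h1 := ones_length s (false :: (List.replicate n true ++ w.reverse)) (by simp)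
  unfold parse
  rw [e]
  refine ⟨?_, h1⟩
  simp only [dropL, List.length_cons, h1]
  rw [show List.replicate s true ++ false :: (List.replicate n true ++ w.reverse) =
    (List.replicate s true ++ [false]) ++ (List.replicate n true ++ w.reverse) by simp,
    List.drop_left' (by simp)]
  exact ones_length n _ hw

example : PT (fun a : List Unit × List Unit =>
    Crest.Enc.natCode (2 * a.1.length * a.2.length ^ 2) ++
    (List.range a.1.length).flatMap fun i => (List.range (2 * a.1.length * a.2.length ^ 2)).flatMap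
      fun k => (List.range (2 * a.1.length * a.2.length ^ 2)).flatMap fun l =>
        if l < k ∧ (k - l) % a.1.length = (i + 1) % a.1.length then
          true :: (Crest.Enc.natCode 1 ++
            Crest.Enc.natCode (2 ^ (min k (2 * a.1.length * a.2.length ^ 2)) - 1))
        else false :: (Crest.Enc.natCode 0 ++ Crest.Enc.natCode 1)) := by
  fun_prop

end Crest.Agent.H3.Ptime
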