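import Mathlib

set_option autoImplicit false

/-! Timed stack programs and their compilation to multi-stack machines. -/

namespace Crest.Agent.H3.Ptime
open Function Turing

inductive Prog
  | skip
  | push (r : ℕ) (b : Bool)
  | pop (r : ℕ)
  | seq (p q : Prog)
  | ite (r : ℕ) (p q : Prog)
  | whl (r : ℕ) (p : Prog)

abbrev St := ℕ → List Bool

inductive Run : Prog → St → ℕ → St → Prop
  | skip (s : St) : Run .skip s 1 s
  | push (r : ℕ) (b : Bool) (s : St) : Run (.push r b) s 1 (update s r (b :: s r))
  | pop (r : ℕ) (s : St) : Run (.pop r) s 1 (update s r (s r).tail)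
  | seq {p q : Prog} {s s' s'' : St} {t t' : ℕ} : Run p s t s' → Run q s' t' s'' →
      Run (.seq p q) s (t + t') s''
  | iteT {r : ℕ} {p q : Prog} {s s' : St} {t : ℕ} : (s r).head? = some true → Run p s t s' →
      Run (.ite r p q) s (t + 1) s'
  | iteF {r : ℕ} {p q : Prog} {s s' : St} {t : ℕ} : (s r).head? ≠ some true → Run q s t s' →
      Run (.ite r p q) s (t + 1) s'
  | whl0 {r : ℕ} {p : Prog} {s : St} : s r = [] → Run (.whl r p) s 1 s
  | whlS {r : ℕ} {p : Prog} {s s' s'' : St} {t t' : ℕ} : s r ≠ [] → Run p s t s' →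
      Run (.whl r p) s' t' s'' → Run (.whl r p) s (t + t' + 1) s''

def Prog.nv : Prog → ℕ
  | .skip => 0
  | .push r _ => r + 1
  | .pop r => r + 1
  | .seq p q => max p.nv q.nv
  | .ite r p q => max (r + 1) (max p.nv q.nv)
  | .whl r p => max (r + 1) p.nv

theorem Run.frame {p : Prog} {s s' : St} {t : ℕ} (h : Run p s t s') (m : ℕ) (v : List Bool)
    (hm : p.nv ≤ m) : Run p (update s m v) t (update s' m v) := by
  induction h with
  | skip s => exact .skip _
  | push r b s =>
    have hkm : r ≠ m := by simp [Prog.nv] at hm; omega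
    have := Run.push r b (update s m v)
    rw [update_of_ne hkm, update_comm hkm.symm] at this
    exact this
  | pop r s =>
    have hkm : r ≠ m := by simp [Prog.nv] at hm; omega
    have := Run.pop r (update s m v)
    rw [update_of_ne hkm, update_comm hkm.symm] at this
    exact this
  | seq _ _ a b =>
    simp [Prog.nv] at hm
    exact .seq (a hm.1) (b hm.2)
  | @iteT r p q s s' t h _ a =>
    have hkm : r ≠ m := by simp [Prog.nv] at hm; omega
    exact .iteT (by simpa [hkm] using h) (a (by simp [Prog.nv] at hm; omega))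
  | @iteF r p q s s' t h _ a =>
    have hkm : r ≠ m := by simp [Prog.nv] at hm; omega
    exact .iteF (by simpa [hkm] using h) (a (by simp [Prog.nv] at hm; omega))
  | @whl0 r p s h =>
    have hkm : r ≠ m := by simp [Prog.nv] at hm; omega
    exact .whl0 (by simpa [hkm] using h)
  | @whlS r p s s' s'' t t' h _ _ a b =>
    have hkm : r ≠ m := by simp [Prog.nv] at hm; omega
    exact .whlS (by simpa [hkm] using h) (a (by simp [Prog.nv] at hm; omega)) (b hm)

theorem Run.length_le {p : Prog} {s s' : St} {t : ℕ} (h : Run p s t s') (k : ℕ) :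
    (s' k).length ≤ (s k).length + t := by
  induction h with
  | skip s => omega
  | push r b s =>
    by_cases hk : k = r
    · subst hk; simp
    · simp [hk]
  | pop r s =>
    by_cases hk : k = r
    · subst hk; simp; omega
    · simp [hk]
  | seq _ _ a b => omega
  | iteT _ _ a => omega
  | iteF _ _ a => omega
  | whl0 _ => omega
  | whlS _ _ _ a b => omega

/-! ### compilation -/

def Prog.L : Prog → Type
  | .skip => Unit
  | .push _ _ => Unit
  | .pop _ => Unit
  | .seq p q => p.L ⊕ q.L
  | .ite _ p q => Option (p.L ⊕ q.L)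
  | .whl _ p => Option p.L

@[reducible] def Prog.finL : (p : Prog) → Fintype p.L
  | .skip => inferInstanceAs (Fintype Unit)
  | .push _ _ => inferInstanceAs (Fintype Unit)
  | .pop _ => inferInstanceAs (Fintype Unit)
  | .seq p q => @instFintypeSum _ _ p.finL q.finL
  | .ite _ p q => @instFintypeOption _ (@instFintypeSum _ _ p.finL q.finL)
  | .whl _ p => @instFintypeOption _ p.finL

def Prog.start : (p : Prog) → p.L
  | .skip => ()
  | .push _ _ => ()
  | .pop _ => ()
  | .seq p _ => Sum.inl p.start
  | .ite _ _ _ => none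
  | .whl _ _ => none

def fv (n r : ℕ) : Fin (n + 1) := ⟨r % (n + 1), Nat.mod_lt _ (Nat.succ_pos _)⟩

abbrev Stm (n : ℕ) (A : Type) := TM2.Stmt (fun _ : Fin (n + 1) => Bool) A (Option Bool)

def Prog.code {n : ℕ} {A : Type} : (p : Prog) → (p.L → A) → Stm n A → p.L → Stm n A
  | .skip, _, k, _ => k
  | .push r b, _, k, _ => .push (fv n r) (fun _ => b) k
  | .pop r, _, k, _ => .pop (fv n r) (fun v _ => v) k
  | .seq p q, e, _, Sum.inl l => p.code (fun l => e (Sum.inl l)) (.goto fun _ => e (Sum.inr q.start)) l
  | .seq _ q, e, k, Sum.inr l => q.code (fun l => e (Sum.inr l)) k l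
  | .ite r p q, e, _, none => .peek (fv n r) (fun _ x => x) (.branch (fun v => v == some true)
      (.load (fun _ => none) (.goto fun _ => e (some (Sum.inl p.start))))
      (.load (fun _ => none) (.goto fun _ => e (some (Sum.inr q.start)))))
  | .ite _ p _, e, k, some (Sum.inl l) => p.code (fun l => e (some (Sum.inl l))) k l
  | .ite _ _ q, e, k, some (Sum.inr l) => q.code (fun l => e (some (Sum.inr l))) k l
  | .whl r p, e, k, none => .peek (fv n r) (fun _ x => x) (.branch (fun v => v.isNone)
      (.load (fun _ => none) k)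
      (.load (fun _ => none) (.goto fun _ => e (some p.start))))
  | .whl _ p, e, _, some l => p.code (fun l => e (some l)) (.goto fun _ => e none) l

def res (n : ℕ) (s : St) : Fin (n + 1) → List Bool := fun k => s k

theorem res_fv {n r : ℕ} (h : r < n + 1) (s : St) : res n s (fv n r) = s r := by
  simp [res, fv, Nat.mod_eq_of_lt h]

theorem res_update {n r : ℕ} (h : r < n + 1) (s : St) (v : List Bool) :
    update (res n s) (fv n r) v = res n (update s r v) := by
  funext k
  by_cases hk : k = fv n r
  · subst hk; simp [res, fv, Nat.mod_eq_of_lt h]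
  · rw [update_of_ne hk]
    have : (k : ℕ) ≠ r := by
      intro h'
      apply hk
      ext; simp [fv, Nat.mod_eq_of_lt h, h']
    simp [res, this]

theorem Run.compile {n : ℕ} {A : Type} (M : A → Stm n A) {p : Prog} {s s' : St} {t : ℕ}
    (h : Run p s t s') : p.nv ≤ n + 1 → ∀ (e : p.L → A) (k : Stm n A),
      (∀ l, M (e l) = p.code e k l) →
      (flip bind (TM2.step M))^[t] (some ⟨some (e p.start), none, res n s⟩) =
        some (TM2.stepAux k none (res n s')) := by
  induction h with
  | skip s =>
    intro _ e k he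
    simp [flip, he, Prog.code, Prog.start]
  | push r b s =>
    intro hn e k he
    have hr : r < n + 1 := by simp [Prog.nv] at hn; omega
    simp [flip, he, Prog.code, Prog.start, res_fv hr, res_update hr]
  | pop r s =>
    intro hn e k he
    have hr : r < n + 1 := by simp [Prog.nv] at hn; omega
    simp [flip, he, Prog.code, Prog.start, res_fv hr, res_update hr]
  | @seq p q s s' s'' t t' _ _ a b =>
    intro hn e k he
    simp only [Prog.nv, max_le_iff] at hn
    rw [add_comm t t', iterate_add_apply]
    have h1 := a hn.1 (fun l => e (Sum.inl l)) _ (fun l => he (Sum.inl l))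
    have h2 := b hn.2 (fun l => e (Sum.inr l)) k (fun l => he (Sum.inr l))
    exact (congrArg _ h1).trans h2
  | @iteT r p q s s' t h _ a =>
    intro hn e k he
    simp only [Prog.nv, max_le_iff] at hn
    have hr : r < n + 1 := by omega
    rw [iterate_succ_apply]
    have h1 := a hn.2.1 (fun l => e (some (Sum.inl l))) k (fun l => he (some (Sum.inl l)))
    refine Eq.trans (congrArg _ ?_) h1
    simp [flip, he, Prog.code, Prog.start, res_fv hr, h]
  | @iteF r p q s s' t h _ a =>
    intro hn e k he
    simp only [Prog.nv, max_le_iff] at hn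
    have hr : r < n + 1 := by omega
    rw [iterate_succ_apply]
    have h1 := a hn.2.2 (fun l => e (some (Sum.inr l))) k (fun l => he (some (Sum.inr l)))
    refine Eq.trans (congrArg _ ?_) h1
    have h' : ((s r).head? == some true) = false := by simpa using h
    simp [flip, he, Prog.code, Prog.start, res_fv hr, h']
  | @whl0 r p s h =>
    intro hn e k he
    simp only [Prog.nv, max_le_iff] at hn
    have hr : r < n + 1 := by omega
    simp [flip, he, Prog.code, Prog.start, res_fv hr, h]
  | @whlS r p s s' s'' t t' h _ _ a b =>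
    intro hn e k he
    have hn' := hn
    simp only [Prog.nv, max_le_iff] at hn
    have hr : r < n + 1 := by omega
    rw [iterate_succ_apply, add_comm t t', iterate_add_apply]
    have h1 := a hn.2 (fun l => e (some l)) _ (fun l => he (some l))
    have h2 := b hn' e k he
    refine Eq.trans (congrArg _ (Eq.trans (congrArg _ ?_) h1)) h2
    have h' : (s r).head?.isNone = false := by
      cases hs : s r with
      | nil => exact absurd hs h
      | cons a l => rfl
    simp [flip, he, Prog.code, Prog.start, res_fv hr, h']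

/-- the state with `l` in register `0` -/
def sg (l : List Bool) : St := update (fun _ => []) 0 l

/-- the machine of a program -/
def Prog.tm (p : Prog) : FinTM2 where
  K := Fin (p.nv + 1)
  k₀ := 0
  k₁ := 0
  Γ := fun _ => Bool
  Λ := p.L
  main := p.start
  ΛFin := p.finL
  σ := Option Bool
  initialState := none
  m := p.code id .halt

/-- bounded runs -/
def R (p : Prog) (s : St) (T : ℕ) (s' : St) : Prop := ∃ t ≤ T, Run p s t s'

theorem tm_of_prog (f : List Bool → List Bool) (p : Prog) (P : Polynomial ℕ)
    (h : ∀ x, R p (sg x) (P.eval x.length) (sg (f x))) :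
    Nonempty (TM2ComputableInPolyTime (Computability.encodingList Bool).encode
      (Computability.encodingList Bool).encode f) := by
  have hres : ∀ x : List Bool, res p.nv (sg x) = fun k : Fin (p.nv + 1) =>
      if k = 0 then x else [] := by
    intro x; funext k
    by_cases hk : k = 0
    · subst hk; simp [res, sg]
    · have : (k : ℕ) ≠ 0 := fun h => hk (Fin.ext h)
      simp [res, sg, hk, this]
  refine ⟨{ tm := p.tm
            inputAlphabet := Equiv.refl _
            outputAlphabet := Equiv.refl _
            time := P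
            outputsFun := fun x =>
              { steps := (h x).choose
                evals_in_steps := ?_
                steps_le_m := (h x).choose_spec.1 } }⟩
  have := Run.compile (n := p.nv) (p.code id .halt) (h x).choose_spec.2 (Nat.le_succ _) id .halt
    (fun _ => rfl)
  have e1 : initList p.tm (List.map (Equiv.refl Bool).invFun ((Computability.encodingList Bool).encode x))
      = ⟨some p.start, none, res p.nv (sg x)⟩ := by
    rw [hres]
    simp only [initList, Computability.encodingList]
    congr 1
    funext k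
    by_cases hk : k = (0 : Fin (p.nv + 1))
    · subst hk; simp [Prog.tm]
    · simp [Prog.tm, hk]
  have e2 : haltList p.tm (List.map (Equiv.refl Bool).invFun
      ((Computability.encodingList Bool).encode (f x))) = ⟨none, none, res p.nv (sg (f x))⟩ := by
    rw [hres]
    simp only [haltList, Computability.encodingList]
    congr 1
    funext k
    by_cases hk : k = (0 : Fin (p.nv + 1))
    · subst hk; simp [Prog.tm]
    · simp [Prog.tm, hk]
  exact (congrArg (fun c => (flip bind p.tm.step)^[(h x).choose] (some c)) e1).trans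
    (this.trans (congrArg some e2.symm))

/-! ### calculus of bounded runs -/

theorem R.mono {p : Prog} {s s' : St} {T T' : ℕ} (h : R p s T s') (hT : T ≤ T') : R p s T' s' := by
  obtain ⟨t, h1, h2⟩ := h; exact ⟨t, h1.trans hT, h2⟩

theorem R.cast {p : Prog} {s s' s'' : St} {T : ℕ} (h : R p s T s') (e : s' = s'') : R p s T s'' :=
  e ▸ h

theorem R.skip (s : St) : R .skip s 1 s := ⟨1, le_rfl, .skip s⟩
theorem R.push (r : ℕ) (b : Bool) (s : St) : R (.push r b) s 1 (update s r (b :: s r)) :=
  ⟨1, le_rfl, .push r b s⟩
theorem R.pop (r : ℕ) (s : St) : R (.pop r) s 1 (update s r (s r).tail) := ⟨1, le_rfl, .pop r s⟩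
theorem R.seq {p q : Prog} {s s' s'' : St} {t t' : ℕ} (h : R p s t s') (h' : R q s' t' s'') :
    R (.seq p q) s (t + t') s'' := by
  obtain ⟨a, a1, a2⟩ := h; obtain ⟨b, b1, b2⟩ := h'
  exact ⟨a + b, by omega, .seq a2 b2⟩
theorem R.iteT {r : ℕ} {p q : Prog} {s s' : St} {t : ℕ} (h : (s r).head? = some true)
    (h' : R p s t s') : R (.ite r p q) s (t + 1) s' := by
  obtain ⟨a, a1, a2⟩ := h'; exact ⟨a + 1, by omega, .iteT h a2⟩
theorem R.iteF {r : ℕ} {p q : Prog} {s s' : St} {t : ℕ} (h : (s r).head? ≠ some true)
    (h' : R q s t s') : R (.ite r p q) s (t + 1) s' := by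
  obtain ⟨a, a1, a2⟩ := h'; exact ⟨a + 1, by omega, .iteF h a2⟩
theorem R.whl0 {r : ℕ} {p : Prog} {s : St} (h : s r = []) : R (.whl r p) s 1 s :=
  ⟨1, le_rfl, .whl0 h⟩
theorem R.whlS {r : ℕ} {p : Prog} {s s' s'' : St} {t t' : ℕ} (h : s r ≠ []) (h1 : R p s t s')
    (h2 : R (.whl r p) s' t' s'') : R (.whl r p) s (t + t' + 1) s'' := by
  obtain ⟨a, a1, a2⟩ := h1; obtain ⟨b, b1, b2⟩ := h2
  exact ⟨a + b + 1, by omega, .whlS h a2 b2⟩
theorem R.frame {p : Prog} {s s' : St} {t : ℕ} (h : R p s t s') (m : ℕ) (v : List Bool)
    (hm : p.nv ≤ m) : R p (update s m v) t (update s' m v) := by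
  obtain ⟨a, a1, a2⟩ := h; exact ⟨a, a1, a2.frame m v hm⟩
theorem R.length_le {p : Prog} {s s' : St} {t : ℕ} (h : R p s t s') (k : ℕ) :
    (s' k).length ≤ (s k).length + t := by
  obtain ⟨a, a1, a2⟩ := h; have := a2.length_le k; omega

end Crest.Agent.H3.Ptime
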